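import Mathlib
import Vale.Agent.P204.Torus.Defs

/-!
# P204, module C: square norms and difference quotients of compactly supported functions

Everything is stated for smooth functions with compact support on coordinate space with values in a
finite dimensional inner product space. `dqL h l` is the iterated difference quotient, `nK h k` the
sum of the norms of all iterates of order at most `k`.
-/

open MeasureTheory Filter Set
open scoped ContDiff Topology InnerProductSpace

namespace Vale.Agent.P204.General.Ext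

/-- Smooth with compact support. -/
structure Sm {G : Type*} [NormedAddCommGroup G] [NormedSpace ℝ G] (f : Pt → G) : Prop where
  smooth : ContDiff ℝ ∞ f
  supp : HasCompactSupport f

/-- The partial derivative of a vector valued function. -/
noncomputable def dd {G : Type*} [NormedAddCommGroup G] [NormedSpace ℝ G] (d : Fin 4) (f : Pt → G)
    (x : Pt) : G := fderiv ℝ f x (Pi.single d 1)

/-- The translate by `h` in direction `d`. -/
noncomputable def trl {G : Type*} (h : ℝ) (d : Fin 4) (f : Pt → G) (x : Pt) : G :=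
  f (x + h • Pi.single d (1 : ℝ))

/-- The difference quotient. -/
noncomputable def dq {G : Type*} [NormedAddCommGroup G] [NormedSpace ℝ G] (h : ℝ) (d : Fin 4)
    (f : Pt → G) (x : Pt) : G := h⁻¹ • (trl h d f x - f x)

/-- Iterated difference quotients, the head of the list first. -/
noncomputable def dqL {G : Type*} [NormedAddCommGroup G] [NormedSpace ℝ G] (h : ℝ) :
    List (Fin 4) → (Pt → G) → Pt → G
  | [], f => f
  | d :: l, f => dqL h l (dq h d f)

section basic
variable {G : Type*} [NormedAddCommGroup G] [NormedSpace ℝ G] {f g : Pt → G}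

theorem Sm.zero : Sm (0 : Pt → G) :=
  ⟨contDiff_const, HasCompactSupport.zero⟩

theorem Sm.add (hf : Sm f) (hg : Sm g) : Sm (f + g) := ⟨hf.smooth.add hg.smooth, hf.supp.add hg.supp⟩

theorem Sm.smul (t : ℝ) (hf : Sm f) : Sm (t • f) :=
  ⟨hf.smooth.const_smul t, hf.supp.smul_left⟩

theorem Sm.neg (hf : Sm f) : Sm (-f) := ⟨hf.smooth.neg, hf.supp.neg⟩

theorem Sm.sub (hf : Sm f) (hg : Sm g) : Sm (f - g) := by
  rw [sub_eq_add_neg]; exact hf.add hg.neg

theorem Sm.sum {ι : Type*} {s : Finset ι} {F : ι → Pt → G} (h : ∀ i ∈ s, Sm (F i)) :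
    Sm (∑ i ∈ s, F i) := by
  classical
  induction s using Finset.induction_on with
  | empty => exact Sm.zero
  | insert a t ha ih =>
    rw [Finset.sum_insert ha]
    exact (h a (Finset.mem_insert_self a t)).add (ih fun i hi => h i (Finset.mem_insert_of_mem hi))

theorem Sm.ddS (hf : Sm f) (d : Fin 4) : Sm (dd d f) :=
  ⟨(hf.smooth.fderiv_right (m := ∞) (by simp)).clm_apply contDiff_const,
    (hf.supp.fderiv (𝕜 := ℝ)).comp_left (g := fun T : Pt →L[ℝ] G => T (Pi.single d 1)) rfl⟩

theorem Sm.trlS (hf : Sm f) (h : ℝ) (d : Fin 4) : Sm (trl h d f) := by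
  refine ⟨?_, ?_⟩
  · exact ContDiff.comp hf.smooth
      (contDiff_id.add (contDiff_const (c := h • Pi.single (M := fun _ => ℝ) d 1)))
  · exact hf.supp.comp_homeomorph (Homeomorph.addRight (h • Pi.single (M := fun _ => ℝ) d 1))

theorem Sm.dqS (hf : Sm f) (h : ℝ) (d : Fin 4) : Sm (dq h d f) :=
  ((hf.trlS h d).sub hf).smul h⁻¹

theorem Sm.dqLS (hf : Sm f) (h : ℝ) (l : List (Fin 4)) : Sm (dqL h l f) := by
  induction l generalizing f with
  | nil => exact hf
  | cons d l ih => exact ih (hf.dqS h d)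

theorem dq_add (h : ℝ) (d : Fin 4) : dq h d (f + g) = dq h d f + dq h d g := by
  funext x; simp only [dq, trl, Pi.add_apply]; rw [← smul_add]; congr 1; abel

theorem dq_sub (h : ℝ) (d : Fin 4) : dq h d (f - g) = dq h d f - dq h d g := by
  funext x; simp only [dq, trl, Pi.sub_apply]; rw [← smul_sub]; congr 1; abel

theorem dqL_add (h : ℝ) (l : List (Fin 4)) : dqL h l (f + g) = dqL h l f + dqL h l g := by
  induction l generalizing f g with
  | nil => rfl
  | cons d l ih => simp only [dqL, dq_add, ih]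

theorem dqL_sub (h : ℝ) (l : List (Fin 4)) : dqL h l (f - g) = dqL h l f - dqL h l g := by
  induction l generalizing f g with
  | nil => rfl
  | cons d l ih => simp only [dqL, dq_sub, ih]

theorem dqL_append (h : ℝ) (l m : List (Fin 4)) : dqL h (l ++ m) f = dqL h m (dqL h l f) := by
  induction l generalizing f with
  | nil => rfl
  | cons d l ih => exact ih

theorem dq_comm (h : ℝ) (d e : Fin 4) : dq h d (dq h e f) = dq h e (dq h d f) := by
  funext x
  have he : x + h • Pi.single d (1 : ℝ) + h • Pi.single e (1 : ℝ)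
      = x + h • Pi.single e (1 : ℝ) + h • Pi.single d (1 : ℝ) := by abel
  simp only [dq, trl, he, smul_sub]
  abel

theorem dd_add (d : Fin 4) (hf : Sm f) (hg : Sm g) : dd d (f + g) = dd d f + dd d g := by
  funext x
  simp only [dd, Pi.add_apply, fderiv_add ((hf.smooth.differentiable (by norm_num)) x)
    ((hg.smooth.differentiable (by norm_num)) x), _root_.add_apply]

theorem dd_sub (d : Fin 4) (hf : Sm f) (hg : Sm g) : dd d (f - g) = dd d f - dd d g := by
  funext x
  simp only [dd, Pi.sub_apply, fderiv_sub ((hf.smooth.differentiable (by norm_num)) x)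
    ((hg.smooth.differentiable (by norm_num)) x), _root_.sub_apply]

theorem dd_trl (h : ℝ) (d e : Fin 4) : dd d (trl h e f) = trl h e (dd d f) := by
  funext x
  simp only [dd, trl]
  rw [show Ext.trl h e f = fun y => f (y + h • Pi.single e (1 : ℝ)) from rfl,
    fderiv_comp_add_right]

theorem dd_dq (hf : Sm f) (h : ℝ) (d e : Fin 4) : dd d (dq h e f) = dq h e (dd d f) := by
  funext x
  have h1 : Differentiable ℝ (trl h e f) := (hf.trlS h e).smooth.differentiable (by norm_num)
  have h2 : Differentiable ℝ f := hf.smooth.differentiable (by norm_num)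
  show fderiv ℝ (fun y => h⁻¹ • (trl h e f y - f y)) x _ = _
  rw [fderiv_fun_const_smul ((h1 x).fun_sub (h2 x)), fderiv_fun_sub (h1 x) (h2 x)]
  simp only [dq, ← dd_trl h d e, dd, _root_.smul_apply, _root_.sub_apply]

theorem dd_dqL (hf : Sm f) (h : ℝ) (d : Fin 4) (l : List (Fin 4)) :
    dd d (dqL h l f) = dqL h l (dd d f) := by
  induction l generalizing f with
  | nil => rfl
  | cons e l ih => simp only [dqL, ih (hf.dqS h e), dd_dq hf]

/-- All derivatives of order at most `k` are bounded by `C`. -/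
def Bd : ℕ → (Pt → G) → ℝ → Prop
  | 0, g, C => ∀ x, ‖g x‖ ≤ C
  | k + 1, g, C => (∀ x, ‖g x‖ ≤ C) ∧ ∀ d, Bd k (dd d g) C

theorem Bd.bound {k : ℕ} {C : ℝ} (hg : Bd k g C) : ∀ x, ‖g x‖ ≤ C := by
  cases k with
  | zero => exact hg
  | succ k => exact hg.1

theorem Bd.mono {k : ℕ} {C C' : ℝ} (hg : Bd k g C) (h : C ≤ C') : Bd k g C' := by
  induction k generalizing g with
  | zero => exact fun x => (hg x).trans h
  | succ k ih => exact ⟨fun x => (hg.1 x).trans h, fun d => ih (hg.2 d)⟩

theorem Bd.pred {k : ℕ} {C : ℝ} (hg : Bd (k + 1) g C) : Bd k g C := by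
  induction k generalizing g with
  | zero => exact hg.1
  | succ k ih => exact ⟨hg.1, fun d => ih (hg.2 d)⟩

theorem Sm.exists_bd (hg : Sm g) (k : ℕ) : ∃ C, 0 ≤ C ∧ Bd k g C := by
  induction k generalizing g with
  | zero =>
    obtain ⟨C, hC⟩ := hg.supp.exists_bound_of_continuous hg.smooth.continuous
    exact ⟨C, (norm_nonneg _).trans (hC 0), hC⟩
  | succ k ih =>
    obtain ⟨C, hC⟩ := hg.supp.exists_bound_of_continuous hg.smooth.continuous
    choose D hD0 hD using fun d => ih (hg.ddS d)
    have hC0 : 0 ≤ C := (norm_nonneg _).trans (hC 0)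
    refine ⟨C + ∑ d, D d, by have := Finset.sum_nonneg (fun d (_ : d ∈ Finset.univ) => hD0 d); linarith,
      fun x => (hC x).trans (le_add_of_nonneg_right (Finset.sum_nonneg fun d _ => hD0 d)),
      fun d => (hD d).mono ?_⟩
    have := Finset.single_le_sum (fun d _ => hD0 d) (Finset.mem_univ d)
    linarith

/-- The mean value inequality for a difference quotient. -/
theorem norm_dq_le (hg : Sm g) {C : ℝ} (hC0 : 0 ≤ C) (d : Fin 4) (hC : ∀ x, ‖dd d g x‖ ≤ C) (h : ℝ)
    (x : Pt) : ‖dq h d g x‖ ≤ C := by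
  set e : Pt := Pi.single d 1
  have hd : ∀ t ∈ (Set.univ : Set ℝ), HasDerivWithinAt (fun t => g (x + t • e))
      (dd d g (x + t • e)) Set.univ t := fun t _ => by
    have h1 : HasDerivAt (fun t : ℝ => x + t • e) e t := by
      simpa using ((hasDerivAt_id t).smul_const e).const_add x
    exact (((hg.smooth.differentiable (by norm_num)) _).hasFDerivAt.comp_hasDerivAt t
      h1).hasDerivWithinAt
  have h2 := convex_univ.norm_image_sub_le_of_norm_hasDerivWithin_le hd (fun t _ => hC _)
    (Set.mem_univ 0) (Set.mem_univ h)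
  simp only [zero_smul, add_zero, sub_zero, Real.norm_eq_abs] at h2
  rw [dq, norm_smul, norm_inv, Real.norm_eq_abs]
  rcases eq_or_ne h 0 with rfl | hh
  · simpa using hC0
  · rw [inv_mul_le_iff₀ (abs_pos.2 hh), mul_comm]
    exact h2

theorem Bd.dqS {k : ℕ} {C : ℝ} (hg : Sm g) (hC0 : 0 ≤ C) (hb : Bd (k + 1) g C) (h : ℝ) (d : Fin 4) :
    Bd k (dq h d g) C := by
  induction k generalizing g with
  | zero => exact fun x => norm_dq_le hg hC0 d (hb.2 d) h x
  | succ k ih =>
    refine ⟨fun x => norm_dq_le hg hC0 d (hb.2 d).bound h x, fun e => ?_⟩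
    rw [dd_dq hg]
    exact ih (hg.ddS e) (hb.2 e)

end basic

variable {E : Type*} [NormedAddCommGroup E] [InnerProductSpace ℝ E] {f g k : Pt → E}

/-- The pairing. -/
noncomputable def ip (f g : Pt → E) : ℝ := ∫ x, ⟪f x, g x⟫_ℝ

/-- The square norm. -/
noncomputable def n0 (f : Pt → E) : ℝ := Real.sqrt (ip f f)

/-- All iterated difference quotients of order at most `k`. -/
noncomputable def nK (h : ℝ) : ℕ → (Pt → E) → ℝ
  | 0, f => n0 f
  | k + 1, f => n0 f + ∑ d, nK h k (dq h d f)

/-- One derivative more. -/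
noncomputable def eK (h : ℝ) (k : ℕ) (f : Pt → E) : ℝ := nK h k f + ∑ d, nK h k (dd d f)

theorem Sm.inner_int (hf : Sm f) (hg : Sm g) : Integrable fun x => ⟪f x, g x⟫_ℝ :=
  (hf.smooth.continuous.inner hg.smooth.continuous).integrable_of_hasCompactSupport
    (hf.supp.mono fun x hx => by
      intro h; exact hx (by simp [h]))

theorem ip_comm (f g : Pt → E) : ip f g = ip g f :=
  integral_congr_ae (Eventually.of_forall fun x => real_inner_comm _ _)

theorem ip_add_left (hf : Sm f) (hg : Sm g) (hk : Sm k) : ip (f + g) k = ip f k + ip g k := by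
  simp only [ip, Pi.add_apply, inner_add_left]
  exact integral_add (hf.inner_int hk) (hg.inner_int hk)

theorem ip_sub_left (hf : Sm f) (hg : Sm g) (hk : Sm k) : ip (f - g) k = ip f k - ip g k := by
  simp only [ip, Pi.sub_apply, inner_sub_left]
  exact integral_sub (hf.inner_int hk) (hg.inner_int hk)

theorem ip_add_right (hf : Sm f) (hg : Sm g) (hk : Sm k) : ip k (f + g) = ip k f + ip k g := by
  rw [ip_comm, ip_add_left hf hg hk, ip_comm f, ip_comm g]

theorem ip_sub_right (hf : Sm f) (hg : Sm g) (hk : Sm k) : ip k (f - g) = ip k f - ip k g := by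
  rw [ip_comm, ip_sub_left hf hg hk, ip_comm f, ip_comm g]

theorem ip_smul_left (t : ℝ) (f g : Pt → E) : ip (t • f) g = t * ip f g := by
  simp only [ip, Pi.smul_apply, real_inner_smul_left, integral_const_mul]

theorem ip_smul_right (t : ℝ) (f g : Pt → E) : ip f (t • g) = t * ip f g := by
  rw [ip_comm, ip_smul_left, ip_comm]

theorem ip_sum_right {ι : Type*} {s : Finset ι} {F : ι → Pt → E} (hF : ∀ i ∈ s, Sm (F i))
    (hf : Sm f) : ip f (∑ i ∈ s, F i) = ∑ i ∈ s, ip f (F i) := by
  classical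
  induction s using Finset.induction_on with
  | empty => simp [ip]
  | insert a t ha ih =>
    rw [Finset.sum_insert ha, Finset.sum_insert ha,
      ip_add_right (hF a (Finset.mem_insert_self a t))
        (Sm.sum fun i hi => hF i (Finset.mem_insert_of_mem hi)) hf,
      ih fun i hi => hF i (Finset.mem_insert_of_mem hi)]

theorem ip_self_nonneg (f : Pt → E) : 0 ≤ ip f f :=
  integral_nonneg fun _ => real_inner_self_nonneg

theorem n0_nonneg (f : Pt → E) : 0 ≤ n0 f := Real.sqrt_nonneg _

theorem sq_n0 (f : Pt → E) : n0 f ^ 2 = ip f f := Real.sq_sqrt (ip_self_nonneg f)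

theorem abs_ip_le (hf : Sm f) (hg : Sm g) : |ip f g| ≤ n0 f * n0 g := by
  have h : ∀ t : ℝ, 0 ≤ ip g g * (t * t) + 2 * ip f g * t + ip f f := fun t => by
    have h1 := ip_self_nonneg (f + t • g)
    rw [ip_add_left hf (hg.smul t) (hf.add (hg.smul t)), ip_add_right hf (hg.smul t) hf,
      ip_add_right hf (hg.smul t) (hg.smul t), ip_smul_left, ip_smul_right, ip_smul_left,
      ip_smul_right, ip_comm g f] at h1
    linarith
  have h2 := discrim_le_zero h
  rw [discrim] at h2
  rw [n0, n0, ← Real.sqrt_mul (ip_self_nonneg f)]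
  exact Real.abs_le_sqrt (by nlinarith)

theorem n0_add_le (hf : Sm f) (hg : Sm g) : n0 (f + g) ≤ n0 f + n0 g := by
  refine Real.sqrt_le_iff.2 ⟨add_nonneg (n0_nonneg f) (n0_nonneg g), ?_⟩
  rw [ip_add_left hf hg (hf.add hg), ip_add_right hf hg hf, ip_add_right hf hg hg, ip_comm g f]
  nlinarith [sq_n0 f, sq_n0 g, le_of_abs_le (abs_ip_le hf hg)]

theorem n0_smul (t : ℝ) (f : Pt → E) : n0 (t • f) = |t| * n0 f := by
  rw [n0, ip_smul_left, ip_smul_right, ← mul_assoc, Real.sqrt_mul (mul_self_nonneg t),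
    Real.sqrt_mul_self_eq_abs]
  rfl

theorem n0_neg (f : Pt → E) : n0 (-f) = n0 f := by
  rw [← neg_one_smul ℝ f, n0_smul]; simp

theorem n0_sub_le (hf : Sm f) (hg : Sm g) : n0 (f - g) ≤ n0 f + n0 g := by
  rw [sub_eq_add_neg]
  exact (n0_add_le hf hg.neg).trans_eq (by rw [n0_neg])

theorem n0_zero : n0 (0 : Pt → E) = 0 := by simp [n0, ip]

theorem n0_sum_le {ι : Type*} {s : Finset ι} {F : ι → Pt → E} (hF : ∀ i ∈ s, Sm (F i)) :
    n0 (∑ i ∈ s, F i) ≤ ∑ i ∈ s, n0 (F i) := by
  classical
  induction s using Finset.induction_on with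
  | empty => simp [n0_zero]
  | insert a t ha ih =>
    rw [Finset.sum_insert ha, Finset.sum_insert ha]
    exact (n0_add_le (hF a (Finset.mem_insert_self a t))
      (Sm.sum fun i hi => hF i (Finset.mem_insert_of_mem hi))).trans
      (add_le_add le_rfl (ih fun i hi => hF i (Finset.mem_insert_of_mem hi)))

theorem ip_trl (h : ℝ) (d : Fin 4) (f g : Pt → E) : ip (trl h d f) (trl h d g) = ip f g :=
  integral_add_right_eq_self (fun x => ⟪f x, g x⟫_ℝ) _

theorem n0_trl (h : ℝ) (d : Fin 4) (f : Pt → E) : n0 (trl h d f) = n0 f := by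
  rw [n0, ip_trl]; rfl

theorem ip_dq (hf : Sm f) (hg : Sm g) (h : ℝ) (d : Fin 4) :
    ip (dq h d f) g = -ip f (dq (-h) d g) := by
  have e : ip (trl h d f) g = ip f (trl (-h) d g) := by
    rw [← ip_trl h d f (trl (-h) d g)]
    congr 1
    funext x
    simp [trl]
  rw [show dq h d f = h⁻¹ • (trl h d f - f) from rfl,
    show dq (-h) d g = (-h)⁻¹ • (trl (-h) d g - g) from rfl, ip_smul_left, ip_smul_right,
    ip_sub_left (hf.trlS h d) hf hg, ip_sub_right (hg.trlS (-h) d) hg hf, e, inv_neg]
  ring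

theorem ip_dqL (hf : Sm f) (hg : Sm g) (h : ℝ) (l : List (Fin 4)) :
    ip (dqL h l f) g = (-1) ^ l.length * ip f (dqL (-h) l.reverse g) := by
  induction l generalizing f with
  | nil => simp [dqL]
  | cons d l ih =>
    rw [dqL, ih (hf.dqS h d), ip_dq hf (hg.dqLS _ _), List.reverse_cons, dqL_append, List.length_cons,
      pow_succ]
    simp only [dqL]
    ring

theorem nK_nonneg (h : ℝ) (n : ℕ) (f : Pt → E) : 0 ≤ nK h n f := by
  induction n generalizing f with
  | zero => exact n0_nonneg f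
  | succ n ih => exact add_nonneg (n0_nonneg f) (Finset.sum_nonneg fun d _ => ih _)

theorem eK_nonneg (h : ℝ) (n : ℕ) (f : Pt → E) : 0 ≤ eK h n f :=
  add_nonneg (nK_nonneg h n f) (Finset.sum_nonneg fun _ _ => nK_nonneg h n _)

theorem n0_le_nK (h : ℝ) (n : ℕ) (f : Pt → E) : n0 f ≤ nK h n f := by
  cases n with
  | zero => exact le_rfl
  | succ n => exact le_add_of_nonneg_right (Finset.sum_nonneg fun d _ => nK_nonneg h n _)

theorem nK_mono (h : ℝ) (n : ℕ) (f : Pt → E) : nK h n f ≤ nK h (n + 1) f := by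
  induction n generalizing f with
  | zero => exact n0_le_nK h 1 f
  | succ n ih => exact add_le_add le_rfl (Finset.sum_le_sum fun d _ => ih _)

theorem nK_add_le (h : ℝ) (n : ℕ) (hf : Sm f) (hg : Sm g) :
    nK h n (f + g) ≤ nK h n f + nK h n g := by
  induction n generalizing f g with
  | zero => exact n0_add_le hf hg
  | succ n ih =>
    simp only [nK, dq_add]
    have h1 := Finset.sum_le_sum fun d (_ : d ∈ Finset.univ) => ih (hf.dqS h d) (hg.dqS h d)
    rw [Finset.sum_add_distrib] at h1
    linarith [n0_add_le hf hg]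

theorem nK_sum_le {ι : Type*} {s : Finset ι} {F : ι → Pt → E} (h : ℝ) (n : ℕ)
    (hF : ∀ i ∈ s, Sm (F i)) : nK h n (∑ i ∈ s, F i) ≤ ∑ i ∈ s, nK h n (F i) := by
  classical
  induction s using Finset.induction_on with
  | empty =>
    simp only [Finset.sum_empty]
    induction n with
    | zero => exact n0_zero.le
    | succ n ih =>
      have e : ∀ d, dq h d (0 : Pt → E) = 0 := fun d => by funext x; simp [dq, trl]
      rw [nK]
      simp only [e, n0_zero, Fin.sum_univ_four]
      linarith
  | insert a t ha ih =>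
    rw [Finset.sum_insert ha, Finset.sum_insert ha]
    exact (nK_add_le h n (hF a (Finset.mem_insert_self a t))
      (Sm.sum fun i hi => hF i (Finset.mem_insert_of_mem hi))).trans
      (add_le_add le_rfl (ih fun i hi => hF i (Finset.mem_insert_of_mem hi)))

theorem nK_trl (h : ℝ) (n : ℕ) (d : Fin 4) (f : Pt → E) : nK h n (trl h d f) = nK h n f := by
  induction n generalizing f with
  | zero => exact n0_trl h d f
  | succ n ih =>
    have e : ∀ e, dq h e (trl h d f) = trl h d (dq h e f) := fun e => by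
      funext x; simp only [dq, trl]; congr 3; abel
    simp only [nK, n0_trl, e, ih]

theorem n0_dqL_le (h : ℝ) (l : List (Fin 4)) (f : Pt → E) :
    n0 (dqL h l f) ≤ nK h l.length f := by
  induction l generalizing f with
  | nil => exact le_rfl
  | cons d l ih =>
    exact (ih (dq h d f)).trans ((Finset.single_le_sum (f := fun d => nK h l.length (dq h d f))
      (fun _ _ => nK_nonneg _ _ _) (Finset.mem_univ d)).trans (le_add_of_nonneg_left (n0_nonneg f)))

theorem nK_le_of_words (h : ℝ) (n : ℕ) (f : Pt → E) {M : ℝ}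
    (hM : ∀ l : List (Fin 4), l.length ≤ n → n0 (dqL h l f) ≤ M) : nK h n f ≤ 5 ^ n * M := by
  induction n generalizing f with
  | zero => simpa [nK, dqL] using hM [] le_rfl
  | succ n ih =>
    have h0 : n0 f ≤ M := hM [] (Nat.zero_le _)
    have h1 : ∀ d, nK h n (dq h d f) ≤ 5 ^ n * M := fun d =>
      ih _ fun l hl => hM (d :: l) (Nat.succ_le_succ hl)
    have h5 : (1 : ℝ) ≤ 5 ^ n := one_le_pow₀ (by norm_num)
    simp only [nK, Fin.sum_univ_four, pow_succ]
    nlinarith [h1 0, h1 1, h1 2, h1 3, (n0_nonneg f).trans h0]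

/-- A difference quotient is controlled by the derivative. -/
theorem n0_dq_le (hf : Sm f) (h : ℝ) (d : Fin 4) : n0 (dq h d f) ≤ n0 (dd d f) := by
  set e : Pt := Pi.single d 1
  set k := dq h d f
  have hk : Sm k := hf.dqS h d
  obtain ⟨C, hC⟩ := (hf.ddS d).supp.exists_bound_of_continuous (hf.ddS d).smooth.continuous
  have hF : ∀ t : ℝ, HasDerivAt (fun t => ip (trl t d f) k) (ip (trl t d (dd d f)) k) t := fun t => by
    refine (hasDerivAt_integral_of_dominated_loc_of_deriv_le (μ := volume)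
      (bound := fun x => C * ‖k x‖) (s := Set.univ)
      (F := fun t x => ⟪trl t d f x, k x⟫_ℝ) (F' := fun t x => ⟪trl t d (dd d f) x, k x⟫_ℝ)
      Filter.univ_mem (Eventually.of_forall fun s => ((hf.trlS s d).inner_int hk).1)
      ((hf.trlS t d).inner_int hk) (((hf.ddS d).trlS t d).inner_int hk).1
      (Eventually.of_forall fun x s _ => ?_) ?_ (Eventually.of_forall fun x s _ => ?_)).2
    · exact (norm_inner_le_norm _ _).trans (mul_le_mul_of_nonneg_right (hC _) (norm_nonneg _))
    · exact (hk.smooth.continuous.norm.integrable_of_hasCompactSupport hk.supp.norm).const_mul C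
    · have h1 : HasDerivAt (fun s : ℝ => x + s • e) e s := by
        simpa using ((hasDerivAt_id s).smul_const e).const_add x
      have h2 := ((hf.smooth.differentiable (by norm_num)) _).hasFDerivAt.comp_hasDerivAt s h1
      simpa using! h2.inner ℝ (hasDerivAt_const s (k x))
  have hb : ∀ t, ‖ip (trl t d (dd d f)) k‖ ≤ n0 (dd d f) * n0 k := fun t => by
    simpa [n0_trl] using abs_ip_le ((hf.ddS d).trlS t d) hk
  have h2 := convex_univ.norm_image_sub_le_of_norm_hasDerivWithin_le
    (fun t _ => (hF t).hasDerivWithinAt) (fun t _ => hb t) (Set.mem_univ 0) (Set.mem_univ h)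
  rw [Real.norm_eq_abs, sub_zero, Real.norm_eq_abs] at h2
  rcases eq_or_ne h 0 with rfl | hh
  · have e0 : k = 0 := by funext x; simp [k, dq]
    rw [e0, n0_zero]; exact n0_nonneg _
  have e0 : trl 0 d f = f := by funext x; simp [trl]
  rw [e0, ← ip_sub_left (hf.trlS h d) hf hk,
    show trl h d f - f = h • k by funext x; simp [k, dq, smul_smul, hh], ip_smul_left, abs_mul,
    ← sq_n0, abs_of_nonneg (sq_nonneg (n0 k)), mul_comm (n0 (dd d f) * n0 k) |h|,
    mul_le_mul_iff_of_pos_left (abs_pos.2 hh)] at h2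
  nlinarith [n0_nonneg k, n0_nonneg (dd d f)]

theorem nK_dq_le (hf : Sm f) (h : ℝ) (n : ℕ) (d : Fin 4) :
    nK h n (dq h d f) ≤ nK h n (dd d f) := by
  induction n generalizing f with
  | zero => exact n0_dq_le hf h d
  | succ n ih =>
    refine add_le_add (n0_dq_le hf h d) (Finset.sum_le_sum fun e _ => ?_)
    rw [dq_comm, ← dd_dq hf h d e]
    exact ih (hf.dqS h e)

theorem nK_succ_le_eK (hf : Sm f) (h : ℝ) (n : ℕ) : nK h (n + 1) f ≤ eK h n f :=
  add_le_add (n0_le_nK h n f) (Finset.sum_le_sum fun d _ => nK_dq_le hf h n d)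

section app
variable {F : Type*} [NormedAddCommGroup F] [InnerProductSpace ℝ F]
  {A : Pt → E →L[ℝ] F}

/-- Pointwise application of a field of linear maps. -/
def app (A : Pt → E →L[ℝ] F) (f : Pt → E) (x : Pt) : F := A x (f x)

theorem Sm.appS (hA : ContDiff ℝ ∞ A) (hf : Sm f) : Sm (app A f) :=
  ⟨hA.clm_apply hf.smooth, hf.supp.mono fun x hx h => hx (by simp [Ext.app, h])⟩

theorem app_add (A : Pt → E →L[ℝ] F) (f g : Pt → E) : app A (f + g) = app A f + app A g := by
  funext x; simp [app]

theorem app_sub (A : Pt → E →L[ℝ] F) (f g : Pt → E) : app A (f - g) = app A f - app A g := by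
  funext x; simp [app]

theorem n0_app_le (hA : ContDiff ℝ ∞ A) (hf : Sm f) {C : ℝ} (hC0 : 0 ≤ C)
    (hC : ∀ x, f x ≠ 0 → ‖A x‖ ≤ C) : n0 (app A f) ≤ C * n0 f := by
  refine Real.sqrt_le_iff.2 ⟨mul_nonneg hC0 (n0_nonneg f), ?_⟩
  rw [mul_pow, sq_n0, ip, ip, ← integral_const_mul]
  refine integral_mono ((hf.appS hA).inner_int (hf.appS hA)) ((hf.inner_int hf).const_mul _) fun x => ?_
  simp only [real_inner_self_eq_norm_sq, app]
  rcases eq_or_ne (f x) 0 with h | h
  · simp [h]
  · rw [← mul_pow]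
    exact pow_le_pow_left₀ (norm_nonneg _)
      ((A x).le_opNorm _ |>.trans (mul_le_mul_of_nonneg_right (hC x h) (norm_nonneg _))) 2

theorem dd_app (hA : ContDiff ℝ ∞ A) (hf : Sm f) (d : Fin 4) :
    dd d (app A f) = app (dd d A) f + app A (dd d f) := by
  funext x
  show fderiv ℝ (fun y => A y (f y)) x _ = _
  rw [fderiv_clm_apply ((hA.differentiable (by norm_num)) x)
    ((hf.smooth.differentiable (by norm_num)) x)]
  simp [dd, app, add_comm]

theorem dq_app (A : Pt → E →L[ℝ] F) (f : Pt → E) (h : ℝ) (d : Fin 4) :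
    dq h d (app A f) = app (dq h d A) (trl h d f) + app A (dq h d f) := by
  funext x
  simp only [dq, trl, app, Pi.add_apply, _root_.smul_apply, _root_.sub_apply, map_smul, map_sub,
    smul_sub]
  abel

/-- Multiplication is bounded, uniformly in the step. -/
theorem nK_app_le (n : ℕ) : ∃ c : ℝ, 0 ≤ c ∧ ∀ (A : Pt → E →L[ℝ] F) (C h : ℝ) (f : Pt → E),
    0 ≤ C → Sm A → Bd n A C → Sm f → nK h n (app A f) ≤ c * C * nK h n f := by
  induction n with
  | zero => exact ⟨1, zero_le_one, fun A C h f hC hA hb hf => by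
      rw [one_mul]; exact n0_app_le hA.smooth hf hC fun x _ => hb x⟩
  | succ n ih =>
    obtain ⟨c, hc0, hc⟩ := ih
    refine ⟨1 + 8 * c, by positivity, fun A C h f hC hA hb hf => ?_⟩
    have h1 : n0 (app A f) ≤ C * n0 f := n0_app_le hA.smooth hf hC fun x _ => hb.bound x
    have h2 : ∀ d, nK h n (dq h d (app A f)) ≤ 2 * (c * C * nK h (n + 1) f) := fun d => by
      rw [dq_app]
      refine (nK_add_le h n ((hf.trlS h d).appS (hA.dqS h d).smooth)
        ((hf.dqS h d).appS hA.smooth)).trans ?_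
      rw [two_mul]
      refine add_le_add ((hc _ C h _ hC (hA.dqS h d) (hb.dqS hA hC h d) (hf.trlS h d)).trans ?_)
        ((hc A C h _ hC hA hb.pred (hf.dqS h d)).trans ?_)
      · rw [nK_trl]; exact mul_le_mul_of_nonneg_left (nK_mono h n f) (mul_nonneg hc0 hC)
      · refine mul_le_mul_of_nonneg_left ?_ (mul_nonneg hc0 hC)
        exact (Finset.single_le_sum (f := fun d => nK h n (dq h d f))
          (fun _ _ => nK_nonneg _ _ _) (Finset.mem_univ d)).trans (le_add_of_nonneg_left (n0_nonneg f))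
    calc nK h (n + 1) (app A f)
        ≤ C * n0 f + ∑ _d : Fin 4, 2 * (c * C * nK h (n + 1) f) :=
          add_le_add h1 (Finset.sum_le_sum fun d _ => h2 d)
      _ ≤ C * nK h (n + 1) f + ∑ _d : Fin 4, 2 * (c * C * nK h (n + 1) f) :=
          add_le_add (mul_le_mul_of_nonneg_left (n0_le_nK h _ f) hC) le_rfl
      _ = _ := by simp; ring

theorem Sm.exists_nK_app (hA : Sm A) (n : ℕ) :
    ∃ C, 0 ≤ C ∧ ∀ h f, Sm f → nK h n (app A f) ≤ C * nK h n f := by
  obtain ⟨c, hc0, hc⟩ := nK_app_le (E := E) (F := F) n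
  obtain ⟨C, hC0, hC⟩ := hA.exists_bd n
  exact ⟨c * C, mul_nonneg hc0 hC0, fun h f hf => hc A C h f hC0 hA hC hf⟩

theorem Sm.exists_eK_app (hA : Sm A) (n : ℕ) :
    ∃ C, 0 ≤ C ∧ ∀ h f, Sm f → eK h n (app A f) ≤ C * eK h n f := by
  obtain ⟨C, hC0, hC⟩ := hA.exists_nK_app n
  choose D hD0 hD using fun d => (hA.ddS d).exists_nK_app n
  refine ⟨C + ∑ d, D d, add_nonneg hC0 (Finset.sum_nonneg fun d _ => hD0 d), fun h f hf => ?_⟩
  have h1 : ∀ d, nK h n (dd d (app A f)) ≤ D d * nK h n f + C * nK h n (dd d f) := fun d => by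
    rw [dd_app hA.smooth hf]
    exact (nK_add_le h n (hf.appS (hA.ddS d).smooth) ((hf.ddS d).appS hA.smooth)).trans
      (add_le_add (hD d h f hf) (hC h _ (hf.ddS d)))
  have h2 := Finset.sum_le_sum fun d (_ : d ∈ Finset.univ) => h1 d
  rw [Finset.sum_add_distrib, ← Finset.sum_mul, ← Finset.mul_sum] at h2
  have h3 : 0 ≤ (∑ d, D d) * ∑ d, nK h n (dd d f) :=
    mul_nonneg (Finset.sum_nonneg fun d _ => hD0 d) (Finset.sum_nonneg fun d _ => nK_nonneg _ _ _)
  simp only [eK]
  nlinarith [hC h f hf]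

/-- The commutator with an iterated difference quotient loses one order. -/
theorem Sm.exists_comm (hA : Sm A) (n : ℕ) : ∃ C, 0 ≤ C ∧ ∀ h (l : List (Fin 4)) f,
    l.length ≤ n + 1 → Sm f → n0 (dqL h l (app A f) - app A (dqL h l f)) ≤ C * nK h n f := by
  obtain ⟨c, hc0, hc⟩ := nK_app_le (E := E) (F := F) n
  obtain ⟨B, hB0, hB⟩ := hA.exists_bd (n + 1)
  have key : ∀ (m : ℕ), m ≤ n + 1 → ∃ C, 0 ≤ C ∧ ∀ h (l : List (Fin 4)) f, l.length ≤ m → Sm f →
      n0 (dqL h l (app A f) - app A (dqL h l f)) ≤ C * nK h (m - 1) f := by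
    intro m
    induction m with
    | zero =>
      refine fun _ => ⟨0, le_rfl, fun h l f hl hf => ?_⟩
      rw [List.length_eq_zero_iff.1 (Nat.le_zero.1 hl)]
      simp [dqL, n0_zero]
    | succ m ih =>
      intro hm
      obtain ⟨C, hC0, hC⟩ := ih (Nat.le_of_succ_le hm)
      obtain ⟨c', hc0', hc'⟩ := nK_app_le (E := E) (F := F) m
      refine ⟨c' * B + C, by positivity, fun h l f hl hf => ?_⟩
      rcases l with _ | ⟨d, l⟩
      · simpa [dqL, n0_zero] using mul_nonneg (by positivity) (nK_nonneg _ _ _)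
      simp only [List.length_cons] at hl
      have hl' : l.length ≤ m := Nat.le_of_succ_le_succ hl
      have hb : Bd m (dq h d A) B := by
        have hb' : ∀ j, Bd (m + 1 + j) A B → Bd (m + 1) A B := fun j => by
          induction j with
          | zero => exact id
          | succ j ih => exact fun h => ih h.pred
        exact ((hb' (n + 1 - (m + 1)) (by rwa [Nat.add_sub_cancel' hm]))).dqS hA hB0 h d
      have e : dqL h (d :: l) (app A f) - app A (dqL h (d :: l) f) = dqL h l (app (dq h d A)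
          (trl h d f)) + (dqL h l (app A (dq h d f)) - app A (dqL h l (dq h d f))) := by
        simp only [dqL, dq_app, dqL_add]; abel
      rw [e, add_mul]
      refine (n0_add_le (((hf.trlS h d).appS (hA.dqS h d).smooth).dqLS h l)
        ((((hf.dqS h d).appS hA.smooth).dqLS h l).sub (((hf.dqS h d).dqLS h l).appS hA.smooth))).trans
        (add_le_add ?_ ?_)
      · refine (n0_dqL_le h l _).trans (le_trans ?_ ((hc' _ B h _ hB0 (hA.dqS h d) hb
          (hf.trlS h d)).trans_eq (by rw [nK_trl, Nat.add_sub_cancel])))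
        exact monotone_nat_of_le_succ (fun j => nK_mono h j _) hl'
      · rw [Nat.add_sub_cancel]
        rcases m with _ | m
        · rw [List.length_eq_zero_iff.1 (Nat.le_zero.1 hl')]
          simpa [dqL, n0_zero] using mul_nonneg hC0 (nK_nonneg h 0 f)
        · refine (hC h l _ hl' (hf.dqS h d)).trans (mul_le_mul_of_nonneg_left ?_ hC0)
          exact (Finset.single_le_sum (f := fun d => nK h m (dq h d f))
            (fun _ _ => nK_nonneg _ _ _) (Finset.mem_univ d)).trans
            (le_add_of_nonneg_left (n0_nonneg f))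
  obtain ⟨C, hC0, hC⟩ := key (n + 1) le_rfl
  exact ⟨C, hC0, fun h l f hl hf => by simpa using hC h l f hl hf⟩

variable [FiniteDimensional ℝ E] [FiniteDimensional ℝ F]

/-- The field of adjoints. -/
noncomputable def adjF (A : Pt → E →L[ℝ] F) (x : Pt) : F →L[ℝ] E :=
  ContinuousLinearMap.adjoint (A x)

theorem Sm.adjS (hA : Sm A) : Sm (adjF A) := by
  let T : (E →L[ℝ] F) →ₗ[ℝ] (F →L[ℝ] E) :=
    { toFun := fun a => ContinuousLinearMap.adjoint a
      map_add' := fun a b => map_add _ a b
      map_smul' := fun t a => by simp }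
  exact ⟨T.toContinuousLinearMap.contDiff.comp hA.smooth,
    hA.supp.comp_left (g := fun a : E →L[ℝ] F => ContinuousLinearMap.adjoint a) (map_zero _)⟩

theorem ip_app (A : Pt → E →L[ℝ] F) (f : Pt → E) (g : Pt → F) :
    ip (app A f) g = ip f (app (adjF A) g) :=
  integral_congr_ae (Eventually.of_forall fun x => (ContinuousLinearMap.adjoint_inner_right _ _ _).symm)

/-- The commutator, moved to the other side of the pairing. -/
theorem Sm.exists_ip_comm (hA : Sm A) (n : ℕ) : ∃ C, 0 ≤ C ∧ ∀ h (l : List (Fin 4)) (f : Pt → F)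
    (w : Pt → E), l.length ≤ n + 1 → Sm f → Sm w →
      |ip f (dqL (-h) l (app A w) - app A (dqL (-h) l w))| ≤ C * nK h n f * n0 w := by
  obtain ⟨C, hC0, hC⟩ := hA.adjS.exists_comm n
  refine ⟨C, hC0, fun h l f w hl hf hw => ?_⟩
  have hf' : Sm (app (adjF A) f) := hf.appS hA.adjS.smooth
  have e1 : ip f (dqL (-h) l (app A w))
      = (-1) ^ l.length * ip (app (adjF A) (dqL h l.reverse f)) w := by
    rw [ip_comm, ip_dqL (hw.appS hA.smooth) hf, ip_app, neg_neg, ip_comm w]
  have e2 : ip f (app A (dqL (-h) l w))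
      = (-1) ^ l.length * ip (dqL h l.reverse (app (adjF A) f)) w := by
    rw [ip_comm, ip_app, ip_dqL hw hf', neg_neg, ip_comm w]
  rw [ip_sub_right ((hw.appS hA.smooth).dqLS _ _) ((hw.dqLS _ _).appS hA.smooth) hf, e1, e2, ← mul_sub,
    abs_mul, abs_pow, abs_neg, abs_one, one_pow, one_mul, abs_sub_comm,
    ← ip_sub_left (hf'.dqLS _ _) ((hf.dqLS _ _).appS hA.adjS.smooth) hw]
  exact (abs_ip_le ((hf'.dqLS _ _).sub ((hf.dqLS _ _).appS hA.adjS.smooth)) hw).trans
    (mul_le_mul_of_nonneg_right (hC h _ f (by simpa using hl) hf) (n0_nonneg w))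

end app

/-- One quotient is moved to the second factor. -/
theorem abs_ip_dqL_le (hf : Sm f) (hg : Sm g) (h : ℝ) (d : Fin 4) (l : List (Fin 4)) :
    |ip f (dqL (-h) (d :: l) g)| ≤ nK h l.length f * n0 (dd d g) := by
  rw [dqL, ip_comm, ip_dqL (hg.dqS (-h) d) hf, neg_neg, abs_mul, abs_pow, abs_neg, abs_one, one_pow,
    one_mul, mul_comm (nK h l.length f)]
  refine (abs_ip_le (hg.dqS (-h) d) (hf.dqLS h _)).trans ?_
  exact mul_le_mul (n0_dq_le hg (-h) d) ((n0_dqL_le h _ f).trans_eq (by rw [List.length_reverse]))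
    (n0_nonneg _) (n0_nonneg _)

/-- For a fixed step the quotients are bounded. -/
theorem n0_dqL_crude (hf : Sm f) (h : ℝ) (l : List (Fin 4)) :
    n0 (dqL h l f) ≤ (2 * |h|⁻¹) ^ l.length * n0 f := by
  induction l generalizing f with
  | nil => simp [dqL]
  | cons d l ih =>
    refine (ih (hf.dqS h d)).trans ?_
    rw [List.length_cons, pow_succ, mul_assoc]
    refine mul_le_mul_of_nonneg_left ?_ (by positivity)
    rw [show dq h d f = h⁻¹ • (trl h d f - f) from rfl, n0_smul, abs_inv]
    refine (mul_le_mul_of_nonneg_left (n0_sub_le (hf.trlS h d) hf) (by positivity)).trans_eq ?_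
    rw [n0_trl]; ring

end Vale.Agent.P204.General.Ext
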