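import Mathlib
import Vale.Agent.P204.General.Closed.Forms
import Vale.Agent.P204.General.Ext.L2

/-!
# P204, module C: the operators in a chart and their interfaces

A skew matrix is stored by its six upper entries. `dop` is the exterior derivative of a two-form
field, `Atlas.fa a` the quotient of `dxₐ ∧ dψ` by the reference volume, `Atlas.wOp ψ` the exact
form `∑ₐ d (fa a ψ · dxₐ)`. None of the statements below is assumed by the final theorem.
-/

open MeasureTheory Matrix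
open scoped ContDiff

namespace Vale.Agent.P204.General

open Vale.Agent.P204.Torus

namespace Ext

/-- Two-form values by their upper entries. -/
abbrev Fm := EuclideanSpace ℝ (Fin 6)

/-- Three-form values. -/
abbrev D4 := EuclideanSpace ℝ (Fin 4)

/-- The skew matrix of a form value. -/
def toM (v : Fm) : M4 :=
  !![0, v 0, v 1, v 2; -v 0, 0, v 3, v 4; -v 1, -v 3, 0, v 5; -v 2, -v 4, -v 5, 0]

/-- The upper entries of a matrix. -/
noncomputable def ofM (M : M4) : Fm :=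
  WithLp.toLp 2 ![M 0 1, M 0 2, M 0 3, M 1 2, M 1 3, M 2 3]

/-- The exterior derivative of a two-form field, with the signs of `flux`. -/
noncomputable def dop (u : Pt → Fm) (p : Pt) : D4 :=
  WithLp.toLp 2 ![dd 1 u p 5 - dd 2 u p 4 + dd 3 u p 3,
    -(dd 0 u p 5 - dd 2 u p 2 + dd 3 u p 1),
    dd 0 u p 4 - dd 1 u p 2 + dd 3 u p 0,
    -(dd 0 u p 3 - dd 1 u p 1 + dd 2 u p 0)]

/-- Support well inside the chart. -/
def InBox {G : Type*} [Zero G] (r : ℝ) (u : Pt → G) : Prop :=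
  r < 1 ∧ ∀ p, u p ≠ 0 → p ∈ Metric.closedBall 0 r

end Ext

open Ext

variable {N K : ℕ} (A : Atlas N K)

/-- A form in the chart `c`. -/
noncomputable def Atlas.fld (c : Fin K) (a : Amb N → MN N) (p : Pt) : Fm := ofM (A.pull c a p)

open Classical in
/-- A field in the chart `c`, moved to the manifold and extended by zero. -/
noncomputable def Atlas.pushF (c : Fin K) (z : Pt → Fm) (x : Amb N) : MN N :=
  if x ∈ A.psi c '' box then A.push c (fun p => toM (z p)) x else 0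

/-- The quotient `dxₐ ∧ dψ / vol` in the chart `c`. -/
noncomputable def Atlas.fc (c : Fin K) (a : Fin N) (ψ : Amb N → MN N) (p : Pt) : ℝ :=
  (∑ m, A.dmat c p a m * dop (A.fld c ψ) p m) / A.dens c p

/-- The same on the manifold. -/
noncomputable def Atlas.fa (a : Fin N) (ψ : Amb N → MN N) (x : Amb N) : ℝ :=
  ∑ c, A.chi c x * A.fc c a ψ (A.phi c x)

/-- The exact form attached to a test form. -/
noncomputable def Atlas.wOp (ψ : Amb N → MN N) : Amb N → MN N :=
  ∑ a, A.prodForm (A.fa a ψ) 0 fun _ => Pi.single a 1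

/-- The coefficients of the quadratic form in the chart `c`. -/
noncomputable def Atlas.smat (c : Fin K) (p : Pt) (m n : Fin 4) : ℝ :=
  (∑ a, A.dmat c p a m * A.dmat c p a n) / A.dens c p

/-- Anti-invariant test forms. -/
def IsAntiX (J ψ : Amb N → MN N) : Prop :=
  IsTestX A ψ ∧ ∀ c, ∀ p ∈ box, antiP (A.jc J c p) (A.pull c ψ p) = A.pull c ψ p

namespace Ext

/-- Garding's inequality for anti-invariant fields in a chart. -/
def GardingStmt : Prop :=
  ∀ {N K : ℕ} (A : Atlas N K) (J : Amb N → MN N), IsACS A J → ∀ (c : Fin K) (r : ℝ), r < 1 →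
    ∃ C, 0 ≤ C ∧ ∀ u : Pt → Fm, Sm u → InBox r u →
      (∀ p ∈ box, antiP (A.jc J c p) (toM (u p)) = toM (u p)) →
        ∑ d, n0 (dd d u) ≤ C * (n0 (dop u) + n0 u)

/-- The Sobolev norms of a form in one chart are controlled by the cut off ones. -/
def TransferStmt : Prop :=
  ∀ {N K : ℕ} (A : Atlas N K) (J : Amb N → MN N), IsACS A J →
    ∀ (n : ℕ) (c : Fin K) (th : Pt → ℝ) (r : ℝ), ContDiff ℝ ∞ th → InBox r th →
      ∃ C, 0 ≤ C ∧ ∀ a, IsTestX A a → ∀ i k,
        sobR n (fun p => th p * A.pull c a p i k) ≤ C * A.sob n a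

/-- The properties of `wOp`. -/
def OpStmt : Prop :=
  ∀ {N K : ℕ} (A : Atlas N K) (J : Amb N → MN N), IsACS A J →
    (∀ ψ, IsTestX A ψ → IsClosedX A (A.wOp ψ)) ∧
    (∀ ψ ζ, IsTestX A ψ → IsTestX A ζ →
      A.wedgeInt (A.wOp ψ) ζ = ∫ x, ∑ a, A.fa a ψ x * A.fa a ζ x ∂A.vol) ∧
    (∀ c z r, Sm z → InBox r z → IsTestX A (A.pushF c z) ∧
      (∀ p ∈ box, A.pull c (A.pushF c z) p = toM (z p)) ∧
      ∀ ψ, IsTestX A ψ →
        A.wedgeInt ψ (A.pushF c z) = ∫ p in box, wedge (A.pull c ψ p) (toM (z p)) ∧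
        A.wedgeInt (A.wOp ψ) (A.pushF c z) = ∫ p in box,
          ∑ m, ∑ n, A.smat c p m n * dop (A.fld c ψ) p m * dop z p n) ∧
    (∀ c (th : Pt → ℝ) r, ContDiff ℝ ∞ th → InBox r th → ∃ C, 0 ≤ C ∧
      ∀ ψ, IsTestX A ψ → ∫ p, th p ^ 2 * ‖dop (A.fld c ψ) p‖ ^ 2
        ≤ C * A.wedgeInt (A.wOp ψ) ψ) ∧
    (∀ c (th : Pt → ℝ) r, ContDiff ℝ ∞ th → InBox r th → ∃ C, 0 ≤ C ∧
      ∀ ψ, IsAntiX A J ψ → ∫ p, ‖th p • A.fld c ψ p‖ ^ 2 ≤ C * A.wedgeInt ψ ψ)

end Ext

end Vale.Agent.P204.General
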