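import Mathlib
import Vale.Agent.P204.General.Basics

/-!
# P204 on a closed four-manifold: `sobR` as the square of a seminorm
-/

open MeasureTheory
open scoped ContDiff

namespace Vale.Agent.P204.General

open Vale.Agent.P204.Torus

/-- Smooth functions of compact support. -/
def Sc (f : Pt → ℝ) : Prop := ContDiff ℝ ∞ f ∧ HasCompactSupport f

/-- The Sobolev inner product. -/
noncomputable def sobI : ℕ → (Pt → ℝ) → (Pt → ℝ) → ℝ
  | 0, f, g => ∫ x, f x * g x
  | n + 1, f, g => sobI n f g + ∑ d, sobI n (pd d f) (pd d g)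

theorem sc_zero : Sc (0 : Pt → ℝ) := ⟨contDiff_const, HasCompactSupport.zero⟩

theorem sc_pd {f : Pt → ℝ} (hf : Sc f) (d : Fin 4) : Sc (pd d f) :=
  ⟨(hf.1.fderiv_right (m := ∞) (by norm_num)).clm_apply contDiff_const,
    hf.2.fderiv_apply ℝ (Pi.single d 1)⟩

theorem sc_add {f g : Pt → ℝ} (hf : Sc f) (hg : Sc g) : Sc (f + g) :=
  ⟨hf.1.add hg.1, hf.2.add hg.2⟩

theorem sc_smul {f : Pt → ℝ} (hf : Sc f) (t : ℝ) : Sc (t • f) :=
  ⟨contDiff_const.smul hf.1, hf.2.smul_left⟩

theorem sc_integrable_mul {f g : Pt → ℝ} (hf : Sc f) (hg : Sc g) :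
    Integrable fun x => f x * g x :=
  (hf.1.continuous.mul hg.1.continuous).integrable_of_hasCompactSupport hf.2.mul_right

theorem pd_add_fun {f g : Pt → ℝ} (hf : Sc f) (hg : Sc g) (d : Fin 4) :
    pd d (f + g) = pd d f + pd d g := by
  funext x
  simp only [pd, Pi.add_apply]
  rw [fderiv_add ((hf.1.differentiable (by norm_num)) x) ((hg.1.differentiable (by norm_num)) x),
    _root_.add_apply]

theorem pd_smul_fun {f : Pt → ℝ} (hf : Sc f) (t : ℝ) (d : Fin 4) :
    pd d (t • f) = t • pd d f := by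
  funext x
  simp only [pd, Pi.smul_apply]
  rw [fderiv_const_smul ((hf.1.differentiable (by norm_num)) x), _root_.smul_apply]

theorem sobI_comm : ∀ n f g, sobI n f g = sobI n g f
  | 0, f, g => by simp only [sobI, mul_comm (f _)]
  | n + 1, f, g => by simp only [sobI, sobI_comm n f g, fun d => sobI_comm n (pd d f) (pd d g)]

theorem sobI_self : ∀ n f, sobI n f f = sobR n f
  | 0, f => by simp only [sobI, sobR, sq]
  | n + 1, f => by simp only [sobI, sobR, sobI_self n]

theorem sobR_nonneg : ∀ n f, 0 ≤ sobR n f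
  | 0, f => by simpa [sobR] using integral_nonneg fun x => sq_nonneg (f x)
  | n + 1, f => by
    simpa [sobR] using add_nonneg (sobR_nonneg n f) (Finset.sum_nonneg fun d _ => sobR_nonneg n (pd d f))

theorem sobI_add_left : ∀ n {f g h}, Sc f → Sc g → Sc h →
    sobI n (f + g) h = sobI n f h + sobI n g h
  | 0, f, g, h, hf, hg, hh => by
    simp only [sobI, Pi.add_apply, add_mul]
    exact integral_add (sc_integrable_mul hf hh) (sc_integrable_mul hg hh)
  | n + 1, f, g, h, hf, hg, hh => by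
    simp only [sobI, pd_add_fun hf hg, sobI_add_left n hf hg hh,
      fun d => sobI_add_left n (sc_pd hf d) (sc_pd hg d) (sc_pd hh d), Finset.sum_add_distrib]
    ring

theorem sobI_smul_left : ∀ n {f h} (t : ℝ), Sc f → Sc h → sobI n (t • f) h = t * sobI n f h
  | 0, f, h, t, _, _ => by
    simp only [sobI, Pi.smul_apply, smul_eq_mul, mul_assoc, integral_const_mul]
  | n + 1, f, h, t, hf, hh => by
    simp only [sobI, pd_smul_fun hf, sobI_smul_left n t hf hh,
      fun d => sobI_smul_left n t (sc_pd hf d) (sc_pd hh d), mul_add, Finset.mul_sum]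

variable {ι : Type*} [Fintype ι] (n : ℕ)

theorem sqrt_sum_sobR_smul {f : ι → Pt → ℝ} (hf : ∀ z, Sc (f z)) {t : ℝ} (ht : 0 ≤ t) :
    Real.sqrt (∑ z, sobR n (t • f z)) = t * Real.sqrt (∑ z, sobR n (f z)) := by
  have e : ∀ z, sobR n (t • f z) = t ^ 2 * sobR n (f z) := fun z => by
    rw [← sobI_self, ← sobI_self, sobI_smul_left n t (hf z) (sc_smul (hf z) t), sobI_comm,
      sobI_smul_left n t (hf z) (hf z)]
    ring
  simp only [e, ← Finset.mul_sum]
  rw [Real.sqrt_mul (sq_nonneg t), Real.sqrt_sq ht]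

/-- The triangle inequality. -/
theorem sqrt_sum_sobR_add_le {f g : ι → Pt → ℝ} (hf : ∀ z, Sc (f z)) (hg : ∀ z, Sc (g z)) :
    Real.sqrt (∑ z, sobR n (f z + g z))
      ≤ Real.sqrt (∑ z, sobR n (f z)) + Real.sqrt (∑ z, sobR n (g z)) := by
  set a := ∑ z, sobR n (f z) with ha
  set b := ∑ z, sobI n (f z) (g z)
  set c := ∑ z, sobR n (g z) with hc
  have ha0 : 0 ≤ a := Finset.sum_nonneg fun z _ => sobR_nonneg n _
  have hc0 : 0 ≤ c := Finset.sum_nonneg fun z _ => sobR_nonneg n _
  have e : ∀ t : ℝ, ∑ z, sobR n (f z + t • g z) = c * (t * t) + 2 * b * t + a := fun t => by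
    simp only [a, b, c, Finset.sum_mul, Finset.mul_sum, ← Finset.sum_add_distrib]
    refine Finset.sum_congr rfl fun z _ => ?_
    have hu := sc_add (hf z) (sc_smul (hg z) t)
    have hw := sc_smul (hg z) t
    rw [← sobI_self, sobI_add_left n (hf z) hw hu, sobI_comm n (f z), sobI_comm n (t • g z),
      sobI_add_left n (hf z) hw (hf z), sobI_add_left n (hf z) hw hw,
      sobI_smul_left n t (hg z) (hf z), sobI_comm n (f z) (t • g z),
      sobI_smul_left n t (hg z) (hf z), sobI_smul_left n t (hg z) hw, sobI_comm n (g z) (t • g z),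
      sobI_smul_left n t (hg z) (hg z), sobI_self, sobI_self, sobI_comm n (g z) (f z)]
    ring
  have hd := discrim_le_zero (a := c) (b := 2 * b) (c := a) fun t => by
    rw [← e t]; exact Finset.sum_nonneg fun z _ => sobR_nonneg n _
  simp only [discrim] at hd
  have hb : b ≤ Real.sqrt a * Real.sqrt c := by
    rw [← Real.sqrt_mul ha0]
    exact (le_abs_self b).trans (Real.abs_le_sqrt (by nlinarith [hd]))
  have h1 := e 1
  simp only [one_smul] at h1
  rw [h1, Real.sqrt_le_iff]
  refine ⟨add_nonneg (Real.sqrt_nonneg _) (Real.sqrt_nonneg _), ?_⟩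
  nlinarith [Real.sq_sqrt ha0, Real.sq_sqrt hc0, hb]

end Vale.Agent.P204.General
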