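import Mathlib
import Vale.Agent.P204.General.Ext.Setup
import Vale.Agent.P204.General.Ext.Sob
import Vale.Agent.P204.General.Basic.Bounds

/-!
# P204, module C: fields of linear maps in a chart
-/

open MeasureTheory Matrix Filter Set
open scoped ContDiff Topology InnerProductSpace

namespace Vale.Agent.P204.General.Ext

open Vale.Agent.P204.Torus

theorem toM_skew (v : Fm) : (toM v)ᵀ = -toM v := by
  ext i k
  fin_cases i <;> fin_cases k <;> simp [toM]

theorem ofM_toM (v : Fm) : ofM (toM v) = v := by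
  ext i
  fin_cases i <;> simp [ofM, toM]

theorem toM_ofM {M : M4} (hM : Mᵀ = -M) : toM (ofM M) = M := by
  have h : ∀ i k, M k i = -M i k := fun i k => congr_fun (congr_fun hM i) k
  have h0 := h 0 0; have h1 := h 1 1; have h2 := h 2 2; have h3 := h 3 3
  ext i k
  fin_cases i <;> fin_cases k <;>
    simp [toM, ofM, h 0 1, h 0 2, h 0 3, h 1 2, h 1 3, h 2 3] <;> linarith

theorem toM_add (v w : Fm) : toM (v + w) = toM v + toM w := by
  ext i k
  fin_cases i <;> fin_cases k <;> simp [toM] <;> ring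

theorem toM_smul (t : ℝ) (v : Fm) : toM (t • v) = t • toM v := by
  ext i k
  fin_cases i <;> fin_cases k <;> simp [toM]

theorem ofM_add (M M' : M4) : ofM (M + M') = ofM M + ofM M' := by
  ext i
  fin_cases i <;> simp [ofM]

theorem ofM_smul (t : ℝ) (M : M4) : ofM (t • M) = t • ofM M := by
  ext i
  fin_cases i <;> simp [ofM]

/-- Projection on the anti-invariant values, on upper entries. -/
noncomputable def antiL (j : M4) : Fm →L[ℝ] Fm :=
  LinearMap.toContinuousLinearMap
    { toFun := fun v => ofM (antiP j (toM v))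
      map_add' := fun v w => by
        rw [← ofM_add]; congr 1
        simp only [antiP, toM_add, Matrix.mul_add, Matrix.add_mul]
        module
      map_smul' := fun t v => by
        rw [RingHom.id_apply, ← ofM_smul]; congr 1
        simp only [antiP, toM_smul, Matrix.mul_smul, Matrix.smul_mul, ← smul_sub]
        exact smul_comm _ _ _ }

theorem antiL_apply (j : M4) (v : Fm) : antiL j v = ofM (antiP j (toM v)) := rfl

theorem toM_antiL (j : M4) (v : Fm) : toM (antiL j v) = antiP j (toM v) :=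
  toM_ofM (antiP_skew (toM_skew v))

theorem antiP_idem {j : M4} (hj : j * j = -1) (M : M4) : antiP j (antiP j M) = antiP j M := by
  simp only [antiP, Matrix.mul_smul, Matrix.smul_mul, Matrix.mul_sub, Matrix.sub_mul,
    conj_twice hj]
  module

/-- Multiplication by a scalar, as a field of maps. -/
noncomputable def scl (G : Type*) [NormedAddCommGroup G] [NormedSpace ℝ G] (th : Pt → ℝ) (p : Pt) :
    G →L[ℝ] G := th p • ContinuousLinearMap.id ℝ G

theorem scl_apply {G : Type*} [NormedAddCommGroup G] [InnerProductSpace ℝ G] (th : Pt → ℝ)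
    (f : Pt → G) (p : Pt) : app (scl G th) f p = th p • f p := rfl

theorem InBox.supp {G : Type*} [NormedAddCommGroup G] {r : ℝ} {u : Pt → G} (hu : InBox r u) :
    HasCompactSupport u :=
  HasCompactSupport.intro (isCompact_closedBall 0 r) fun p hp => by_contra fun h => hp (hu.2 p h)

theorem InBox.eq_zero {G : Type*} [Zero G] {r : ℝ} {u : Pt → G} (hu : InBox r u) {p : Pt}
    (hp : p ∉ box) : u p = 0 :=
  by_contra fun h => hp (Metric.closedBall_subset_ball hu.1 (hu.2 p h))

/-- A cut off smooth field on the box is smooth with compact support. -/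
theorem sm_cut {G : Type*} [NormedAddCommGroup G] [NormedSpace ℝ G] {th : Pt → ℝ} {r : ℝ}
    (hth : ContDiff ℝ ∞ th) (hr : InBox r th) {g : Pt → G} (hg : ContDiffOn ℝ ∞ g box) :
    Sm fun p => th p • g p := by
  refine ⟨contDiff_iff_contDiffAt.2 fun p => ?_, HasCompactSupport.intro (isCompact_closedBall 0 r)
    fun p hp => by simp [by_contra (p := th p = 0) fun h => hp (hr.2 p h)]⟩
  by_cases hp : p ∈ Metric.closedBall (0 : Pt) r
  · exact hth.contDiffAt.smul
      (hg.contDiffAt (isOpen_box.mem_nhds (Metric.closedBall_subset_ball hr.1 hp)))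
  · refine contDiffAt_const (c := (0 : G)).congr_of_eventuallyEq ?_
    filter_upwards [Metric.isClosed_closedBall.isOpen_compl.mem_nhds hp] with q hq
    simp [by_contra (p := th q = 0) fun h => hq (hr.2 q h)]

theorem inBox_smul {G : Type*} [NormedAddCommGroup G] [NormedSpace ℝ G] {th : Pt → ℝ} {r : ℝ}
    (hr : InBox r th) (g : Pt → G) : InBox r fun p => th p • g p :=
  ⟨hr.1, fun p hp => hr.2 p fun h => hp (by simp [h])⟩

theorem contDiffOn_clm {E F : Type*} [NormedAddCommGroup E] [NormedSpace ℝ E]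
    [FiniteDimensional ℝ E] [NormedAddCommGroup F] [NormedSpace ℝ F] {L : Pt → E →L[ℝ] F}
    (h : ∀ v, ContDiffOn ℝ ∞ (fun p => L p v) box) : ContDiffOn ℝ ∞ L box :=
  contDiffOn_clm_apply.2 h

theorem sm_scl {G : Type*} [NormedAddCommGroup G] [NormedSpace ℝ G] {th : Pt → ℝ} {r : ℝ}
    (hth : ContDiff ℝ ∞ th) (hr : InBox r th) : Sm (scl G th) :=
  sm_cut hth hr contDiffOn_const

/-- A cut-off equal to one near a smaller ball. -/
theorem exists_cut {r : ℝ} (hr : r < 1) : ∃ (q : Pt → ℝ) (r' r₁ : ℝ), r < r' ∧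
    ContDiff ℝ ∞ q ∧ InBox r₁ q ∧ r' ≤ r₁ ∧ (∀ p, 0 ≤ q p ∧ q p ≤ 1) ∧
    ∀ p ∈ Metric.closedBall 0 r', q p = 1 := by
  set a := max r (1 / 2)
  have ha : a < 1 := max_lt hr (by norm_num)
  have ha0 : 0 < a := lt_max_of_lt_right (by norm_num)
  let b : ContDiffBump (0 : Pt) :=
    ⟨a + (1 - a) / 3, a + 2 * (1 - a) / 3, by linarith, by linarith⟩
  refine ⟨b, a + (1 - a) / 3, a + 2 * (1 - a) / 3, by linarith [le_max_left r (1 / 2)], b.contDiff,
    ⟨by linarith, fun p hp => ?_⟩, by linarith, fun p => ⟨b.nonneg, b.le_one⟩,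
    fun p hp => b.one_of_mem_closedBall hp⟩
  by_contra h
  exact hp (b.zero_of_le_dist (le_of_lt (not_le.1 h)))

/-- The exterior derivative, one direction at a time. -/
noncomputable def lamLin (d : Fin 4) : Fm →ₗ[ℝ] D4 where
  toFun v := WithLp.toLp 2 ![(if d = 1 then v 5 else 0) - (if d = 2 then v 4 else 0)
      + (if d = 3 then v 3 else 0),
    -((if d = 0 then v 5 else 0) - (if d = 2 then v 2 else 0) + (if d = 3 then v 1 else 0)),
    (if d = 0 then v 4 else 0) - (if d = 1 then v 2 else 0) + (if d = 3 then v 0 else 0),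
    -((if d = 0 then v 3 else 0) - (if d = 1 then v 1 else 0) + (if d = 2 then v 0 else 0))]
  map_add' v w := by ext i; fin_cases i <;> fin_cases d <;> simp <;> ring
  map_smul' t v := by ext i; fin_cases i <;> fin_cases d <;> simp

/-- The same as a continuous map. -/
noncomputable def lam (d : Fin 4) : Fm →L[ℝ] D4 := LinearMap.toContinuousLinearMap (lamLin d)

theorem dop_eq (u : Pt → Fm) : dop u = ∑ d, fun p => lam d (dd d u p) := by
  funext p
  ext i
  fin_cases i <;> simp [dop, lam, lamLin, Fin.sum_univ_four] <;> ring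

section comp
variable {E F : Type*} [NormedAddCommGroup E] [InnerProductSpace ℝ E] [NormedAddCommGroup F]
  [InnerProductSpace ℝ F] {f : Pt → E}

theorem sm_comp (L : E →L[ℝ] F) (hf : Sm f) : Sm fun p => L (f p) :=
  ⟨L.contDiff.comp hf.smooth, hf.supp.comp_left (g := L) (map_zero L)⟩

theorem n0_comp_le (L : E →L[ℝ] F) (hf : Sm f) : n0 (fun p => L (f p)) ≤ ‖L‖ * n0 f :=
  n0_app_le (A := fun _ => L) contDiff_const hf (norm_nonneg L) fun _ _ => le_rfl

theorem dqL_comp (L : E →L[ℝ] F) (h : ℝ) (l : List (Fin 4)) (f : Pt → E) :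
    dqL h l (fun p => L (f p)) = fun p => L (dqL h l f p) := by
  induction l generalizing f with
  | nil => rfl
  | cons d l ih =>
    have e : dq h d (fun p => L (f p)) = fun p => L (dq h d f p) := by
      funext p; simp [dq, trl, map_sub]
    rw [dqL, e, ih]
    rfl

theorem nK_comp_le (L : E →L[ℝ] F) (h : ℝ) (n : ℕ) (hf : Sm f) :
    nK h n (fun p => L (f p)) ≤ ‖L‖ * nK h n f := by
  induction n generalizing f with
  | zero => exact n0_comp_le L hf
  | succ n ih =>
    have e : ∀ d, dq h d (fun p => L (f p)) = fun p => L (dq h d f p) := fun d => by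
      funext p; simp [dq, trl, map_sub]
    simp only [nK, e, mul_add, Finset.mul_sum]
    exact add_le_add (n0_comp_le L hf) (Finset.sum_le_sum fun d _ => ih (hf.dqS h d))

theorem dd_comp (L : E →L[ℝ] F) (d : Fin 4) (hf : Sm f) :
    dd d (fun p => L (f p)) = fun p => L (dd d f p) := by
  funext p
  show fderiv ℝ (L ∘ f) p _ = _
  rw [fderiv_comp p L.differentiableAt ((hf.smooth.differentiable (by norm_num)) p), L.fderiv]
  rfl

theorem eK_comp_le (L : E →L[ℝ] F) (h : ℝ) (n : ℕ) (hf : Sm f) :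
    eK h n (fun p => L (f p)) ≤ ‖L‖ * eK h n f := by
  simp only [eK, dd_comp L _ hf, mul_add, Finset.mul_sum]
  exact add_le_add (nK_comp_le L h n hf) (Finset.sum_le_sum fun d _ => nK_comp_le L h n (hf.ddS d))

end comp

theorem sm_dop {u : Pt → Fm} (hu : Sm u) : Sm (dop u) := by
  rw [dop_eq]; exact Sm.sum fun d _ => sm_comp (lam d) (hu.ddS d)

theorem dop_add {u v : Pt → Fm} (hu : Sm u) (hv : Sm v) : dop (u + v) = dop u + dop v := by
  simp only [dop_eq, dd_add _ hu hv, ← Finset.sum_add_distrib]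
  exact Finset.sum_congr rfl fun d _ => by funext p; simp

theorem dop_sub {u v : Pt → Fm} (hu : Sm u) (hv : Sm v) : dop (u - v) = dop u - dop v := by
  simp only [dop_eq, dd_sub _ hu hv, ← Finset.sum_sub_distrib]
  exact Finset.sum_congr rfl fun d _ => by funext p; simp

theorem dop_dqL {u : Pt → Fm} (hu : Sm u) (h : ℝ) (l : List (Fin 4)) :
    dop (dqL h l u) = dqL h l (dop u) := by
  rw [dop_eq, dop_eq, Fin.sum_univ_four, Fin.sum_univ_four, dqL_add, dqL_add, dqL_add]
  simp only [dd_dqL hu, dqL_comp]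

theorem exists_nK_dop (n : ℕ) : ∃ C, 0 ≤ C ∧ ∀ h u, Sm u → nK h n (dop u) ≤ C * eK h n u := by
  refine ⟨∑ d, ‖lam d‖, Finset.sum_nonneg fun d _ => norm_nonneg _, fun h u hu => ?_⟩
  rw [dop_eq]
  refine (nK_sum_le h n fun d _ => sm_comp (lam d) (hu.ddS d)).trans ?_
  rw [Finset.sum_mul]
  refine Finset.sum_le_sum fun d _ => (nK_comp_le (lam d) h n (hu.ddS d)).trans
    (mul_le_mul_of_nonneg_left ?_ (norm_nonneg _))
  exact (Finset.single_le_sum (f := fun d => nK h n (dd d u)) (fun _ _ => nK_nonneg _ _ _)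
    (Finset.mem_univ d)).trans (le_add_of_nonneg_left (nK_nonneg _ _ _))

/-- The commutator of the exterior derivative with a function. -/
noncomputable def tmap (th : Pt → ℝ) (p : Pt) : Fm →L[ℝ] D4 := ∑ d, dd d th p • lam d

theorem sm_tmap {th : Pt → ℝ} (hth : Sm th) : Sm (tmap th) := by
  rw [show tmap th = ∑ d, fun p => dd d th p • lam d by funext p; simp [tmap]]
  refine Sm.sum fun d _ => ?_
  set L : ℝ →L[ℝ] (Fm →L[ℝ] D4) := (ContinuousLinearMap.id ℝ ℝ).smulRight (lam d)
  exact ⟨L.contDiff.comp (hth.ddS d).smooth, (hth.ddS d).supp.comp_left (g := L) (map_zero L)⟩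

theorem dop_smul {th : Pt → ℝ} (hth : ContDiff ℝ ∞ th) {u : Pt → Fm} {p : Pt}
    (hu : DifferentiableAt ℝ u p) :
    dop (fun q => th q • u q) p = th p • dop u p + tmap th p (u p) := by
  have h1 : HasFDerivAt th (fderiv ℝ th p) p :=
    ((hth.differentiable (by norm_num)) p).hasFDerivAt
  have e : ∀ d, dd d (fun q => th q • u q) p = th p • dd d u p + dd d th p • u p := fun d => by
    unfold dd
    rw [(h1.fun_smul hu.hasFDerivAt).fderiv]
    simp only [_root_.add_apply, _root_.smul_apply, ContinuousLinearMap.smulRight_apply]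
  simp only [dop_eq, Finset.sum_apply]
  simp only [tmap, _root_.sum_apply, _root_.smul_apply, Finset.smul_sum, ← Finset.sum_add_distrib]
  exact Finset.sum_congr rfl fun d _ => by rw [e, map_add, map_smul, map_smul]

theorem dop_scl {th : Pt → ℝ} (hth : ContDiff ℝ ∞ th) {u : Pt → Fm} (hu : Sm u) :
    dop (app (scl Fm th) u) = app (scl D4 th) (dop u) + app (tmap th) u := by
  funext p
  exact dop_smul hth ((hu.smooth.differentiable (by norm_num)) p)

theorem dd_scl {G : Type*} [NormedAddCommGroup G] [NormedSpace ℝ G] {th : Pt → ℝ}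
    (hth : ContDiff ℝ ∞ th) (d : Fin 4) : dd d (scl G th) = scl G (dd d th) := by
  funext p
  show fderiv ℝ (fun q => th q • ContinuousLinearMap.id ℝ G) p _ = _
  rw [((((hth.differentiable (by norm_num)) p).hasFDerivAt).smul_const
    (ContinuousLinearMap.id ℝ G)).fderiv]
  rfl

/-- The pairing with `wedge` on upper entries. -/
noncomputable def omLin : Fm →ₗ[ℝ] Fm where
  toFun w := WithLp.toLp 2 ![w 5, -w 4, w 3, w 2, -w 1, w 0]
  map_add' v w := by ext i; fin_cases i <;> simp <;> ring
  map_smul' t v := by ext i; fin_cases i <;> simp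

/-- The same as a continuous map. -/
noncomputable def omF : Fm →L[ℝ] Fm := LinearMap.toContinuousLinearMap omLin

theorem inner_omF (v w : Fm) : ⟪v, omF w⟫_ℝ = wedge (toM v) (toM w) := by
  simp [PiLp.inner_apply, Fin.sum_univ_six, omF, omLin, wedge, toM]
  ring

theorem wedge_comm' (P Q : M4) : wedge P Q = wedge Q P := by simp only [wedge]; ring

/-- A symmetric matrix field as a field of maps. -/
noncomputable def matL (S : Fin 4 → Fin 4 → ℝ) : D4 →L[ℝ] D4 :=
  LinearMap.toContinuousLinearMap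
    { toFun := fun v => WithLp.toLp 2 fun m => ∑ n, S m n * v n
      map_add' := fun v w => by ext m; simp [mul_add, Finset.sum_add_distrib]
      map_smul' := fun t v => by ext m; simp [Finset.mul_sum, mul_left_comm] }

theorem inner_matL (S : Fin 4 → Fin 4 → ℝ) (v w : D4) :
    ⟪matL S v, w⟫_ℝ = ∑ m, ∑ n, S m n * v n * w m := by
  simp [PiLp.inner_apply, matL, Finset.mul_sum]
  exact Finset.sum_congr rfl fun m _ => Finset.sum_congr rfl fun n _ => by ring

variable {N K : ℕ} (A : Atlas N K) (J : Amb N → MN N)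

/-- The cut off projection on anti-invariant fields. -/
noncomputable def pmap (c : Fin K) (q : Pt → ℝ) (p : Pt) : Fm →L[ℝ] Fm :=
  q p • antiL (A.jc J c p)

/-- The cut off coefficient field of the quadratic form. -/
noncomputable def smap (c : Fin K) (q : Pt → ℝ) (p : Pt) : D4 →L[ℝ] D4 :=
  q p • matL (A.smat c p)

variable {A J}

theorem contDiffOn_dens (c : Fin K) : ContDiffOn ℝ ∞ (fun p => A.dens c p) box := by
  simp only [Atlas.dens]
  refine ContDiffOn.sum fun e _ => ((A.chi_smooth e).comp (A.psi_smooth c)).contDiffOn.mul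
    (contDiffOn_det fun i k => ?_)
  simp only [Matrix.mul_apply]
  exact ContDiffOn.sum fun l _ => contDiffOn_const.mul (A.dmat_smooth c l k).contDiffOn

theorem contDiffOn_fld {a : Amb N → MN N} (ha : IsTestX A a) (c : Fin K) :
    ContDiffOn ℝ ∞ (A.fld c a) box := by
  refine contDiffOn_piLp 2 |>.2 fun i => ?_
  fin_cases i <;> simp [Atlas.fld, ofM] <;> exact ha.smooth c _ _

variable (hJ : IsACS A J)
include hJ

theorem sm_pmap (c : Fin K) {q : Pt → ℝ} {r : ℝ} (hq : ContDiff ℝ ∞ q) (hr : InBox r q) :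
    Sm (pmap A J c q) := by
  refine sm_cut hq hr (contDiffOn_clm fun v => contDiffOn_piLp 2 |>.2 fun i => ?_)
  have hj := hJ.smooth c
  have h : ∀ a b, ContDiffOn ℝ ∞ (fun p => antiP (A.jc J c p) (toM v) a b) box := fun a b => by
    simp only [antiP, Matrix.smul_apply, Matrix.sub_apply, smul_eq_mul, Matrix.mul_apply,
      transpose_apply]
    exact contDiffOn_const.mul (contDiffOn_const.sub (ContDiffOn.sum fun l _ =>
      (ContDiffOn.sum fun l' _ => (hj l' a).mul contDiffOn_const).mul (hj l b)))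
  fin_cases i <;> simp [antiL_apply, ofM] <;> exact h _ _

theorem sm_smap (c : Fin K) {q : Pt → ℝ} {r : ℝ} (hq : ContDiff ℝ ∞ q) (hr : InBox r q) :
    Sm (smap A c q) := by
  refine sm_cut hq hr (contDiffOn_clm fun v => contDiffOn_piLp 2 |>.2 fun i => ?_)
  simp only [matL, LinearMap.coe_toContinuousLinearMap', LinearMap.coe_mk, AddHom.coe_mk,
    Atlas.smat]
  exact ContDiffOn.sum fun n _ => ((ContDiffOn.sum fun a _ =>
    (A.dmat_smooth c a i).contDiffOn.mul (A.dmat_smooth c a n).contDiffOn).div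
    (contDiffOn_dens c) fun p hp => (dens_pos A hJ c hp).ne').mul contDiffOn_const

/-- The quadratic form is positive on smaller balls. -/
theorem exists_smat_pos (c : Fin K) {r : ℝ} (hr : r < 1) : ∃ c₀, 0 < c₀ ∧
    ∀ p ∈ Metric.closedBall (0 : Pt) r, ∀ v : D4, c₀ * ‖v‖ ^ 2 ≤ ⟪matL (A.smat c p) v, v⟫_ℝ := by
  have hsub : Metric.closedBall (0 : Pt) r ⊆ box := Metric.closedBall_subset_ball hr
  obtain ⟨b, hb⟩ := (isCompact_closedBall (0 : Pt) r).exists_bound_of_continuousOn
    ((continuousOn_dens A c).mono hsub)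
  set l := ∑ i, ∑ a, A.L c i a ^ 2
  have hl : 0 ≤ l := Finset.sum_nonneg fun i _ => Finset.sum_nonneg fun a _ => sq_nonneg _
  refine ⟨((|b| + 1) * (l + 1))⁻¹, by positivity, fun p hp v => ?_⟩
  have hp' := hsub hp
  set y : Amb N := A.dmat c p *ᵥ fun m => v m
  have hy : ⟪matL (A.smat c p) v, v⟫_ℝ = (∑ a, y a ^ 2) / A.dens c p := by
    rw [inner_matL]
    simp only [Atlas.smat, y, mulVec, dotProduct, sq, Finset.sum_div, Finset.mul_sum,
      Finset.sum_mul]
    rw [Finset.sum_comm]
    simp only [Finset.sum_comm (γ := Fin N)]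
    exact Finset.sum_congr rfl fun a _ => Finset.sum_congr rfl fun m _ =>
      Finset.sum_congr rfl fun n _ => by ring
  have hv : ‖v‖ ^ 2 ≤ l * ∑ a, y a ^ 2 := by
    rw [EuclideanSpace.norm_sq_eq]
    simp only [l, Finset.sum_mul]
    refine Finset.sum_le_sum fun i _ => ?_
    rw [Real.norm_eq_abs, sq_abs, ← Finset.sum_mul]
    have e : v i = ∑ a, A.L c i a * y a := (congr_fun (A.L_mulVec_dmat c hp' fun m => v m) i).symm
    rw [e]
    exact Finset.sum_mul_sq_le_sq_mul_sq _ _ _
  have hd := dens_pos A hJ c hp'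
  have hd2 : A.dens c p ≤ |b| + 1 :=
    (le_abs_self _).trans (((hb p hp).trans (le_abs_self b)).trans (le_add_of_nonneg_right zero_le_one))
  have hy0 : 0 ≤ ∑ a, y a ^ 2 := Finset.sum_nonneg fun _ _ => sq_nonneg _
  rw [hy, inv_mul_le_iff₀ (by positivity)]
  calc ‖v‖ ^ 2 ≤ (l + 1) * ∑ a, y a ^ 2 := hv.trans (mul_le_mul_of_nonneg_right (by linarith) hy0)
    _ = (l + 1) * (A.dens c p * ((∑ a, y a ^ 2) / A.dens c p)) := by field_simp
    _ ≤ (l + 1) * ((|b| + 1) * ((∑ a, y a ^ 2) / A.dens c p)) := by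
        exact mul_le_mul_of_nonneg_left (mul_le_mul_of_nonneg_right hd2 (div_nonneg hy0 hd.le))
          (by linarith)
    _ = _ := by ring

end Vale.Agent.P204.General.Ext
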