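import Mathlib
import Vale.Agent.P204.General.Ext.Fields

/-!
# P204, module C: the a priori bound for approximate solutions

For an anti-invariant test form `ψ` which solves the equation up to `ε` the difference quotients of
order `k` of its derivatives in a chart are bounded, uniformly in the step up to a multiple of `ε`.
-/

open MeasureTheory Matrix Filter Set
open scoped ContDiff Topology InnerProductSpace

namespace Vale.Agent.P204.General

open Vale.Agent.P204.Torus Ext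

variable {N K : ℕ} (A : Atlas N K) {ι : Type*} [Fintype ι]

/-- The quadratic form. -/
noncomputable def Atlas.bq (e : ι → Amb N → MN N) (ψ : Amb N → MN N) : ℝ :=
  A.wedgeInt (A.wOp ψ) ψ + ∑ i, A.wedgeInt (e i) ψ ^ 2

/-- The residual of the equation with right hand side `φ`. -/
noncomputable def Atlas.res (e : ι → Amb N → MN N) (φ ψ ζ : Amb N → MN N) : ℝ :=
  A.wedgeInt (A.wOp ψ) ζ + ∑ i, A.wedgeInt (e i) ψ * A.wedgeInt (e i) ζ - A.wedgeInt φ ζ

/-- A form in a chart, cut off. -/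
noncomputable def Atlas.cut (c : Fin K) (th : Pt → ℝ) (a : Amb N → MN N) (p : Pt) : Fm :=
  th p • A.fld c a p

/-- The quadratic form controls the square norm of anti-invariant forms. -/
def Coercive (J : Amb N → MN N) (e : ι → Amb N → MN N) : Prop :=
  ∃ Cq, 0 ≤ Cq ∧ ∀ ψ, IsAntiX A J ψ → A.wedgeInt ψ ψ ≤ Cq * A.bq e ψ

namespace Ext

theorem InBox.ddS {G : Type*} [NormedAddCommGroup G] [NormedSpace ℝ G] {r : ℝ} {u : Pt → G}
    (hu : InBox r u) (d : Fin 4) : InBox r (dd d u) := by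
  refine ⟨hu.1, fun p hp => by_contra fun h => hp ?_⟩
  have e : u =ᶠ[𝓝 p] fun _ => 0 := by
    filter_upwards [Metric.isClosed_closedBall.isOpen_compl.mem_nhds h] with q hq
    exact by_contra fun h' => hq (hu.2 q h')
  simp [dd, e.fderiv_eq]

theorem InBox.dop {r : ℝ} {u : Pt → Fm} (hu : InBox r u) : InBox r (dop u) := by
  refine ⟨hu.1, fun p hp => by_contra fun h => hp ?_⟩
  simp only [dop_eq, Finset.sum_apply,
    fun d => by_contra (p := dd d u p = 0) fun h' => h ((hu.ddS d).2 p h'), map_zero,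
    Finset.sum_const_zero]

theorem InBox.app {E F : Type*} [NormedAddCommGroup E] [InnerProductSpace ℝ E]
    [NormedAddCommGroup F] [InnerProductSpace ℝ F] {r : ℝ} {u : Pt → E} (hu : InBox r u)
    (B : Pt → E →L[ℝ] F) : InBox r (app B u) :=
  ⟨hu.1, fun p hp => hu.2 p fun h => hp (by simp [Ext.app, h])⟩

theorem eventually_mem_closedBall {r r' : ℝ} (h : r < r') {p : Pt}
    (hp : p ∈ Metric.closedBall (0 : Pt) r) : ∀ᶠ q in 𝓝 p, q ∈ Metric.closedBall (0 : Pt) r' :=
  eventually_of_mem (Metric.isOpen_ball.mem_nhds (Metric.closedBall_subset_ball h hp))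
    fun _ hq => Metric.ball_subset_closedBall hq

theorem dop_congr {u v : Pt → Fm} {p : Pt} (h : u =ᶠ[𝓝 p] v) : dop u p = dop v p := by
  simp only [dop, dd, h.fderiv_eq]

section gen
variable {E F : Type*} [NormedAddCommGroup E] [InnerProductSpace ℝ E] [NormedAddCommGroup F]
  [InnerProductSpace ℝ F]

theorem n0_le_eK (h : ℝ) (w : Pt → E) : n0 w ≤ eK h 0 w :=
  le_add_of_nonneg_right (Finset.sum_nonneg fun _ _ => nK_nonneg _ _ _)

theorem n0_dd_le_eK (h : ℝ) (w : Pt → E) (d : Fin 4) : n0 (dd d w) ≤ eK h 0 w :=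
  (Finset.single_le_sum (f := fun d => nK h 0 (dd d w)) (fun _ _ => nK_nonneg _ _ _)
    (Finset.mem_univ d)).trans (le_add_of_nonneg_left (nK_nonneg _ _ _))

theorem eK_zero_step (h h' : ℝ) (w : Pt → E) : eK h 0 w = eK h' 0 w := rfl

theorem eK_add_le (h : ℝ) (n : ℕ) {f g : Pt → E} (hf : Sm f) (hg : Sm g) :
    eK h n (f + g) ≤ eK h n f + eK h n g := by
  have h1 := Finset.sum_le_sum fun d (_ : d ∈ Finset.univ) =>
    nK_add_le h n (hf.ddS d) (hg.ddS d)
  rw [Finset.sum_add_distrib] at h1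
  simp only [eK, dd_add _ hf hg]
  linarith [nK_add_le h n hf hg]

theorem eK_neg (h : ℝ) (f : Pt → E) : eK h 0 (-f) = eK h 0 f := by
  have e : ∀ d, dd d (-f) = -dd d f := fun d => by funext x; simp only [dd, Pi.neg_apply, fderiv_neg, _root_.neg_apply]
  simp only [eK, nK, e, n0_neg]

/-- The commutator, with one derivative. -/
theorem exists_comm_eK {B : Pt → E →L[ℝ] F} (hB : Sm B) (k : ℕ) : ∃ C, 0 ≤ C ∧
    ∀ h (l : List (Fin 4)) u, l.length ≤ k + 1 → Sm u →
      eK h 0 (dqL h l (app B u) - app B (dqL h l u)) ≤ C * eK h k u := by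
  obtain ⟨C, hC0, hC⟩ := hB.exists_comm k
  choose D hD0 hD using fun d => (hB.ddS d).exists_comm k
  refine ⟨C + ∑ d, D d, add_nonneg hC0 (Finset.sum_nonneg fun d _ => hD0 d), fun h l u hl hu => ?_⟩
  have h1 : ∀ d, nK h 0 (dd d (dqL h l (app B u) - app B (dqL h l u)))
      ≤ D d * nK h k u + C * nK h k (dd d u) := fun d => by
    have e : dd d (dqL h l (app B u) - app B (dqL h l u))
        = (dqL h l (app (dd d B) u) - app (dd d B) (dqL h l u))
          + (dqL h l (app B (dd d u)) - app B (dqL h l (dd d u))) := by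
      rw [dd_sub _ ((hu.appS hB.smooth).dqLS h l) ((hu.dqLS h l).appS hB.smooth),
        dd_dqL (hu.appS hB.smooth), dd_app hB.smooth hu, dd_app hB.smooth (hu.dqLS h l),
        dd_dqL hu, dqL_add]
      abel
    rw [e]
    exact (n0_add_le (((hu.appS (hB.ddS d).smooth).dqLS h l).sub
        ((hu.dqLS h l).appS (hB.ddS d).smooth))
      ((((hu.ddS d).appS hB.smooth).dqLS h l).sub (((hu.ddS d).dqLS h l).appS hB.smooth))).trans
      (add_le_add (hD d h l u hl hu) (hC h l _ hl (hu.ddS d)))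
  have h2 := Finset.sum_le_sum fun d (_ : d ∈ Finset.univ) => h1 d
  rw [Finset.sum_add_distrib, ← Finset.sum_mul, ← Finset.mul_sum] at h2
  have h3 : 0 ≤ (∑ d, D d) * ∑ d, nK h k (dd d u) :=
    mul_nonneg (Finset.sum_nonneg fun d _ => hD0 d) (Finset.sum_nonneg fun d _ => nK_nonneg _ _ _)
  have h0 : nK h 0 (dqL h l (app B u) - app B (dqL h l u)) ≤ C * nK h k u := hC h l u hl hu
  simp only [eK] at h2 ⊢
  nlinarith

variable [FiniteDimensional ℝ E] [FiniteDimensional ℝ F]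

/-- A pairing with a quotient of order `k + 1` needs `k` quotients of the other factor. -/
theorem exists_pair {G : Pt → E →L[ℝ] F} (hG : Sm G) (k : ℕ) : ∃ C, 0 ≤ C ∧
    ∀ h (l : List (Fin 4)) (f : Pt → F) (w : Pt → E), l.length = k + 1 → Sm f → Sm w →
      |ip f (app G (dqL (-h) l w))| ≤ C * nK h k f * eK h 0 w := by
  obtain ⟨C, hC0, hC⟩ := hG.adjS.exists_nK_app k
  refine ⟨C, hC0, fun h l f w hl hf hw => ?_⟩
  rcases l with _ | ⟨d, l⟩
  · simp at hl
  rw [List.length_cons, add_left_inj] at hl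
  rw [ip_comm, ip_app, ip_comm]
  refine (abs_ip_dqL_le (hf.appS hG.adjS.smooth) hw h d l).trans ?_
  rw [hl]
  exact mul_le_mul (hC h f hf) (n0_dd_le_eK h w d) (n0_nonneg _)
    (mul_nonneg hC0 (nK_nonneg _ _ _))

theorem n0_dqL_eK_crude {w : Pt → E} (hw : Sm w) (h : ℝ) (l : List (Fin 4)) :
    eK h 0 (dqL h l w) ≤ (2 * |h|⁻¹) ^ l.length * eK h 0 w := by
  simp only [eK, nK, dd_dqL hw, mul_add, Finset.mul_sum]
  exact add_le_add (n0_dqL_crude hw h l) (Finset.sum_le_sum fun d _ =>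
    n0_dqL_crude (hw.ddS d) h l)

theorem eK_le_of_words {u : Pt → E} (hu : Sm u) (h : ℝ) (n : ℕ) {M : ℝ}
    (hM : ∀ l : List (Fin 4), l.length ≤ n → eK h 0 (dqL h l u) ≤ M) :
    eK h n u ≤ 5 * 5 ^ n * M := by
  have h1 : nK h n u ≤ 5 ^ n * M :=
    nK_le_of_words h n u fun l hl => (n0_le_eK h _).trans (hM l hl)
  have h2 : ∀ d, nK h n (dd d u) ≤ 5 ^ n * M := fun d =>
    nK_le_of_words h n _ fun l hl => by
      rw [← dd_dqL hu]; exact (n0_dd_le_eK h _ d).trans (hM l hl)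
  simp only [eK, Fin.sum_univ_four]
  linarith [h2 0, h2 1, h2 2, h2 3]

end gen

/-- The pairing with the derivative of a commutator. -/
theorem exists_ip_dop_comm {B : Pt → Fm →L[ℝ] Fm} (hB : Sm B) {th : Pt → ℝ} {r : ℝ}
    (hth : ContDiff ℝ ∞ th) (hr : InBox r th) (k : ℕ) : ∃ C, 0 ≤ C ∧
    ∀ h (l : List (Fin 4)) (f : Pt → D4) (w : Pt → Fm), l.length ≤ k + 1 → Sm f → Sm w →
      |ip f (dop (app (scl Fm th) (dqL (-h) l (app B w) - app B (dqL (-h) l w))))|
        ≤ C * nK h k f * eK h 0 w := by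
  have hT : Sm th := ⟨hth, hr.supp⟩
  have hS := sm_scl (G := D4) hth hr
  obtain ⟨C1, hC10, hC1⟩ := (sm_tmap hT).adjS.exists_nK_app k
  obtain ⟨C2, hC20, hC2⟩ := hS.adjS.exists_nK_app k
  obtain ⟨C3, hC30, hC3⟩ := hB.exists_ip_comm k
  choose D hD0 hD using fun d => (hB.ddS d).exists_ip_comm k
  set L : Fin 4 → (D4 →L[ℝ] Fm) := fun d => ContinuousLinearMap.adjoint (lam d)
  refine ⟨C1 * C3 + ∑ d, ‖L d‖ * C2 * (D d + C3), add_nonneg (mul_nonneg hC10 hC30)
    (Finset.sum_nonneg fun d _ => mul_nonneg (mul_nonneg (norm_nonneg _) hC20)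
      (add_nonneg (hD0 d) hC30)), fun h l f w hl hf hw => ?_⟩
  set g := dqL (-h) l (app B w) - app B (dqL (-h) l w)
  have hg : Sm g := ((hw.appS hB.smooth).dqLS _ l).sub ((hw.dqLS _ l).appS hB.smooth)
  set f1 := app (adjF (tmap th)) f
  set f2 := app (adjF (scl D4 th)) f
  have hf1 : Sm f1 := hf.appS (sm_tmap hT).adjS.smooth
  have hf2 : Sm f2 := hf.appS hS.adjS.smooth
  have e0 : ip f (dop (app (scl Fm th) g))
      = (∑ d, ip (fun p => L d (f2 p)) (dd d g)) + ip f1 g := by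
    rw [dop_scl hth hg, ip_add_right ((sm_dop hg).appS hS.smooth) (hg.appS (sm_tmap hT).smooth) hf,
      ip_comm f, ip_comm f, ip_app, ip_app, ip_comm g, ip_comm (dop g),
      dop_eq, ip_sum_right (fun d _ => sm_comp (lam d) (hg.ddS d)) hf2]
    congr 1
    exact Finset.sum_congr rfl fun d _ => integral_congr_ae (Eventually.of_forall fun p =>
      (ContinuousLinearMap.adjoint_inner_left (lam d) _ _).symm)
  have hw0 := n0_le_eK h w
  have hb1 : |ip f1 g| ≤ C1 * C3 * nK h k f * eK h 0 w := by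
    refine (hC3 h l f1 w hl hf1 hw).trans ?_
    calc C3 * nK h k f1 * n0 w ≤ C3 * (C1 * nK h k f) * eK h 0 w :=
          mul_le_mul (mul_le_mul_of_nonneg_left (hC1 h f hf) hC30) hw0 (n0_nonneg _)
            (mul_nonneg hC30 (mul_nonneg hC10 (nK_nonneg _ _ _)))
      _ = _ := by ring
  have hb2 : ∀ d, |ip (fun p => L d (f2 p)) (dd d g)|
      ≤ ‖L d‖ * C2 * (D d + C3) * nK h k f * eK h 0 w := fun d => by
    have hfd : Sm fun p => L d (f2 p) := sm_comp (L d) hf2
    have e : dd d g = (dqL (-h) l (app (dd d B) w) - app (dd d B) (dqL (-h) l w))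
        + (dqL (-h) l (app B (dd d w)) - app B (dqL (-h) l (dd d w))) := by
      rw [dd_sub _ ((hw.appS hB.smooth).dqLS _ l) ((hw.dqLS _ l).appS hB.smooth),
        dd_dqL (hw.appS hB.smooth), dd_app hB.smooth hw, dd_app hB.smooth (hw.dqLS _ l),
        dd_dqL hw, dqL_add]
      abel
    have hn : nK h k (fun p => L d (f2 p)) ≤ ‖L d‖ * (C2 * nK h k f) :=
      (nK_comp_le (L d) h k hf2).trans (mul_le_mul_of_nonneg_left (hC2 h f hf) (norm_nonneg _))
    rw [e, ip_add_right (((hw.appS (hB.ddS d).smooth).dqLS _ l).sub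
      ((hw.dqLS _ l).appS (hB.ddS d).smooth))
      ((((hw.ddS d).appS hB.smooth).dqLS _ l).sub (((hw.ddS d).dqLS _ l).appS hB.smooth)) hfd]
    refine (abs_add_le _ _).trans ((add_le_add (hD d h l _ w hl hfd hw)
      (hC3 h l _ _ hl hfd (hw.ddS d))).trans ?_)
    have h0 : 0 ≤ ‖L d‖ * (C2 * nK h k f) :=
      mul_nonneg (norm_nonneg _) (mul_nonneg hC20 (nK_nonneg _ _ _))
    calc D d * nK h k (fun p => L d (f2 p)) * n0 w
          + C3 * nK h k (fun p => L d (f2 p)) * n0 (dd d w)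
        ≤ D d * (‖L d‖ * (C2 * nK h k f)) * eK h 0 w
          + C3 * (‖L d‖ * (C2 * nK h k f)) * eK h 0 w :=
          add_le_add (mul_le_mul (mul_le_mul_of_nonneg_left hn (hD0 d)) hw0 (n0_nonneg _)
            (mul_nonneg (hD0 d) h0))
            (mul_le_mul (mul_le_mul_of_nonneg_left hn hC30) (n0_dd_le_eK h w d) (n0_nonneg _)
              (mul_nonneg hC30 h0))
      _ = _ := by ring
  rw [e0]
  refine (abs_add_le _ _).trans ((add_le_add ((Finset.abs_sum_le_sum_abs _ _).trans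
    (Finset.sum_le_sum fun d _ => hb2 d)) hb1).trans_eq ?_)
  rw [← Finset.sum_mul, ← Finset.sum_mul]
  ring

variable {A} {J : Amb N → MN N} {c : Fin K}

theorem antiP_smul (j : M4) (t : ℝ) (M : M4) : antiP j (t • M) = t • antiP j M := by
  simp only [antiP, Matrix.mul_smul, Matrix.smul_mul, ← smul_sub]
  exact smul_comm _ _ _

theorem sm_cutA {a : Amb N → MN N} (ha : IsTestX A a) {th : Pt → ℝ} {r : ℝ}
    (hth : ContDiff ℝ ∞ th) (hr : InBox r th) : Sm (A.cut c th a) :=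
  sm_cut hth hr (contDiffOn_fld ha c)

theorem scl_cut {a : Amb N → MN N} {th q : Pt → ℝ} (h : ∀ p, th p ≠ 0 → q p = 1) :
    app (scl Fm th) (A.cut c q a) = A.cut c th a := by
  funext p
  rw [scl_apply]
  by_cases hp : th p = 0
  · simp [Atlas.cut, hp]
  · simp [Atlas.cut, h p hp]

theorem inner_smat (p : Pt) (v w : D4) :
    ⟪matL (A.smat c p) v, w⟫_ℝ = ∑ m, ∑ n, A.smat c p m n * v m * w n := by
  rw [inner_matL, Finset.sum_comm]
  refine Finset.sum_congr rfl fun m _ => Finset.sum_congr rfl fun n _ => ?_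
  simp only [Atlas.smat, mul_comm (A.dmat c p _ m)]

theorem nK_le_sobR {n' : ℕ} (h : ℝ) (n : ℕ) {f : Pt → EuclideanSpace ℝ (Fin n')} (hf : Sm f) :
    nK h n f ≤ 5 ^ n * Real.sqrt (∑ i, sobR n fun p => f p i) := by
  induction n generalizing f with
  | zero =>
    rw [pow_zero, one_mul, nK, n0]
    refine Real.sqrt_le_sqrt (le_of_eq ?_)
    simp only [ip, sobR, PiLp.inner_apply]
    rw [integral_finsetSum _ fun i _ => ?_]
    · exact Finset.sum_congr rfl fun i _ => integral_congr_ae (Eventually.of_forall fun p => by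
        simp [sq])
    · have hs : Sm fun p => f p i := sm_comp (EuclideanSpace.proj i) hf
      simpa using hs.inner_int hs
  | succ n ih =>
    have hc : ∀ d i, (fun p => dd d f p i) = pd d fun p => f p i := fun d i => by
      exact (dd_comp (EuclideanSpace.proj i) d hf).symm
    have hle : ∀ i, sobR n (fun p => f p i) ≤ sobR (n + 1) fun p => f p i := fun i =>
      le_add_of_nonneg_right (Finset.sum_nonneg fun d _ => sobR_nonneg n _)
    set S := Real.sqrt (∑ i, sobR (n + 1) fun p => f p i)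
    have h0 : n0 f ≤ 5 ^ n * S := (n0_le_nK h n f).trans ((ih hf).trans
      (mul_le_mul_of_nonneg_left (Real.sqrt_le_sqrt (Finset.sum_le_sum fun i _ => hle i))
        (by positivity)))
    have h1 : ∀ d, nK h n (dq h d f) ≤ 5 ^ n * S := fun d => by
      refine ((nK_dq_le hf h n d).trans (ih (hf.ddS d))).trans
        (mul_le_mul_of_nonneg_left (Real.sqrt_le_sqrt (Finset.sum_le_sum fun i _ => ?_))
          (by positivity))
      rw [hc]
      exact (Finset.single_le_sum (f := fun d => sobR n (pd d fun p => f p i))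
        (fun e _ => sobR_nonneg n _) (Finset.mem_univ d)).trans
        (le_add_of_nonneg_left (sobR_nonneg n _))
    simp only [nK, Fin.sum_univ_four, pow_succ]
    linarith [h1 0, h1 1, h1 2, h1 3]

theorem exists_nK_cut (hT : TransferStmt) (hJ : IsACS A J) (n : ℕ) (c : Fin K) {th : Pt → ℝ}
    {r : ℝ} (hth : ContDiff ℝ ∞ th) (hr : InBox r th) : ∃ C, 0 ≤ C ∧
    ∀ h a, IsTestX A a → nK h n (A.cut c th a) ≤ C * Real.sqrt (A.sob n a) := by
  obtain ⟨C, hC0, hC⟩ := hT A J hJ n c th r hth hr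
  refine ⟨5 ^ n * Real.sqrt (6 * C), by positivity, fun h a ha => ?_⟩
  refine (nK_le_sobR h n (sm_cutA ha hth hr)).trans ?_
  rw [mul_assoc, ← Real.sqrt_mul (by positivity)]
  refine mul_le_mul_of_nonneg_left (Real.sqrt_le_sqrt ?_) (by positivity)
  refine (Finset.sum_le_sum (g := fun _ => C * A.sob n a) fun i _ => ?_).trans_eq
    (by simp; ring)
  fin_cases i <;> simp [Atlas.cut, Atlas.fld, ofM] <;> exact hC a ha _ _

theorem sob_le_sob (a : Amb N → MN N) {m n : ℕ} (h : m ≤ n) : A.sob m a ≤ A.sob n a := by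
  refine Finset.sum_le_sum fun c _ => Finset.sum_le_sum fun i _ => Finset.sum_le_sum fun j _ => ?_
  refine monotone_nat_of_le_succ (f := fun m => sobR m (A.cutCoef c a i j))
    (fun m => le_add_of_nonneg_right (Finset.sum_nonneg fun d _ => sobR_nonneg m _)) h

variable (hJ : IsACS A J) (hO : OpStmt)
include hJ

theorem toM_fld {a : Amb N → MN N} (ha : IsTestX A a) (p : Pt) :
    toM (A.fld c a p) = A.pull c a p :=
  toM_ofM (pullAt_skew A c p (ha.skew _))

theorem pmap_cut {ψ : Amb N → MN N} (hψ : IsAntiX A J ψ) {th q : Pt → ℝ} {r : ℝ}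
    (hr : InBox r th) (h : ∀ p, th p ≠ 0 → q p = 1) :
    app (pmap A J c q) (A.cut c th ψ) = A.cut c th ψ := by
  funext p
  by_cases hp : th p = 0
  · simp [app, Atlas.cut, hp]
  · have hb : p ∈ box := Metric.closedBall_subset_ball hr.1 (hr.2 p hp)
    simp only [app, pmap, _root_.smul_apply, h p hp, one_smul, Atlas.cut, antiL_apply, toM_smul,
      antiP_smul, toM_fld hJ hψ.1, hψ.2 c p hb, ofM_smul]
    rfl

theorem pmap_pmap {q q2 : Pt → ℝ} {r : ℝ} (hr : InBox r q) (h : ∀ p, q p ≠ 0 → q2 p = 1)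
    (v : Pt → Fm) : app (pmap A J c q2) (app (pmap A J c q) v) = app (pmap A J c q) v := by
  funext p
  by_cases hp : q p = 0
  · simp [app, pmap, hp]
  · simp only [app, pmap, _root_.smul_apply, h p hp, one_smul, map_smul, antiL_apply,
      toM_ofM (antiP_skew (toM_skew _)),
      antiP_idem (hJ.sq c p (Metric.closedBall_subset_ball hr.1 (hr.2 p hp)))]

theorem anti_pmap {q : Pt → ℝ} (v : Pt → Fm) : ∀ p ∈ box,
    antiP (A.jc J c p) (toM (app (pmap A J c q) v p)) = toM (app (pmap A J c q) v p) := fun p hp => by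
  simp only [app, pmap, _root_.smul_apply, toM_smul, toM_antiL, antiP_smul,
    antiP_idem (hJ.sq c p hp)]

theorem isAntiX_pushF (c : Fin K) {z : Pt → Fm} (ht : IsTestX A (A.pushF c z))
    (hpull : ∀ p ∈ box, A.pull c (A.pushF c z) p = toM (z p))
    (ha : ∀ p ∈ box, antiP (A.jc J c p) (toM (z p)) = toM (z p)) :
    IsAntiX A J (A.pushF c z) := by
  refine ⟨ht, fun d p hp => ?_⟩
  by_cases hc : A.psi d p ∈ A.psi c '' box
  · have hq : A.trans c d p ∈ box := A.phi_mem c hc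
    rw [A.pull_trans c d hp hc, hpull _ hq]
    set T := A.L c * A.dmat d p
    set M := toM (z (A.trans c d p))
    have hT : T * A.jc J d p = A.jc J c (A.trans c d p) * T := jc_trans A hJ c d hp hc
    have e : (A.jc J d p)ᵀ * (Tᵀ * M * T) * A.jc J d p
        = Tᵀ * ((A.jc J c (A.trans c d p))ᵀ * M * A.jc J c (A.trans c d p)) * T := by
      calc _ = (T * A.jc J d p)ᵀ * M * (T * A.jc J d p) := by
            simp only [transpose_mul, Matrix.mul_assoc]
        _ = _ := by rw [hT]; simp only [transpose_mul, Matrix.mul_assoc]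
    have e2 : antiP (A.jc J d p) (Tᵀ * M * T) = Tᵀ * antiP (A.jc J c (A.trans c d p)) M * T := by
      simp only [antiP, e, Matrix.mul_smul, Matrix.smul_mul, Matrix.mul_sub, Matrix.sub_mul]
    rw [e2, ha _ hq]
  · have e : A.pull d (A.pushF c z) p = 0 := by
      simp [Atlas.pull, Atlas.pullAt, Atlas.pushF, hc]
    rw [e]; simp [antiP]

include hO

theorem bq_nonneg (e : ι → Amb N → MN N) {ψ : Amb N → MN N} (hψ : IsTestX A ψ) :
    0 ≤ A.wedgeInt (A.wOp ψ) ψ ∧ A.wedgeInt (A.wOp ψ) ψ ≤ A.bq e ψ ∧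
      ∀ i, |A.wedgeInt (e i) ψ| ≤ Real.sqrt (A.bq e ψ) := by
  have h0 : 0 ≤ A.wedgeInt (A.wOp ψ) ψ := by
    rw [(hO A J hJ).2.1 ψ ψ hψ hψ]
    exact integral_nonneg fun x => Finset.sum_nonneg fun a _ => mul_self_nonneg _
  refine ⟨h0, le_add_of_nonneg_right (Finset.sum_nonneg fun i _ => sq_nonneg _), fun i => ?_⟩
  rw [← Real.sqrt_sq_eq_abs]
  exact Real.sqrt_le_sqrt ((Finset.single_le_sum (f := fun i => A.wedgeInt (e i) ψ ^ 2)
    (fun _ _ => sq_nonneg _) (Finset.mem_univ i)).trans (le_add_of_nonneg_left h0))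

/-- The pairing with a pushed field, as a pairing in the chart. -/
theorem wedgeInt_pushF {a : Amb N → MN N} (ha : IsTestX A a) {q : Pt → ℝ} {z : Pt → Fm} {r : ℝ}
    (hz : Sm z) (hr : InBox r z) (hq : ∀ p ∈ Metric.closedBall (0 : Pt) r, q p = 1) :
    A.wedgeInt a (A.pushF c z) = ip (A.cut c q a) fun p => omF (z p) := by
  rw [(((hO A J hJ).2.2.1 c z r hz hr).2.2 a ha).1,
    setIntegral_eq_integral_of_forall_compl_eq_zero fun p hp => by
      simp [hr.eq_zero hp, toM, wedge]]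
  refine integral_congr_ae (Eventually.of_forall fun p => ?_)
  show _ = ⟪A.cut c q a p, omF (z p)⟫_ℝ
  rw [inner_omF]
  by_cases hp : z p = 0
  · simp [hp, toM, wedge]
  · simp [Atlas.cut, hq p (hr.2 p hp), toM_fld hJ ha]

/-- The operator against a pushed field, as a pairing in the chart. -/
theorem wOp_pushF {ψ : Amb N → MN N} (hψ : IsTestX A ψ) {q q2 : Pt → ℝ} {z : Pt → Fm} {r r' : ℝ}
    (hz : Sm z) (hr : InBox r z) (hrr : r < r') (hq : ∀ p ∈ Metric.closedBall (0 : Pt) r', q p = 1)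
    (hq2 : ∀ p ∈ Metric.closedBall (0 : Pt) r, q2 p = 1) :
    A.wedgeInt (A.wOp ψ) (A.pushF c z)
      = ip (app (smap A c q2) (dop (A.cut c q ψ))) (dop z) := by
  rw [(((hO A J hJ).2.2.1 c z r hz hr).2.2 ψ hψ).2,
    setIntegral_eq_integral_of_forall_compl_eq_zero fun p hp => by
      simp [hr.dop.eq_zero hp]]
  refine integral_congr_ae (Eventually.of_forall fun p => ?_)
  show _ = ⟪app (smap A c q2) (dop (A.cut c q ψ)) p, dop z p⟫_ℝ
  by_cases hp : dop z p = 0
  · simp [hp]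
  · have hp' := hr.dop.2 p hp
    have e : dop (A.cut c q ψ) p = dop (A.fld c ψ) p := dop_congr
      ((eventually_mem_closedBall hrr hp').mono fun x hx => by simp [Atlas.cut, hq x hx])
    simp only [app, smap, hq2 p hp', one_smul, e, inner_smat]

theorem exists_bq_pushF (e : ι → Amb N → MN N) (he : ∀ i, IsTestX A (e i)) {r : ℝ} (hr : r < 1) :
    ∃ C, 0 ≤ C ∧ ∀ z : Pt → Fm, Sm z → InBox r z →
      Real.sqrt (A.bq e (A.pushF c z)) ≤ C * eK 0 0 z := by
  obtain ⟨q, r', r₁, hrr', hq, hqr, -, -, hq1⟩ := exists_cut hr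
  obtain ⟨Cd, hCd0, hCd⟩ := exists_nK_dop 0
  obtain ⟨Cs, hCs0, hCs⟩ := (sm_smap hJ c hq hqr).exists_nK_app 0
  have hcut := fun i => sm_cutA (c := c) (he i) hq hqr
  set L := ∑ i, (n0 (A.cut c q (e i)) * ‖omF‖) ^ 2
  refine ⟨Real.sqrt (Cs * Cd ^ 2 + L), Real.sqrt_nonneg _, fun z hz hzr => ?_⟩
  set X := eK 0 0 z
  have hX : 0 ≤ X := eK_nonneg _ _ _
  obtain ⟨ht, hpull, -⟩ := (hO A J hJ).2.2.1 c z r hz hzr
  have hq' : ∀ p ∈ Metric.closedBall (0 : Pt) r, q p = 1 := fun p hp =>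
    hq1 p (Metric.closedBall_subset_closedBall hrr'.le hp)
  have h1 : A.wedgeInt (A.wOp (A.pushF c z)) (A.pushF c z) ≤ Cs * Cd ^ 2 * X ^ 2 := by
    rw [wOp_pushF hJ hO ht hz hzr hrr' hq1 hq']
    have e : A.cut c q (A.pushF c z) = z := by
      funext p
      by_cases hb : p ∈ box
      · simp only [Atlas.cut, Atlas.fld, hpull p hb, ofM_toM]
        by_cases hp : z p = 0
        · simp [hp]
        · simp [hq' p (hzr.2 p hp)]
      · simp [Atlas.cut, hqr.eq_zero hb, hzr.eq_zero hb]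
    rw [e]
    refine (le_abs_self _).trans ((abs_ip_le ((sm_dop hz).appS (sm_smap hJ c hq hqr).smooth)
      (sm_dop hz)).trans ?_)
    have hd : n0 (dop z) ≤ Cd * X := hCd 0 z hz
    calc n0 (app (smap A c q) (dop z)) * n0 (dop z) ≤ Cs * n0 (dop z) * n0 (dop z) :=
          mul_le_mul_of_nonneg_right (hCs 0 _ (sm_dop hz)) (n0_nonneg _)
      _ ≤ Cs * (Cd * X) * (Cd * X) := mul_le_mul (mul_le_mul_of_nonneg_left hd hCs0) hd
          (n0_nonneg _) (mul_nonneg hCs0 (mul_nonneg hCd0 hX))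
      _ = _ := by ring
  have h2 : ∀ i, A.wedgeInt (e i) (A.pushF c z) ^ 2
      ≤ (n0 (A.cut c q (e i)) * ‖omF‖) ^ 2 * X ^ 2 := fun i => by
    rw [wedgeInt_pushF hJ hO (he i) hz hzr hq', ← sq_abs, ← mul_pow]
    refine pow_le_pow_left₀ (abs_nonneg _) ((abs_ip_le (hcut i) (sm_comp omF hz)).trans ?_) 2
    rw [mul_assoc]
    exact mul_le_mul_of_nonneg_left ((n0_comp_le omF hz).trans
      (mul_le_mul_of_nonneg_left (n0_le_eK 0 z) (norm_nonneg _))) (n0_nonneg _)
  refine Real.sqrt_le_iff.2 ⟨mul_nonneg (Real.sqrt_nonneg _) hX, ?_⟩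
  rw [mul_pow, Real.sq_sqrt (add_nonneg (mul_nonneg hCs0 (sq_nonneg _))
    (Finset.sum_nonneg fun i _ => sq_nonneg _)), add_mul, Finset.sum_mul]
  exact add_le_add h1 (Finset.sum_le_sum fun i _ => h2 i)

/-- The main term: the equation tested with the quotients of the solution. -/
theorem exists_main (hT : TransferStmt) (k : ℕ) (c : Fin K) (e : ι → Amb N → MN N)
    (he : ∀ i, IsTestX A (e i)) {th q q2 : Pt → ℝ} {r r' r₁ r₂ : ℝ} (hth : ContDiff ℝ ∞ th)
    (hr : InBox r th) (hrr : r < r') (hq : ContDiff ℝ ∞ q) (hqr : InBox r₁ q) (hr1 : r' ≤ r₁)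
    (hq1 : ∀ p ∈ Metric.closedBall (0 : Pt) r', q p = 1) (hq2 : ContDiff ℝ ∞ q2)
    (hq2r : InBox r₂ q2) (hq21 : ∀ p ∈ Metric.closedBall (0 : Pt) r₁, q2 p = 1) :
    ∃ C, 0 ≤ C ∧ ∀ h, ∃ Ch, 0 ≤ Ch ∧ ∀ φ ψ ε, IsTestX A φ → IsAntiX A J ψ → 0 ≤ ε →
      (∀ ζ, IsAntiX A J ζ → |A.res e φ ψ ζ| ≤ ε * Real.sqrt (A.bq e ζ)) →
      ∀ (l : List (Fin 4)) (w : Pt → Fm), l.length = k + 1 → Sm w →
        app (pmap A J c q2) w = w →
        |ip (app (smap A c q2) (dop (A.cut c th ψ))) (dop (dqL (-h) l w))| ≤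
          (C * (eK h k (A.cut c q ψ) + Real.sqrt (A.sob k φ) + Real.sqrt (A.bq e ψ)) + Ch * ε)
            * eK h 0 w := by
  have hth1 : Sm th := ⟨hth, hr.supp⟩
  have hS := sm_smap hJ c hq2 hq2r
  have hP := sm_pmap hJ c hq2 hq2r
  set G : Pt → Fm →L[ℝ] Fm := fun p => th p • antiL (A.jc J c p) with hGdef
  have hG : Sm G := sm_pmap hJ c hth hr
  set G' : Pt → Fm →L[ℝ] Fm := fun p => omF.comp (G p) with hG'def
  have hG' : Sm G' := by
    refine ⟨(ContinuousLinearMap.compL ℝ Fm Fm Fm omF).contDiff.comp hG.smooth, ?_⟩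
    exact hG.supp.comp_left (g := fun T : Fm →L[ℝ] Fm => omF.comp T) (by simp)
  obtain ⟨Cd, hCd0, hCd⟩ := exists_nK_dop k
  obtain ⟨CS, hCS0, hCS⟩ := hS.exists_nK_app k
  obtain ⟨CE, hCE0, hCE⟩ := hS.exists_eK_app k
  obtain ⟨CT, hCT0, hCT⟩ := (sm_tmap hth1).exists_eK_app k
  obtain ⟨Cp, hCp0, hCp⟩ := exists_pair (sm_tmap hth1) k
  obtain ⟨Cc, hCc0, hCc⟩ := exists_ip_dop_comm hP hth hr k
  obtain ⟨Cg, hCg0, hCg⟩ := exists_pair hG' k
  obtain ⟨Cf, hCf0, hCf⟩ := exists_nK_cut hT hJ k c hq hqr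
  obtain ⟨Cb, hCb0, hCb⟩ := exists_bq_pushF hJ hO (c := c) e he hr.1
  obtain ⟨CG, hCG0, hCG⟩ := hG.exists_eK_app 0
  obtain ⟨Cd1, hCd10, hCd1⟩ := exists_nK_dop 0
  set SE := ∑ i, Real.sqrt (A.sob k (e i))
  have hSE : 0 ≤ SE := Finset.sum_nonneg fun i _ => Real.sqrt_nonneg _
  set C := CE * CT * Cd1 + CS * Cd * (Cp + Cc) + Cg * Cf + Cg * Cf * SE
  have hterm : 0 ≤ CE * CT * Cd1 ∧ 0 ≤ CS * Cd * (Cp + Cc) ∧ 0 ≤ Cg * Cf ∧ 0 ≤ Cg * Cf * SE :=
    ⟨mul_nonneg (mul_nonneg hCE0 hCT0) hCd10, mul_nonneg (mul_nonneg hCS0 hCd0)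
      (add_nonneg hCp0 hCc0), mul_nonneg hCg0 hCf0, mul_nonneg (mul_nonneg hCg0 hCf0) hSE⟩
  have hC : 0 ≤ C := by
    obtain ⟨a1, a2, a3, a4⟩ := hterm
    exact add_nonneg (add_nonneg (add_nonneg a1 a2) a3) a4
  refine ⟨C, hC, fun h => ?_⟩
  refine ⟨Cb * CG * (2 * |h|⁻¹) ^ (k + 1), mul_nonneg (mul_nonneg hCb0 hCG0)
    (pow_nonneg (by positivity) _), fun φ ψ ε hφ hψ hε hres l w hl hw hPw => ?_⟩
  have hqth : ∀ p, th p ≠ 0 → q p = 1 := fun p hp =>
    hq1 p (Metric.closedBall_subset_closedBall hrr.le (hr.2 p hp))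
  set u2 := A.cut c q ψ
  have hu2 : Sm u2 := sm_cutA hψ.1 hq hqr
  set z' := dqL (-h) l w
  have hz' : Sm z' := hw.dqLS _ _
  set X := eK h 0 w
  have hX : 0 ≤ X := eK_nonneg _ _ _
  set E := eK h k u2
  have hE : 0 ≤ E := eK_nonneg _ _ _
  set Y := app (smap A c q2) (dop u2)
  have hY : Sm Y := (sm_dop hu2).appS hS.smooth
  have hYn : nK h k Y ≤ CS * Cd * E := by
    refine (hCS h _ (sm_dop hu2)).trans ?_
    rw [mul_assoc]; exact mul_le_mul_of_nonneg_left (hCd h u2 hu2) hCS0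
  set z := app G z'
  have hz : Sm z := hz'.appS hG.smooth
  have hzr : InBox r z := ⟨hr.1, fun p hp => hr.2 p fun h0 => hp (by simp [z, app, hGdef, h0])⟩
  set g := dqL (-h) l (app (pmap A J c q2) w) - app (pmap A J c q2) z'
  have hg : Sm g := ((hw.appS hP.smooth).dqLS _ _).sub (hz'.appS hP.smooth)
  set f1 := app (smap A c q2) (app (tmap th) u2)
  have hu2t : Sm (app (tmap th) u2) := hu2.appS (sm_tmap hth1).smooth
  have hf1 : Sm f1 := hu2t.appS hS.smooth
  have hzsplit : app (scl Fm th) z' = z + app (scl Fm th) g := by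
    funext p
    simp only [Pi.add_apply, scl_apply, z, g, hPw]
    show th p • z' p = (th p • antiL (A.jc J c p)) (z' p)
      + th p • (z' p - (q2 p • antiL (A.jc J c p)) (z' p))
    simp only [_root_.smul_apply]
    by_cases hp : th p = 0
    · simp [hp]
    · rw [hq21 p (Metric.closedBall_subset_closedBall (hrr.le.trans hr1) (hr.2 p hp)), one_smul,
        smul_sub]
      abel
  -- the decomposition
  have hdec : ip (app (smap A c q2) (dop (A.cut c th ψ))) (dop z')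
      = ip f1 (dop z') - ip Y (app (tmap th) z') + ip Y (dop (app (scl Fm th) g))
        + ip Y (dop z) := by
    have hsc := sm_scl (G := D4) hth hr
    rw [← scl_cut (A := A) (c := c) (a := ψ) hqth, dop_scl hth hu2, app_add]
    rw [ip_add_left (((sm_dop hu2).appS hsc.smooth).appS hS.smooth) hf1 (sm_dop hz')]
    have e1 : ip (app (smap A c q2) (app (scl D4 th) (dop u2))) (dop z')
        = ip Y (app (scl D4 th) (dop z')) := by
      refine integral_congr_ae (Eventually.of_forall fun p => ?_)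
      show ⟪smap A c q2 p (th p • dop u2 p), _⟫_ℝ = ⟪_, th p • dop z' p⟫_ℝ
      rw [map_smul, real_inner_smul_left, real_inner_smul_right]
      rfl
    have e2 : app (scl D4 th) (dop z') = dop z + dop (app (scl Fm th) g) - app (tmap th) z' := by
      rw [← dop_add hz (hg.appS (sm_scl hth hr).smooth), ← hzsplit, dop_scl hth hz']
      abel
    rw [e1, e2, ip_sub_right ((sm_dop hz).add (sm_dop (hg.appS (sm_scl hth hr).smooth)))
      (hz'.appS (sm_tmap hth1).smooth) hY,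
      ip_add_right (sm_dop hz) (sm_dop (hg.appS (sm_scl hth hr).smooth)) hY]
    ring
  -- the four terms
  have t1 : |ip f1 (dop z')| ≤ CE * CT * Cd1 * E * X := by
    rw [show dop z' = dqL (-h) l (dop w) from dop_dqL hw _ _, ip_comm, ip_dqL (sm_dop hw) hf1,
      neg_neg, abs_mul, abs_pow, abs_neg, abs_one, one_pow, one_mul]
    refine (abs_ip_le (sm_dop hw) (hf1.dqLS _ _)).trans ?_
    have h1 : n0 (dqL h l.reverse f1) ≤ CE * (CT * E) := by
      refine (n0_dqL_le h _ f1).trans ?_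
      rw [List.length_reverse, hl]
      exact (nK_succ_le_eK hf1 h k).trans ((hCE h _ hu2t).trans
        (mul_le_mul_of_nonneg_left (hCT h u2 hu2) hCE0))
    have h2 : n0 (dop w) ≤ Cd1 * X := hCd1 h w hw
    calc n0 (dop w) * n0 (dqL h l.reverse f1) ≤ Cd1 * X * (CE * (CT * E)) :=
          mul_le_mul h2 h1 (n0_nonneg _) (mul_nonneg hCd10 hX)
      _ = _ := by ring
  have t2 : |ip Y (app (tmap th) z')| ≤ CS * Cd * Cp * E * X := by
    refine (hCp h l Y w hl hY hw).trans ?_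
    calc Cp * nK h k Y * eK h 0 w ≤ Cp * (CS * Cd * E) * X :=
          mul_le_mul_of_nonneg_right (mul_le_mul_of_nonneg_left hYn hCp0) hX
      _ = _ := by ring
  have t3 : |ip Y (dop (app (scl Fm th) g))| ≤ CS * Cd * Cc * E * X := by
    refine (hCc h l Y w hl.le hY hw).trans ?_
    calc Cc * nK h k Y * eK h 0 w ≤ Cc * (CS * Cd * E) * X :=
          mul_le_mul_of_nonneg_right (mul_le_mul_of_nonneg_left hYn hCc0) hX
      _ = _ := by ring
  have hq' : ∀ p ∈ Metric.closedBall (0 : Pt) r, q p = 1 := fun p hp =>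
    hq1 p (Metric.closedBall_subset_closedBall hrr.le hp)
  have hq2' : ∀ p ∈ Metric.closedBall (0 : Pt) r, q2 p = 1 := fun p hp =>
    hq21 p (Metric.closedBall_subset_closedBall (hrr.le.trans hr1) hp)
  have hpair : ∀ a, IsTestX A a →
      |A.wedgeInt a (A.pushF c z)| ≤ Cg * Cf * Real.sqrt (A.sob k a) * X := fun a ha => by
    rw [wedgeInt_pushF hJ hO ha hz hzr hq']
    refine (hCg h l (A.cut c q a) w hl (sm_cutA ha hq hqr) hw).trans ?_
    calc Cg * nK h k (A.cut c q a) * eK h 0 w ≤ Cg * (Cf * Real.sqrt (A.sob k a)) * X :=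
          mul_le_mul_of_nonneg_right (mul_le_mul_of_nonneg_left (hCf h a ha) hCg0) hX
      _ = _ := by ring
  obtain ⟨ht, hpull, -⟩ := (hO A J hJ).2.2.1 c z r hz hzr
  have hza : IsAntiX A J (A.pushF c z) :=
    isAntiX_pushF hJ c ht hpull fun p hp => anti_pmap hJ (q := th) z' p hp
  have t4 : |ip Y (dop z)| ≤ (Cb * CG * (2 * |h|⁻¹) ^ (k + 1) * ε) * X
      + Cg * Cf * Real.sqrt (A.sob k φ) * X + Cg * Cf * SE * Real.sqrt (A.bq e ψ) * X := by
    rw [← wOp_pushF hJ hO hψ.1 hz hzr hrr hq1 hq2']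
    have e1 : A.wedgeInt (A.wOp ψ) (A.pushF c z) = A.res e φ ψ (A.pushF c z)
        + A.wedgeInt φ (A.pushF c z)
        - ∑ i, A.wedgeInt (e i) ψ * A.wedgeInt (e i) (A.pushF c z) := by
      simp only [Atlas.res]; ring
    rw [e1]
    refine (abs_sub _ _).trans (add_le_add ((abs_add_le _ _).trans
      (add_le_add ((hres _ hza).trans ?_) (hpair φ hφ))) ?_)
    · have h1 : Real.sqrt (A.bq e (A.pushF c z)) ≤ Cb * (CG * ((2 * |h|⁻¹) ^ (k + 1) * X)) := by
        refine (hCb z hz hzr).trans (mul_le_mul_of_nonneg_left ?_ hCb0)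
        rw [eK_zero_step 0 h]
        refine (hCG h z' hz').trans (mul_le_mul_of_nonneg_left ?_ hCG0)
        rw [eK_zero_step h (-h)]
        refine (n0_dqL_eK_crude hw (-h) l).trans_eq ?_
        rw [abs_neg, hl, eK_zero_step (-h) h]
      calc ε * Real.sqrt (A.bq e (A.pushF c z))
          ≤ ε * (Cb * (CG * ((2 * |h|⁻¹) ^ (k + 1) * X))) := mul_le_mul_of_nonneg_left h1 hε
        _ = _ := by ring
    · refine (Finset.abs_sum_le_sum_abs _ _).trans ?_
      simp only [SE, Finset.mul_sum, Finset.sum_mul]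
      refine Finset.sum_le_sum fun i _ => ?_
      rw [abs_mul]
      calc |A.wedgeInt (e i) ψ| * |A.wedgeInt (e i) (A.pushF c z)|
          ≤ Real.sqrt (A.bq e ψ) * (Cg * Cf * Real.sqrt (A.sob k (e i)) * X) :=
            mul_le_mul ((bq_nonneg hJ hO e hψ.1).2.2 i) (hpair (e i) (he i)) (abs_nonneg _)
              (Real.sqrt_nonneg _)
        _ = _ := by ring
  rw [hdec]
  refine (abs_add_le _ _).trans ((add_le_add ((abs_add_le _ _).trans (add_le_add
    ((abs_sub _ _).trans (add_le_add t1 t2)) t3)) t4).trans ?_)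
  obtain ⟨a1, a2, a3, a4⟩ := hterm
  have hS1 := Real.sqrt_nonneg (A.sob k φ)
  have hS2 := Real.sqrt_nonneg (A.bq e ψ)
  have b1 : CE * CT * Cd1 * E + CS * Cd * (Cp + Cc) * E + Cg * Cf * Real.sqrt (A.sob k φ)
      + Cg * Cf * SE * Real.sqrt (A.bq e ψ)
      ≤ C * (E + Real.sqrt (A.sob k φ) + Real.sqrt (A.bq e ψ)) := by
    simp only [C]
    linarith [mul_nonneg a1 hS1, mul_nonneg a1 hS2, mul_nonneg a2 hS1, mul_nonneg a2 hS2,
      mul_nonneg a3 hE, mul_nonneg a3 hS2, mul_nonneg a4 hE, mul_nonneg a4 hS1]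
  linarith [mul_le_mul_of_nonneg_right b1 hX]

end Ext

end Vale.Agent.P204.General
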