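import Mathlib
import Vale.Agent.P204.General.Ext.Regular

/-!
# P204, module C: statements of the limit lemma and of coercivity

Neither is assumed by the final theorem.
-/

open MeasureTheory Filter
open scoped ContDiff Topology

namespace Vale.Agent.P204.General.Ext

/-- Finitely many functionals and the gradient control the square norm. -/
def ModesStmt : Prop :=
  ∀ (r η : ℝ), r < 1 → 0 < η → ∃ (n : ℕ) (g : Fin n → Pt → ℝ), (∀ j, ContDiff ℝ ∞ (g j)) ∧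
    ∀ u : Pt → ℝ, Sm u → InBox r u →
      n0 u ^ 2 ≤ ∑ j, (∫ p, g j p * u p) ^ 2 + η * ∑ d, n0 (dd d u) ^ 2

/-- A Cauchy sequence with bounded difference quotients has a smooth limit. -/
def LimitStmt : Prop :=
  ∃ C, 0 ≤ C ∧ ∀ (r : ℝ) (u : ℕ → Pt → ℝ) (K : ℕ → ℝ), (∀ i, Sm (u i) ∧ InBox r (u i)) →
    (∀ η > 0, ∀ᶠ z : ℕ × ℕ in atTop,
      n0 (u z.1 - u z.2) + ∑ d, n0 (dd d (u z.1 - u z.2)) ≤ η) →
    (∀ η > 0, ∀ᶠ i in atTop, n0 (u i) ≤ K 0 + η) →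
    (∀ k d h, h ≠ 0 → ∀ η > 0, ∀ᶠ i in atTop,
      n0 (dd d (dqL h (List.replicate k d) (u i))) ≤ K k + η) →
    ∃ s : Pt → ℝ, ContDiff ℝ ∞ s ∧
      (∀ (th : Pt → ℝ) (r' : ℝ), ContDiff ℝ ∞ th → InBox r' th →
        Tendsto (fun i => n0 fun p => th p * (u i p - s p)) atTop (𝓝 0) ∧
        ∀ d, Tendsto (fun i => n0 (dd d fun p => th p * (u i p - s p))) atTop (𝓝 0)) ∧
      ∀ p d e, |s p| ≤ C * (K 0 + K 4) ∧ |dd d s p| ≤ C * (K 0 + K 4) ∧
        |dd d (dd e s) p| ≤ C * (K 0 + K 4)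

/-- The quadratic form is coercive for suitable finitely many forms. -/
def CoerStmt : Prop :=
  ∀ {N K : ℕ} (A : Atlas N K) (J : Amb N → MN N), IsACS A J →
    ∃ (n : ℕ) (e : Fin n → Amb N → MN N), (∀ i, IsAntiX A J (e i)) ∧ Coercive A J e

end Vale.Agent.P204.General.Ext
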