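import Mathlib
import Vale.Agent.P204.General.Ext.Regular

/-!
# P204, module C: bounds of every order for approximate solutions
-/

open MeasureTheory Matrix Filter Set
open scoped ContDiff Topology InnerProductSpace

namespace Vale.Agent.P204.General.Ext

open Vale.Agent.P204.Torus

variable {N K : ℕ} {A : Atlas N K} {J : Amb N → MN N} {ι : Type*} [Fintype ι]

/-- The approximate equation. -/
def Approx (A : Atlas N K) (J : Amb N → MN N) (e : ι → Amb N → MN N) (φ ψ : Amb N → MN N)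
    (ε : ℝ) : Prop :=
  IsAntiX A J ψ ∧ 0 ≤ ε ∧ ∀ ζ, IsAntiX A J ζ → |A.res e φ ψ ζ| ≤ ε * Real.sqrt (A.bq e ζ)

variable (hJ : IsACS A J) (hO : OpStmt) (hG : GardingStmt)
include hJ hO hG

/-- The base case: coercivity in a chart. -/
theorem exists_base (e : ι → Amb N → MN N) (hco : Coercive A J e) (c : Fin K) {th : Pt → ℝ} {r : ℝ}
    (hth : ContDiff ℝ ∞ th) (hr : InBox r th) : ∃ C, 0 ≤ C ∧ ∀ h ψ, IsAntiX A J ψ →
      eK h 0 (A.cut c th ψ) ≤ C * Real.sqrt (A.bq e ψ) := by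
  obtain ⟨q, r', r₁, hrr', hq, hqr, -, -, hq1⟩ := exists_cut hr.1
  obtain ⟨Cq, hCq0, hCq⟩ := hco
  obtain ⟨Cg, hCg0, hCg⟩ := hG A J hJ c r hr.1
  obtain ⟨C4, hC40, hC4⟩ := (hO A J hJ).2.2.2.1 c th r hth hr
  obtain ⟨C5, hC50, hC5⟩ := (hO A J hJ).2.2.2.2 c th r hth hr
  obtain ⟨C6, hC60, hC6⟩ := (hO A J hJ).2.2.2.2 c q r₁ hq hqr
  have hT := sm_tmap ⟨hth, hr.supp⟩
  obtain ⟨Ct, hCt0, hCt⟩ := hT.exists_nK_app 0
  refine ⟨(1 + Cg) * Real.sqrt (C5 * Cq)
    + Cg * (Real.sqrt C4 + Ct * Real.sqrt (C6 * Cq)), by positivity, fun h ψ hψ => ?_⟩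
  set B := A.bq e ψ
  have hB := bq_nonneg hJ hO e hψ.1
  have hB0 : 0 ≤ B := hB.1.trans hB.2.1
  have hzero : ∀ (t : Pt → ℝ) (C : ℝ), 0 ≤ C →
      ∫ p, ‖t p • A.fld c ψ p‖ ^ 2 ≤ C * A.wedgeInt ψ ψ →
      n0 (A.cut c t ψ) ≤ Real.sqrt (C * Cq) * Real.sqrt B := fun t C hC0 hC => by
    rw [← Real.sqrt_mul (mul_nonneg hC0 hCq0), n0, mul_assoc]
    refine Real.sqrt_le_sqrt (le_trans (le_of_eq ?_) (hC.trans
      (mul_le_mul_of_nonneg_left (hCq ψ hψ) hC0)))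
    exact integral_congr_ae (Eventually.of_forall fun p => real_inner_self_eq_norm_sq _)
  have h5 := hzero th C5 hC50 (hC5 ψ hψ)
  have h6 := hzero q C6 hC60 (hC6 ψ hψ)
  have hqth : ∀ p, th p ≠ 0 → q p = 1 := fun p hp =>
    hq1 p (Metric.closedBall_subset_closedBall hrr'.le (hr.2 p hp))
  have hu2 : Sm (A.cut c q ψ) := sm_cutA hψ.1 hq hqr
  set u := A.cut c th ψ
  have hu : Sm u := sm_cutA hψ.1 hth hr
  have hd : n0 (dop u) ≤ (Real.sqrt C4 + Ct * Real.sqrt (C6 * Cq)) * Real.sqrt B := by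
    rw [show dop u = app (scl D4 th) (dop (A.cut c q ψ)) + app (tmap th) (A.cut c q ψ) by
      rw [← dop_scl hth hu2, scl_cut hqth], add_mul]
    refine (n0_add_le ((sm_dop hu2).appS (sm_scl hth hr).smooth) (hu2.appS hT.smooth)).trans
      (add_le_add ?_ ?_)
    · rw [← Real.sqrt_mul hC40, n0]
      refine Real.sqrt_le_sqrt (le_trans (le_of_eq ?_) ((hC4 ψ hψ.1).trans
        (mul_le_mul_of_nonneg_left hB.2.1 hC40)))
      refine integral_congr_ae (Eventually.of_forall fun p => ?_)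
      show ⟪app (scl D4 th) (dop (A.cut c q ψ)) p, app (scl D4 th) (dop (A.cut c q ψ)) p⟫_ℝ = _
      rw [real_inner_self_eq_norm_sq, scl_apply]
      by_cases hp : th p = 0
      · simp [hp]
      · have e : dop (A.cut c q ψ) p = dop (A.fld c ψ) p := dop_congr
          ((eventually_mem_closedBall hrr' (hr.2 p hp)).mono fun x hx => by
            simp [Atlas.cut, hq1 x hx])
        rw [e, norm_smul, mul_pow, Real.norm_eq_abs, sq_abs]
    · refine (hCt 0 _ hu2).trans ?_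
      rw [mul_assoc]
      exact mul_le_mul_of_nonneg_left h6 hCt0
  have hanti : ∀ p ∈ box, antiP (A.jc J c p) (toM (u p)) = toM (u p) := fun p hp => by
    simp only [u, Atlas.cut, toM_smul, toM_fld hJ hψ.1, antiP_smul, hψ.2 c p hp]
  have hg := hCg u hu (inBox_smul hr _) hanti
  show nK h 0 u + ∑ d, nK h 0 (dd d u) ≤ _
  calc n0 u + ∑ d, n0 (dd d u) ≤ (1 + Cg) * n0 u + Cg * n0 (dop u) := by linarith
    _ ≤ (1 + Cg) * (Real.sqrt (C5 * Cq) * Real.sqrt B)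
        + Cg * ((Real.sqrt C4 + Ct * Real.sqrt (C6 * Cq)) * Real.sqrt B) := by gcongr
    _ = _ := by ring

omit hJ hO hG in
/-- The absorption in the energy inequality. -/
theorem absorb_step {c0 Cg P R D X : ℝ} (hc0 : 0 < c0) (hCg : 0 ≤ Cg) (hP : 0 ≤ P) (hR : 0 ≤ R)
    (hX : 0 ≤ X) (hD : 0 ≤ D) (hen : c0 * D ^ 2 ≤ R * X) (hgar : X ≤ Cg * D + P) :
    X ≤ Cg * (Cg + 1) * (R / c0) + (Cg + 1) * P := by
  set K := R / c0
  have hK : 0 ≤ K := div_nonneg hR hc0.le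
  have h1 : D ^ 2 ≤ K * X := by
    rw [div_mul_eq_mul_div, le_div_iff₀ hc0]; linarith
  have h2 : D ^ 2 ≤ K * (Cg * D + P) := h1.trans (mul_le_mul_of_nonneg_left hgar hK)
  have h3 : D ≤ (Cg + 1) * K + P := by
    by_contra hcon
    have h4 := lt_of_not_ge hcon
    have hD0 : 0 < D := (by positivity : (0 : ℝ) ≤ (Cg + 1) * K + P).trans_lt h4
    have h5 := mul_lt_mul_of_pos_right h4 hD0
    have hPD : P ≤ D := (le_add_of_nonneg_left (by positivity)).trans h4.le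
    linarith [mul_le_mul_of_nonneg_left hPD hK, mul_nonneg hP hD]
  nlinarith [mul_le_mul_of_nonneg_left h3 hCg]

omit hO in
/-- The energy inequality for one word of quotients. -/
theorem exists_word (k : ℕ) (c : Fin K) {q q2 : Pt → ℝ} {r₁ r₂ : ℝ} (hq : ContDiff ℝ ∞ q)
    (hqr : InBox r₁ q) (hq2 : ContDiff ℝ ∞ q2) (hq2r : InBox r₂ q2)
    (hq21 : ∀ p ∈ Metric.closedBall (0 : Pt) r₁, q2 p = 1) : ∃ C, 0 ≤ C ∧
    ∀ h (l : List (Fin 4)) (u : Pt → Fm) (R : ℝ), l.length = k + 1 → Sm u → 0 ≤ R →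
      app (pmap A J c q) u = u →
      (∀ w, Sm w → app (pmap A J c q2) w = w →
        |ip (app (smap A c q2) (dop u)) (dop (dqL (-h) l.reverse w))| ≤ R * eK h 0 w) →
      eK h 0 (dqL h l u) ≤ C * (eK h k u + R) := by
  have hP := sm_pmap hJ c hq hqr
  have hS := sm_smap hJ c hq2 hq2r
  obtain ⟨c0, hc0, hpos⟩ := exists_smat_pos hJ c hqr.1
  obtain ⟨Cg, hCg0, hCg⟩ := hG A J hJ c r₁ hqr.1
  obtain ⟨Ccm, hCcm0, hCcm⟩ := exists_comm_eK hP k
  obtain ⟨Cd, hCd0, hCd⟩ := exists_nK_dop 0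
  obtain ⟨Cdk, hCdk0, hCdk⟩ := exists_nK_dop k
  obtain ⟨CS, hCS0, hCS⟩ := hS.exists_nK_app 0
  obtain ⟨Ccs, hCcs0, hCcs⟩ := hS.exists_comm k
  obtain ⟨Cp, hCp0, hCp⟩ := hP.exists_nK_app 0
  set a := CS * Cd * Cd * Ccm + Ccs * Cdk * Cd
  have ha : 0 ≤ a := by positivity
  refine ⟨Cg * (Cg + 1) * ((a + 1) / c0) + (Cg + 1) * ((1 + Cg) * Cp) + Ccm, by positivity,
    fun h l u R hl' hu hR hPu hmain => ?_⟩
  have hl : l.length ≤ k + 1 := hl'.le
  set E := eK h k u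
  have hE : 0 ≤ E := eK_nonneg _ _ _
  set v := dqL h l u
  have hv : Sm v := hu.dqLS _ _
  set u' := app (pmap A J c q) v
  have hu' : Sm u' := hv.appS hP.smooth
  have hu'r : InBox r₁ u' := ⟨hqr.1, fun p hp => hqr.2 p fun h0 => hp (by simp [u', app, pmap, h0])⟩
  set g := v - u'
  have hg : Sm g := hv.sub hu'
  have hgE : eK h 0 g ≤ Ccm * E := by
    have e : g = dqL h l (app (pmap A J c q) u) - app (pmap A J c q) (dqL h l u) := by
      simp only [g, u', v, hPu]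
    rw [e]; exact hCcm h l u hl hu
  set X := eK h 0 u'
  have hX : 0 ≤ X := eK_nonneg _ _ _
  have hun : n0 u' ≤ Cp * E := by
    refine (hCp h v hv).trans (mul_le_mul_of_nonneg_left ?_ hCp0)
    refine (n0_dqL_le h l u).trans ?_
    rw [hl']; exact nK_succ_le_eK hu h k
  have hgar : X ≤ Cg * n0 (dop u') + (1 + Cg) * Cp * E := by
    have h1 := hCg u' hu' hu'r (anti_pmap hJ v)
    have h2 : X = n0 u' + ∑ d, n0 (dd d u') := rfl
    have h3 := mul_le_mul_of_nonneg_left hun (by positivity : (0 : ℝ) ≤ 1 + Cg)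
    linarith
  have h1 : c0 * n0 (dop u') ^ 2 ≤ ip (app (smap A c q2) (dop u')) (dop u') := by
    rw [sq_n0, ip, ip, ← integral_const_mul]
    refine integral_mono (((sm_dop hu').inner_int (sm_dop hu')).const_mul _)
      (((sm_dop hu').appS hS.smooth).inner_int (sm_dop hu')) fun p => ?_
    by_cases hp : dop u' p = 0
    · simp [app, hp]
    · have hp' := hu'r.dop.2 p hp
      simp only [app, smap, hq21 p hp', one_smul, real_inner_self_eq_norm_sq]
      exact hpos p hp' _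
  have hsplit : ip (app (smap A c q2) (dop u')) (dop u')
      = ip (dqL h l (app (smap A c q2) (dop u))) (dop u')
        - ip (dqL h l (app (smap A c q2) (dop u)) - app (smap A c q2) (dqL h l (dop u))) (dop u')
        - ip (app (smap A c q2) (dop g)) (dop u') := by
    rw [ip_sub_left (((sm_dop hu).appS hS.smooth).dqLS _ _)
      (((sm_dop hu).dqLS _ _).appS hS.smooth) (sm_dop hu'), ← dop_dqL hu,
      show dop g = dop v - dop u' from dop_sub hv hu', app_sub,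
      ip_sub_left ((sm_dop hv).appS hS.smooth) ((sm_dop hu').appS hS.smooth) (sm_dop hu')]
    ring
  have hdX : n0 (dop u') ≤ Cd * X := hCd h u' hu'
  have t1 : |ip (dqL h l (app (smap A c q2) (dop u))) (dop u')| ≤ R * X := by
    rw [ip_dqL ((sm_dop hu).appS hS.smooth) (sm_dop hu'), abs_mul, abs_pow, abs_neg, abs_one,
      one_pow, one_mul, ← dop_dqL hu']
    exact hmain u' hu' (pmap_pmap hJ hqr (fun p hp => hq21 p (hqr.2 p hp)) v)
  have t2 : |ip (dqL h l (app (smap A c q2) (dop u)) - app (smap A c q2) (dqL h l (dop u)))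
      (dop u')| ≤ Ccs * (Cdk * E) * (Cd * X) :=
    (abs_ip_le ((((sm_dop hu).appS hS.smooth).dqLS _ _).sub
      (((sm_dop hu).dqLS _ _).appS hS.smooth)) (sm_dop hu')).trans
      (mul_le_mul ((hCcs h l _ hl (sm_dop hu)).trans (mul_le_mul_of_nonneg_left
        (hCdk h u hu) hCcs0)) hdX (n0_nonneg _) (by positivity))
  have t3 : |ip (app (smap A c q2) (dop g)) (dop u')| ≤ CS * (Cd * (Ccm * E)) * (Cd * X) :=
    (abs_ip_le ((sm_dop hg).appS hS.smooth) (sm_dop hu')).trans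
      (mul_le_mul ((hCS h _ (sm_dop hg)).trans (mul_le_mul_of_nonneg_left
        ((hCd h g hg).trans (mul_le_mul_of_nonneg_left hgE hCd0)) hCS0)) hdX (n0_nonneg _)
        (by positivity))
  have hen : c0 * n0 (dop u') ^ 2 ≤ ((a + 1) * (E + R)) * X := by
    have e : ((a + 1) * (E + R)) * X = R * X + Ccs * (Cdk * E) * (Cd * X)
        + CS * (Cd * (Ccm * E)) * (Cd * X) + (E + a * R) * X := by
      simp only [a]; ring
    have : 0 ≤ (E + a * R) * X := by positivity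
    rw [hsplit] at h1
    linarith [abs_le.1 t1, abs_le.1 t2, abs_le.1 t3]
  have hb := absorb_step hc0 hCg0 (by positivity) (by positivity) hX (n0_nonneg _) hen hgar
  have hv0 : eK h 0 v ≤ X + eK h 0 g := by
    have e : v = u' + g := by simp [g]
    conv_lhs => rw [e]
    exact eK_add_le h 0 hu' hg
  have e : Cg * (Cg + 1) * ((a + 1) * (E + R) / c0)
      = Cg * (Cg + 1) * ((a + 1) / c0) * (E + R) := by ring
  rw [e] at hb
  have h6 : (Cg + 1) * ((1 + Cg) * Cp * E) + Ccm * E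
      ≤ ((Cg + 1) * ((1 + Cg) * Cp) + Ccm) * (E + R) := by
    have : 0 ≤ ((Cg + 1) * ((1 + Cg) * Cp) + Ccm) * R := by positivity
    linarith
  linarith

/-- One order more. -/
theorem exists_step (hT : TransferStmt) (k : ℕ) (e : ι → Amb N → MN N)
    (he : ∀ i, IsTestX A (e i)) (c : Fin K) {th : Pt → ℝ} {r : ℝ}
    (hth : ContDiff ℝ ∞ th) (hr : InBox r th) :
    ∃ (q : Pt → ℝ) (r₁ C : ℝ), ContDiff ℝ ∞ q ∧ InBox r₁ q ∧ 0 ≤ C ∧ ∀ h, ∃ Ch, 0 ≤ Ch ∧
      ∀ φ ψ ε, IsTestX A φ → Approx A J e φ ψ ε → eK h (k + 1) (A.cut c th ψ)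
        ≤ C * (eK h k (A.cut c q ψ) + Real.sqrt (A.sob k φ) + Real.sqrt (A.bq e ψ)) + Ch * ε := by
  obtain ⟨q, r', r₁, hrr', hq, hqr, hr1, -, hq1⟩ := exists_cut hr.1
  obtain ⟨q2, r₁', r₂, hr12, hq2, hq2r, -, -, hq21⟩ := exists_cut hqr.1
  have hq21' : ∀ p ∈ Metric.closedBall (0 : Pt) r₁, q2 p = 1 := fun p hp =>
    hq21 p (Metric.closedBall_subset_closedBall hr12.le hp)
  obtain ⟨Cth, hCth0, hCth⟩ := (sm_scl (G := Fm) hth hr).exists_eK_app k
  obtain ⟨Cw, hCw0, hCw⟩ := exists_word hJ hG k c hq hqr hq2 hq2r hq21'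
  obtain ⟨Cm, hCm0, hCm⟩ := exists_main hJ hO hT k c e he hth hr hrr' hq hqr hr1 hq1 hq2 hq2r hq21'
  set f := 5 * (5 : ℝ) ^ (k + 1)
  refine ⟨q, r₁, f * (Cw * (Cth + Cm) + Cth), hq, hqr, by positivity, fun h => ?_⟩
  obtain ⟨Ch, hCh0, hCh⟩ := hCm h
  refine ⟨f * (Cw * Ch), by positivity, fun φ ψ ε hφ hψ => ?_⟩
  obtain ⟨hψ, hε, hres⟩ := hψ
  have hqth : ∀ p, th p ≠ 0 → q p = 1 := fun p hp =>
    hq1 p (Metric.closedBall_subset_closedBall hrr'.le (hr.2 p hp))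
  set u := A.cut c th ψ
  have hu : Sm u := sm_cutA hψ.1 hth hr
  set E := eK h k (A.cut c q ψ)
  set M := E + Real.sqrt (A.sob k φ) + Real.sqrt (A.bq e ψ)
  have hEM : E ≤ M := by
    have := Real.sqrt_nonneg (A.sob k φ)
    have := Real.sqrt_nonneg (A.bq e ψ)
    simp only [M]; linarith
  have hM : 0 ≤ M := (eK_nonneg _ _ _).trans hEM
  have huM : eK h k u ≤ Cth * M := by
    rw [show u = app (scl Fm th) (A.cut c q ψ) from (scl_cut hqth).symm]
    exact (hCth h _ (sm_cutA hψ.1 hq hqr)).trans (mul_le_mul_of_nonneg_left hEM hCth0)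
  refine (eK_le_of_words hu h (k + 1) (M := (Cw * (Cth + Cm) + Cth) * M + Cw * Ch * ε)
    fun l hl => ?_).trans_eq (by simp only [f, M]; ring)
  have hnn : 0 ≤ Cw * (Cth + Cm) * M + Cw * Ch * ε := by positivity
  rcases Nat.lt_or_ge l.length (k + 1) with hlt | hge
  · have h1 : eK h 0 (dqL h l u) ≤ eK h k u := by
      have hm : ∀ w : Pt → Fm, n0 (dqL h l w) ≤ nK h k w := fun w => (n0_dqL_le h l w).trans
        (monotone_nat_of_le_succ (f := fun j => nK h j w) (fun j => nK_mono h j w)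
          (Nat.le_of_lt_succ hlt))
      simp only [eK, nK, dd_dqL hu]
      exact add_le_add (hm u) (Finset.sum_le_sum fun d _ => hm _)
    linarith [h1.trans huM]
  · have hl' : l.length = k + 1 := le_antisymm hl hge
    have h1 := hCw h l u (Cm * M + Ch * ε) hl' hu (by positivity) (pmap_cut hJ hψ hr hqth)
      fun w hw hPw => hCh φ ψ ε hφ hψ hε hres l.reverse w (by rw [List.length_reverse, hl']) hw hPw
    have h2 := mul_le_mul_of_nonneg_left huM hCw0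
    have : 0 ≤ Cth * M := mul_nonneg hCth0 hM
    linarith

/-- Bounds of every order. -/
theorem exists_apriori (hT : TransferStmt) (e : ι → Amb N → MN N) (he : ∀ i, IsTestX A (e i))
    (hco : Coercive A J e) (k : ℕ) (c : Fin K) {th : Pt → ℝ} {r : ℝ} (hth : ContDiff ℝ ∞ th)
    (hr : InBox r th) : ∃ C, 0 ≤ C ∧ ∀ h, ∃ Ch, 0 ≤ Ch ∧ ∀ φ ψ ε, IsTestX A φ →
      Approx A J e φ ψ ε → eK h k (A.cut c th ψ)
        ≤ C * (Real.sqrt (A.sob (k - 1) φ) + Real.sqrt (A.bq e ψ)) + Ch * ε := by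
  induction k generalizing th r with
  | zero =>
    obtain ⟨C, hC0, hC⟩ := exists_base hJ hO hG e hco c hth hr
    refine ⟨C, hC0, fun h => ⟨0, le_rfl, fun φ ψ ε _ hψ => ?_⟩⟩
    rw [zero_mul, add_zero]
    exact (hC h ψ hψ.1).trans (mul_le_mul_of_nonneg_left
      (le_add_of_nonneg_left (Real.sqrt_nonneg _)) hC0)
  | succ k ih =>
    obtain ⟨q, r₁, C, hq, hqr, hC0, hC⟩ := exists_step hJ hO hG hT k e he c hth hr
    obtain ⟨C', hC'0, hC'⟩ := ih hq hqr
    refine ⟨C * (C' + 1), by positivity, fun h => ?_⟩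
    obtain ⟨Ch, hCh0, hCh⟩ := hC h
    obtain ⟨Ch', hCh'0, hCh'⟩ := hC' h
    refine ⟨C * Ch' + Ch, by positivity, fun φ ψ ε hφ hψ => (hCh φ ψ ε hφ hψ).trans ?_⟩
    have h1 := mul_le_mul_of_nonneg_left (hCh' φ ψ ε hφ hψ) hC0
    have h2 : Real.sqrt (A.sob (k - 1) φ) ≤ Real.sqrt (A.sob k φ) :=
      Real.sqrt_le_sqrt (sob_le_sob φ (Nat.sub_le k 1))
    rw [Nat.add_sub_cancel]
    have h3 := mul_le_mul_of_nonneg_left h2 (mul_nonneg hC0 hC'0)
    nlinarith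

end Vale.Agent.P204.General.Ext
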