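import Mathlib
import Vale.Agent.P204.General.Repr
import Vale.Agent.P204.General.Dual
import Vale.Agent.P204.General.Basic.Stokes
import Vale.Agent.P204.General.Ext.Order

/-!
# P204, module C: approximate minimisers
-/

open MeasureTheory Matrix Filter Set
open scoped ContDiff Topology InnerProductSpace

namespace Vale.Agent.P204.General

open Vale.Agent.P204.Torus Ext

variable {N K : ℕ} {A : Atlas N K} {J : Amb N → MN N} {ι : Type*} [Fintype ι]

/-- The bilinear form of the quadratic form. -/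
noncomputable def Atlas.bb (A : Atlas N K) (e : ι → Amb N → MN N) (ψ ζ : Amb N → MN N) : ℝ :=
  A.wedgeInt (A.wOp ψ) ζ + ∑ i, A.wedgeInt (e i) ψ * A.wedgeInt (e i) ζ

theorem Atlas.bb_self (e : ι → Amb N → MN N) (ψ : Amb N → MN N) : A.bb e ψ ψ = A.bq e ψ := by
  simp only [Atlas.bb, Atlas.bq, sq]

theorem Atlas.res_eq (e : ι → Amb N → MN N) (φ ψ ζ : Amb N → MN N) :
    A.res e φ ψ ζ = A.bb e ψ ζ - A.wedgeInt φ ζ := rfl

namespace Ext

theorem isAntiX_add {a b : Amb N → MN N} (ha : IsAntiX A J a) (hb : IsAntiX A J b) :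
    IsAntiX A J (a + b) := ⟨isTestX_add ha.1 hb.1, fun c p hp => by
  have h1 := ha.2 c p hp
  have h2 := hb.2 c p hp
  simp only [Atlas.pull_add, antiP, Matrix.mul_add, Matrix.add_mul] at *
  conv_rhs => rw [← h1, ← h2]
  module⟩

theorem isAntiX_smul (t : ℝ) {a : Amb N → MN N} (ha : IsAntiX A J a) : IsAntiX A J (t • a) :=
  ⟨isTestX_smul t ha.1, fun c p hp => by rw [Atlas.pull_smul, antiP_smul, ha.2 c p hp]⟩

theorem isAntiX_zero : IsAntiX A J (0 : Amb N → MN N) :=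
  ⟨isTestX_zero, fun c p _ => by simp [Atlas.pull_zero, antiP]⟩

theorem isAntiX_sub {a b : Amb N → MN N} (ha : IsAntiX A J a) (hb : IsAntiX A J b) :
    IsAntiX A J (a - b) := by
  simpa [sub_eq_add_neg] using isAntiX_add ha (isAntiX_smul (-1) hb)

theorem isAntiX_sum {κ : Type*} {s : Finset κ} {F : κ → Amb N → MN N}
    (h : ∀ i ∈ s, IsAntiX A J (F i)) : IsAntiX A J (∑ i ∈ s, F i) := by
  classical
  induction s using Finset.induction_on with
  | empty => exact isAntiX_zero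
  | insert a t ha ih =>
    rw [Finset.sum_insert ha]
    exact isAntiX_add (h a (Finset.mem_insert_self a t))
      (ih fun i hi => h i (Finset.mem_insert_of_mem hi))

theorem cut_sub (c : Fin K) (th : Pt → ℝ) (a b : Amb N → MN N) :
    A.cut c th (a - b) = A.cut c th a - A.cut c th b := by
  funext p
  have e : A.pull c (a - b) p = A.pull c a p - A.pull c b p := by
    simp [Atlas.pull, Atlas.pullAt, Matrix.mul_sub, Matrix.sub_mul]
  have e2 : A.fld c (a - b) p = A.fld c a p - A.fld c b p := by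
    simp only [Atlas.fld, e]
    ext i
    fin_cases i <;> simp [ofM]
  simp [Atlas.cut, e2, smul_sub]

/-- The cut-off of the partition of unity in a chart. -/
theorem exists_thc (A : Atlas N K) : ∃ th : Fin K → Pt → ℝ, ∀ c, ContDiff ℝ ∞ (th c) ∧
    InBox (3 / 4) (th c) ∧ ∀ p ∈ box, th c p = A.chi c (A.psi c p) := by
  let b : ContDiffBump (0 : Pt) := ⟨1 / 2, 3 / 4, by norm_num, by norm_num⟩
  refine ⟨fun c p => b p * A.chi c (A.psi c p),
    fun c => ⟨b.contDiff.mul ((A.chi_smooth c).comp (A.psi_smooth c)),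
      ⟨by norm_num, fun p hp => ?_⟩, fun p hp => ?_⟩⟩
  · by_contra h
    exact hp (by simp [b.zero_of_le_dist (le_of_lt (not_le.1 h))])
  · by_cases h : A.chi c (A.psi c p) = 0
    · simp [h]
    · obtain ⟨p', hp', he⟩ := A.chi_supp c _ (A.psi_mem c p hp) h
      have : p = p' := by rw [← A.phi_psi c hp, ← he, A.phi_psi c (closedBall_subset_box hp')]
      simp [b.one_of_mem_closedBall (this ▸ hp' : p ∈ Metric.closedBall 0 b.rIn)]

variable (hJ : IsACS A J)
include hJ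

theorem cont_pair {a b : Amb N → MN N} (ha : IsTestX A a) (hb : IsTestX A b) :
    ContinuousOn (fun x => A.wedgePt x (a x) (b x)) A.X :=
  continuousOn_wedgePt A ha.skew hb.skew hJ (fun c i k => (ha.smooth c i k).continuousOn)
    fun c i k => (hb.smooth c i k).continuousOn

theorem wedgeInt_add_right {a b b' : Amb N → MN N} (ha : IsTestX A a) (hb : IsTestX A b)
    (hb' : IsTestX A b') : A.wedgeInt a (b + b') = A.wedgeInt a b + A.wedgeInt a b' := by
  simp only [Atlas.wedgeInt, Pi.add_apply, A.wedgePt_add_right]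
  exact integral_add (integrable_of_continuousOn A (cont_pair hJ ha hb))
    (integrable_of_continuousOn A (cont_pair hJ ha hb'))

omit hJ in
theorem wedgeInt_comm (a b : Amb N → MN N) : A.wedgeInt a b = A.wedgeInt b a := by
  simp only [Atlas.wedgeInt, A.wedgePt_comm]

omit hJ in
theorem wedgeInt_smul_right (t : ℝ) (a b : Amb N → MN N) :
    A.wedgeInt a (t • b) = t * A.wedgeInt a b := by
  simp only [Atlas.wedgeInt, Pi.smul_apply, fun x => A.wedgePt_comm x (a x) (t • b x),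
    A.wedgePt_smul_left, integral_const_mul]
  simp only [A.wedgePt_comm]

theorem wedgeInt_sum_right {κ : Type*} {s : Finset κ} {F : κ → Amb N → MN N} {a : Amb N → MN N}
    (ha : IsTestX A a) (hF : ∀ i ∈ s, IsTestX A (F i)) :
    A.wedgeInt a (∑ i ∈ s, F i) = ∑ i ∈ s, A.wedgeInt a (F i) := by
  classical
  induction s using Finset.induction_on with
  | empty =>
    have h := wedgeInt_smul_right (A := A) 0 a 0
    simp only [smul_zero, zero_mul] at h
    simpa using h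
  | insert i t hi ih =>
    have ht : IsTestX A (∑ i ∈ t, F i) := by
      have h' : ∀ j ∈ t, IsTestX A (F j) := fun j hj => hF j (Finset.mem_insert_of_mem hj)
      clear ih hi hF
      induction t using Finset.induction_on with
      | empty => exact isTestX_zero
      | insert j u hj ihu =>
        rw [Finset.sum_insert hj]
        exact isTestX_add (h' j (Finset.mem_insert_self j u))
          (ihu fun l hl => h' l (Finset.mem_insert_of_mem hl))
    rw [Finset.sum_insert hi, Finset.sum_insert hi,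
      wedgeInt_add_right hJ ha (hF i (Finset.mem_insert_self i t)) ht,
      ih fun j hj => hF j (Finset.mem_insert_of_mem hj)]

/-- Forms with the same pullbacks have the same pairings. -/
theorem wedgeInt_congr {a b b' : Amb N → MN N} (ha : IsTestX A a) (hb : IsTestX A b)
    (hb' : IsTestX A b') (h : ∀ c, ∀ p ∈ box, A.pull c b p = A.pull c b' p) :
    A.wedgeInt a b = A.wedgeInt a b' := by
  refine integral_congr_ae ((ae_mem_X A).mono fun x hx => ?_)
  obtain ⟨c, hc, -⟩ := A.exists_chart hx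
  obtain ⟨p, hp, rfl⟩ := A.chi_image hx hc
  show A.wedgePt (A.psi c p) (a _) (b _) = A.wedgePt (A.psi c p) (a _) (b' _)
  rw [wedgePt_chart A (ha.skew _) (hb.skew _) c hp, wedgePt_chart A (ha.skew _) (hb'.skew _) c hp]
  have := h c p hp
  simp only [Atlas.pull] at this
  rw [this]

theorem qq_nonneg {ψ : Amb N → MN N} (hψ : IsAntiX A J ψ) : 0 ≤ A.wedgeInt ψ ψ := by
  refine integral_nonneg_of_ae ((ae_mem_X A).mono fun x hx => ?_)
  obtain ⟨c, hc, -⟩ := A.exists_chart hx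
  obtain ⟨p, hp, rfl⟩ := A.chi_image hx hc
  show 0 ≤ A.wedgePt (A.psi c p) (ψ (A.psi c p)) (ψ (A.psi c p))
  rw [wedgePt_chart A (hψ.1.skew _) (hψ.1.skew _) c hp]
  refine div_nonneg (hJ.pos c p hp _ (pullAt_skew A c p (hψ.1.skew _)) ?_) (dens_pos A hJ c hp).le
  have h := hψ.2 c p hp
  simp only [antiP, Atlas.pull] at h
  set P := A.pullAt c (ψ (A.psi c p)) p
  have h2 := congrArg (fun M => (2 : ℝ) • M) h
  simp only [smul_smul, mul_inv_cancel₀ (two_ne_zero' ℝ), one_smul] at h2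
  rw [two_smul] at h2
  have h3 := congrArg (fun M => M - P) h2
  simp only [add_sub_cancel_right, sub_sub_cancel_left] at h3
  conv_rhs => rw [← h3]
  rw [neg_neg]

omit hJ in
theorem cs_of {a b c : ℝ} (h : ∀ t : ℝ, 0 ≤ c * (t * t) + 2 * b * t + a) (ha : 0 ≤ a) :
    |b| ≤ Real.sqrt a * Real.sqrt c := by
  have h2 := discrim_le_zero h
  rw [discrim] at h2
  rw [← Real.sqrt_mul ha]
  exact Real.abs_le_sqrt (by nlinarith)

theorem abs_qq_le {φ ψ : Amb N → MN N} (hφ : IsAntiX A J φ) (hψ : IsAntiX A J ψ) :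
    |A.wedgeInt φ ψ| ≤ Real.sqrt (A.wedgeInt φ φ) * Real.sqrt (A.wedgeInt ψ ψ) := by
  refine cs_of (fun t => ?_) (qq_nonneg hJ hφ)
  have hs := isAntiX_smul t hψ
  have h := qq_nonneg hJ (isAntiX_add hφ hs)
  rw [wedgeInt_add_right hJ (isTestX_add hφ.1 hs.1) hφ.1 hs.1, wedgeInt_smul_right,
    wedgeInt_comm _ φ, wedgeInt_comm _ ψ, wedgeInt_add_right hJ hφ.1 hφ.1 hs.1,
    wedgeInt_add_right hJ hψ.1 hφ.1 hs.1, wedgeInt_smul_right, wedgeInt_smul_right,
    wedgeInt_comm ψ φ] at h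
  linarith

variable (hO : OpStmt)
include hO

theorem bb_comm (e : ι → Amb N → MN N) {ψ ζ : Amb N → MN N} (hψ : IsTestX A ψ)
    (hζ : IsTestX A ζ) : A.bb e ψ ζ = A.bb e ζ ψ := by
  simp only [Atlas.bb, (hO A J hJ).2.1 ψ ζ hψ hζ, (hO A J hJ).2.1 ζ ψ hζ hψ, mul_comm]

theorem bb_add_right {e : ι → Amb N → MN N} (he : ∀ i, IsTestX A (e i)) {ψ a b : Amb N → MN N}
    (hψ : IsTestX A ψ) (ha : IsTestX A a) (hb : IsTestX A b) :
    A.bb e ψ (a + b) = A.bb e ψ a + A.bb e ψ b := by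
  simp only [Atlas.bb, wedgeInt_add_right hJ ((hO A J hJ).1 ψ hψ).toIsTestX ha hb,
    fun i => wedgeInt_add_right hJ (he i) ha hb, mul_add, Finset.sum_add_distrib]
  ring

omit hJ hO in
theorem bb_smul_right (t : ℝ) (e : ι → Amb N → MN N) (ψ a : Amb N → MN N) :
    A.bb e ψ (t • a) = t * A.bb e ψ a := by
  simp only [Atlas.bb, wedgeInt_smul_right, mul_add, Finset.mul_sum, mul_left_comm _ t]

theorem bq_add {e : ι → Amb N → MN N} (he : ∀ i, IsTestX A (e i)) {a b : Amb N → MN N}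
    (ha : IsTestX A a) (hb : IsTestX A b) :
    A.bq e (a + b) = A.bq e a + 2 * A.bb e a b + A.bq e b := by
  have hab := isTestX_add ha hb
  rw [← Atlas.bb_self, bb_add_right hJ hO he hab ha hb, bb_comm hJ hO e hab ha,
    bb_comm hJ hO e hab hb, bb_add_right hJ hO he ha ha hb, bb_add_right hJ hO he hb ha hb,
    Atlas.bb_self, Atlas.bb_self, bb_comm hJ hO e hb ha]
  ring

theorem bq_smul (t : ℝ) (e : ι → Amb N → MN N) {a : Amb N → MN N} (ha : IsTestX A a) :
    A.bq e (t • a) = t ^ 2 * A.bq e a := by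
  rw [← Atlas.bb_self, bb_smul_right, bb_comm hJ hO e (isTestX_smul t ha) ha, bb_smul_right,
    Atlas.bb_self]
  ring

theorem bq_nonneg' (e : ι → Amb N → MN N) {a : Amb N → MN N} (ha : IsTestX A a) : 0 ≤ A.bq e a :=
  (bq_nonneg hJ hO e ha).1.trans (bq_nonneg hJ hO e ha).2.1

theorem abs_bb_le {e : ι → Amb N → MN N} (he : ∀ i, IsTestX A (e i)) {a b : Amb N → MN N}
    (ha : IsTestX A a) (hb : IsTestX A b) :
    |A.bb e a b| ≤ Real.sqrt (A.bq e a) * Real.sqrt (A.bq e b) := by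
  refine cs_of (fun t => ?_) (bq_nonneg' hJ hO e ha)
  have h := bq_nonneg' hJ hO e (isTestX_add ha (isTestX_smul t hb))
  rw [bq_add hJ hO he ha (isTestX_smul t hb), bb_smul_right, bq_smul hJ hO t e hb] at h
  linarith

theorem sqrt_bq_add_le {e : ι → Amb N → MN N} (he : ∀ i, IsTestX A (e i)) {a b : Amb N → MN N}
    (ha : IsTestX A a) (hb : IsTestX A b) :
    Real.sqrt (A.bq e (a + b)) ≤ Real.sqrt (A.bq e a) + Real.sqrt (A.bq e b) := by
  refine Real.sqrt_le_iff.2 ⟨add_nonneg (Real.sqrt_nonneg _) (Real.sqrt_nonneg _), ?_⟩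
  rw [bq_add hJ hO he ha hb]
  nlinarith [Real.sq_sqrt (bq_nonneg' hJ hO e ha), Real.sq_sqrt (bq_nonneg' hJ hO e hb),
    le_of_abs_le (abs_bb_le hJ hO he ha hb)]

/-- A form is the sum of its pieces in the charts. -/
theorem wedgeInt_decomp {th : Fin K → Pt → ℝ} {r : ℝ}
    (hth : ∀ c, ContDiff ℝ ∞ (th c) ∧ InBox r (th c) ∧ ∀ p ∈ box, th c p = A.chi c (A.psi c p))
    {a b : Amb N → MN N} (ha : IsTestX A a) (hb : IsTestX A b) :
    (∀ c, IsTestX A (A.pushF c (A.cut c (th c) b))) ∧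
    (∀ d, ∀ p ∈ box, A.pull d (∑ c, A.pushF c (A.cut c (th c) b)) p = A.pull d b p) ∧
    A.wedgeInt a b = ∑ c, A.wedgeInt a (A.pushF c (A.cut c (th c) b)) := by
  have hp0 := fun c => (hO A J hJ).2.2.1 c (A.cut c (th c) b) r
    (sm_cutA hb (hth c).1 (hth c).2.1) (inBox_smul (hth c).2.1 _)
  have hpull : ∀ d, ∀ p ∈ box,
      A.pull d (∑ c, A.pushF c (A.cut c (th c) b)) p = A.pull d b p := fun d p hp => by
    have hx := A.psi_mem d p hp
    have e : ∀ c ∈ (Finset.univ : Finset (Fin K)),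
        A.pull d (A.pushF c (A.cut c (th c) b)) p = A.chi c (A.psi d p) • A.pull d b p := fun c _ => by
      by_cases hc : A.psi d p ∈ A.psi c '' box
      · have hq : A.trans c d p ∈ box := A.phi_mem c hc
        rw [A.pull_trans c d hp hc, A.pull_trans c d hp hc b, (hp0 c).2.1 _ hq]
        simp only [Atlas.cut, toM_smul, toM_fld hJ hb, (hth c).2.2 _ hq, Matrix.mul_smul,
          Matrix.smul_mul]
        rw [show A.psi c (A.trans c d p) = A.psi d p from A.psi_phi c hc]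
      · rw [by_contra (p := A.chi c (A.psi d p) = 0) fun h => hc (A.chi_image hx h), zero_smul]
        simp [Atlas.pull, Atlas.pullAt, Atlas.pushF, hc]
    have hsum : A.pull d (∑ c, A.pushF c (A.cut c (th c) b)) p
        = ∑ c, A.pull d (A.pushF c (A.cut c (th c) b)) p := by
      simp [Atlas.pull, Atlas.pullAt, Finset.sum_apply, Matrix.mul_sum, Matrix.sum_mul]
    rw [hsum, Finset.sum_congr rfl e, ← Finset.sum_smul, A.chi_sum _ hx, one_smul]
  have ht := fun c => (hp0 c).1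
  have hts : IsTestX A (∑ c, A.pushF c (A.cut c (th c) b)) := by
    refine ⟨fun x => ?_, fun d i k => (hb.smooth d i k).congr fun p hp => by rw [hpull d p hp]⟩
    simp only [Finset.sum_apply, transpose_sum, fun c => (ht c).skew x, Finset.sum_neg_distrib]
  exact ⟨ht, hpull, by
    rw [← wedgeInt_sum_right hJ ha fun c _ => ht c]
    exact wedgeInt_congr hJ ha hb hts fun d p hp => (hpull d p hp).symm⟩

/-- The square norm of a form is controlled by the Sobolev norm. -/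
theorem exists_qq_le_sob (hT : TransferStmt) :
    ∃ C, 0 ≤ C ∧ ∀ a, IsTestX A a → Real.sqrt (|A.wedgeInt a a|) ≤ C * Real.sqrt (A.sob 0 a) := by
  obtain ⟨th, hth⟩ := exists_thc A
  obtain ⟨q, r', r₁, hrr', hq, hqr, -, -, hq1⟩ := exists_cut (r := (3 / 4 : ℝ)) (by norm_num)
  choose C hC0 hC using fun c => exists_nK_cut hT hJ 0 c (hth c).1 (hth c).2.1
  choose D hD0 hD using fun c => exists_nK_cut hT hJ 0 c hq hqr
  have hnn : 0 ≤ ∑ c, D c * ‖omF‖ * C c :=
    Finset.sum_nonneg fun c _ => mul_nonneg (mul_nonneg (hD0 c) (norm_nonneg _)) (hC0 c)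
  refine ⟨Real.sqrt (∑ c, D c * ‖omF‖ * C c), Real.sqrt_nonneg _, fun a ha => ?_⟩
  rw [← Real.sqrt_mul hnn]
  refine Real.sqrt_le_sqrt ?_
  rw [(wedgeInt_decomp hJ hO hth ha ha).2.2, Finset.sum_mul]
  refine (Finset.abs_sum_le_sum_abs _ _).trans (Finset.sum_le_sum fun c _ => ?_)
  have hz := sm_cutA ha (hth c).1 (hth c).2.1 (c := c)
  rw [wedgeInt_pushF hJ hO ha hz (inBox_smul (hth c).2.1 _)
    fun p hp => hq1 p (Metric.closedBall_subset_closedBall hrr'.le hp)]
  refine (abs_ip_le (sm_cutA ha hq hqr) (sm_comp omF hz)).trans ?_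
  have h0 : 0 ≤ A.sob 0 a := Finset.sum_nonneg fun _ _ => Finset.sum_nonneg fun _ _ =>
    Finset.sum_nonneg fun _ _ => sobR_nonneg _ _
  calc n0 (A.cut c q a) * n0 (fun p => omF (A.cut c (th c) a p))
      ≤ D c * Real.sqrt (A.sob 0 a) * (‖omF‖ * (C c * Real.sqrt (A.sob 0 a))) :=
        mul_le_mul (hD c 0 a ha) ((n0_comp_le omF hz).trans
          (mul_le_mul_of_nonneg_left (hC c 0 a ha) (norm_nonneg _))) (n0_nonneg _)
          (mul_nonneg (hD0 c) (Real.sqrt_nonneg _))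
    _ = D c * ‖omF‖ * C c * (Real.sqrt (A.sob 0 a) * Real.sqrt (A.sob 0 a)) := by ring
    _ = _ := by rw [Real.mul_self_sqrt h0]

/-- Approximate minimisers. -/
theorem exists_approx {e : ι → Amb N → MN N} (he : ∀ i, IsTestX A (e i)) {Cq : ℝ} (hCq0 : 0 ≤ Cq)
    (hCq : ∀ ψ, IsAntiX A J ψ → A.wedgeInt ψ ψ ≤ Cq * A.bq e ψ) {φ : Amb N → MN N}
    (hφ : IsAntiX A J φ) : ∃ (ψ : ℕ → Amb N → MN N) (ε : ℕ → ℝ), Tendsto ε atTop (𝓝 0) ∧
      ∀ n, Approx A J e φ (ψ n) (ε n) ∧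
        Real.sqrt (A.bq e (ψ n)) ≤ 2 * Real.sqrt Cq * Real.sqrt (A.wedgeInt φ φ) + ε n ∧
        ∀ m, Real.sqrt (A.bq e (ψ n - ψ m)) ≤ 2 * ε n + 2 * ε m := by
  set S : Set (Amb N → MN N) := {ψ | IsAntiX A J ψ}
  set F : (Amb N → MN N) → ℝ := fun ψ => A.bq e ψ / 2 - A.wedgeInt φ ψ
  set a := Real.sqrt Cq * Real.sqrt (A.wedgeInt φ φ)
  have ha : 0 ≤ a := by positivity
  have hlow : ∀ ψ ∈ S, |A.wedgeInt φ ψ| ≤ a * Real.sqrt (A.bq e ψ) := fun ψ hψ => by
    refine (abs_qq_le hJ hφ hψ).trans ?_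
    have h := Real.sqrt_le_sqrt (hCq ψ hψ)
    rw [Real.sqrt_mul hCq0] at h
    calc _ ≤ Real.sqrt (A.wedgeInt φ φ) * (Real.sqrt Cq * Real.sqrt (A.bq e ψ)) :=
          mul_le_mul_of_nonneg_left h (Real.sqrt_nonneg _)
      _ = _ := by simp only [a]; ring
  have hbdd : BddBelow (F '' S) := ⟨-(a ^ 2) / 2, by
    rintro - ⟨ψ, hψ, rfl⟩
    have h1 := le_of_abs_le (hlow ψ hψ)
    have h2 := Real.sq_sqrt (bq_nonneg' hJ hO e hψ.1)
    simp only [F]
    nlinarith [sq_nonneg (Real.sqrt (A.bq e ψ) - a)]⟩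
  have hne : (F '' S).Nonempty := ⟨F 0, 0, isAntiX_zero, rfl⟩
  set m := sInf (F '' S)
  have hm : ∀ ψ ∈ S, m ≤ F ψ := fun ψ hψ => csInf_le hbdd ⟨ψ, hψ, rfl⟩
  set δ : ℕ → ℝ := fun n => 1 / ((n : ℝ) + 1)
  have hδ : ∀ n, 0 < δ n := fun n => by positivity
  have hex : ∀ n, ∃ ψ ∈ S, F ψ < m + δ n := fun n => by
    obtain ⟨-, ⟨ψ, hψ, rfl⟩, h⟩ := exists_lt_of_csInf_lt hne (lt_add_of_pos_right m (hδ n))
    exact ⟨ψ, hψ, h⟩
  choose ψ hψS hψ using hex
  have hF0 : F 0 = 0 := by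
    have h1 := bq_smul hJ hO 0 e (isTestX_zero (A := A))
    have h2 := wedgeInt_smul_right (A := A) 0 φ 0
    simp only [smul_zero, zero_mul, zero_pow two_ne_zero] at h1 h2
    simp [F, h1, h2]
  refine ⟨ψ, fun n => Real.sqrt (2 * δ n), ?_, fun n => ⟨⟨hψS n, Real.sqrt_nonneg _, fun ζ hζ => ?_⟩,
    ?_, fun k => ?_⟩⟩
  · have h1 : Tendsto δ atTop (𝓝 0) := tendsto_one_div_add_atTop_nhds_zero_nat
    simpa using (h1.const_mul 2).sqrt
  · rw [← Real.sqrt_sq_eq_abs, ← Real.sqrt_mul (by positivity)]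
    refine Real.sqrt_le_sqrt ?_
    have hq : ∀ t : ℝ, 0 ≤ A.bq e ζ / 2 * (t * t) + A.res e φ (ψ n) ζ * t + δ n := fun t => by
      have hts := isAntiX_smul t hζ
      have h1 := hm _ (isAntiX_add (hψS n) hts)
      have h2 := hψ n
      simp only [F, bq_add hJ hO he (hψS n).1 hts.1, bb_smul_right, bq_smul hJ hO t e hζ.1,
        wedgeInt_add_right hJ hφ.1 (hψS n).1 hts.1, wedgeInt_smul_right] at h1 h2
      rw [Atlas.res_eq]
      linarith
    have h3 := discrim_le_zero hq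
    rw [discrim] at h3
    linarith
  · have h1 : F (ψ n) ≤ δ n := (hψ n).le.trans (by linarith [hm 0 isAntiX_zero])
    have h2 := le_of_abs_le (hlow _ (hψS n))
    have h3 := Real.sq_sqrt (bq_nonneg' hJ hO e (hψS n).1)
    have h4 := Real.sq_sqrt (by positivity : (0 : ℝ) ≤ 2 * δ n)
    have h5 := Real.sqrt_nonneg (2 * δ n)
    simp only [F] at h1
    set s := Real.sqrt (A.bq e (ψ n))
    show s ≤ _
    rw [mul_assoc 2]
    by_contra hcon
    have h6 : 2 * a + Real.sqrt (2 * δ n) < s := lt_of_not_ge hcon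
    have h7 := mul_lt_mul_of_pos_right h6 (by linarith : 0 < s)
    have h8 := mul_le_mul_of_nonneg_left
      (show Real.sqrt (2 * δ n) ≤ s by linarith) h5
    nlinarith
  · have hd := isAntiX_sub (hψS n) (hψS k)
    have hmid := hm _ (isAntiX_smul (2 : ℝ)⁻¹ (isAntiX_add (hψS n) (hψS k)))
    have h1 := hψ n
    have h2 := hψ k
    have hsub : A.bq e (ψ n - ψ k) = A.bq e (ψ n) - 2 * A.bb e (ψ n) (ψ k) + A.bq e (ψ k) := by
      have e1 : ψ n - ψ k = ψ n + (-1 : ℝ) • ψ k := by simp [sub_eq_add_neg]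
      rw [e1, bq_add hJ hO he (hψS n).1 (isTestX_smul _ (hψS k).1), bb_smul_right,
        bq_smul hJ hO _ e (hψS k).1]
      ring
    simp only [F, bq_smul hJ hO _ e (isTestX_add (hψS n).1 (hψS k).1),
      bq_add hJ hO he (hψS n).1 (hψS k).1, wedgeInt_smul_right,
      wedgeInt_add_right hJ hφ.1 (hψS n).1 (hψS k).1] at hmid h1 h2
    have h3 : A.bq e (ψ n - ψ k) ≤ 4 * (δ n + δ k) := by rw [hsub]; linarith
    refine Real.sqrt_le_iff.2 ⟨by positivity, h3.trans ?_⟩
    have e1 := Real.sq_sqrt (by positivity : (0 : ℝ) ≤ 2 * δ n)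
    have e2 := Real.sq_sqrt (by positivity : (0 : ℝ) ≤ 2 * δ k)
    nlinarith [mul_nonneg (Real.sqrt_nonneg (2 * δ n)) (Real.sqrt_nonneg (2 * δ k)), hδ n, hδ k]

end Ext

end Vale.Agent.P204.General
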