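import Mathlib
import Vale.Agent.P204.General.Ext.Solve
import Vale.Agent.P204.General.Ext.Parts

/-!
# P204, module C: the correction

For every anti-invariant test form `φ` there is a closed form, bounded by the Sobolev norm of `φ`,
whose anti-invariant part differs from `φ` in a fixed finite dimensional space.
-/

open MeasureTheory Matrix Filter Set
open scoped ContDiff Topology InnerProductSpace

namespace Vale.Agent.P204.General

open Vale.Agent.P204.Torus Ext

variable {N K : ℕ} {A : Atlas N K} {J : Amb N → MN N} {ι : Type*} [Fintype ι]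

namespace Ext

theorem eq_zero_of_n0 {G : Type*} [NormedAddCommGroup G] [InnerProductSpace ℝ G] {f : Pt → G}
    (hf : Sm f) (h : n0 f = 0) : f = 0 := by
  have h1 : ip f f = 0 := by rw [← sq_n0, h]; norm_num
  have h2 := (integral_eq_zero_iff_of_nonneg
    (f := fun x => ⟪f x, f x⟫_ℝ) (fun x => real_inner_self_nonneg) (hf.inner_int hf)).1 h1
  refine (Continuous.ae_eq_iff_eq volume hf.smooth.continuous continuous_const).1 ?_
  filter_upwards [h2] with x hx
  exact inner_self_eq_zero.1 hx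

theorem eK_sum_le {G : Type*} [NormedAddCommGroup G] [InnerProductSpace ℝ G] {κ : Type*}
    (s : Finset κ) {F : κ → Pt → G} (hF : ∀ i, Sm (F i)) :
    eK 0 0 (∑ i ∈ s, F i) ≤ ∑ i ∈ s, eK 0 0 (F i) := by
  classical
  induction s using Finset.induction_on with
  | empty =>
    have e : ∀ d, dd d (0 : Pt → G) = 0 := fun d => by funext x; simp [dd]
    simp [eK, nK, e, n0_zero]
  | insert a t ha ih =>
    rw [Finset.sum_insert ha, Finset.sum_insert ha]
    exact (eK_add_le 0 0 (hF a) (Sm.sum fun i _ => hF i)).trans (add_le_add le_rfl ih)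

theorem norm_proj_le (i : Fin 6) :
    ‖(EuclideanSpace.proj i : Fm →L[ℝ] ℝ)‖ ≤ 1 :=
  ContinuousLinearMap.opNorm_le_bound _ zero_le_one fun x => by
    rw [one_mul]; exact PiLp.norm_apply_le x i

/-- The coordinate inclusions. -/
noncomputable def incl (i : Fin 6) : ℝ →L[ℝ] Fm :=
  (ContinuousLinearMap.id ℝ ℝ).smulRight (EuclideanSpace.single i (1 : ℝ))

theorem sum_incl (v : Fm) : ∑ i, incl i (v i) = v := by
  ext j
  simp [incl, Finset.sum_apply, PiLp.single_apply, Pi.single_apply]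

theorem pushF_sub (c : Fin K) (z z' : Pt → Fm) :
    A.pushF c (z - z') = A.pushF c z - A.pushF c z' := by
  funext x
  by_cases h : x ∈ A.psi c '' box
  · have e : ∀ v w : Fm, toM (v - w) = toM v - toM w := fun v w => by
      rw [sub_eq_add_neg, ← neg_one_smul ℝ w, toM_add, toM_smul, neg_one_smul, ← sub_eq_add_neg]
    simp [Atlas.pushF, h, Atlas.push, e, Matrix.mul_sub, Matrix.sub_mul]
  · simp [Atlas.pushF, h]

theorem pmap_cut' (hJ : IsACS A J) {ψ : Amb N → MN N} (hψ : IsAntiX A J ψ) {c : Fin K}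
    {th q : Pt → ℝ} {r : ℝ} (hr : InBox r th) (h : ∀ p, th p ≠ 0 → q p = 1) :
    app (pmap A J c th) (A.cut c q ψ) = A.cut c th ψ := by
  funext p
  by_cases hp : th p = 0
  · simp [app, pmap, Atlas.cut, hp]
  · have hb : p ∈ box := Metric.closedBall_subset_ball hr.1 (hr.2 p hp)
    simp only [app, pmap, _root_.smul_apply, Atlas.cut, h p hp, one_smul, antiL_apply,
      toM_fld hJ hψ.1, hψ.2 c p hb]
    rfl

variable (hJ : IsACS A J) (hO : OpStmt)
include hJ hO

theorem bq_congr {e : ι → Amb N → MN N} (he : ∀ i, IsTestX A (e i)) {a b : Amb N → MN N}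
    (ha : IsTestX A a) (hb : IsTestX A b) (h : ∀ c, ∀ p ∈ box, A.pull c a p = A.pull c b p) :
    A.bq e a = A.bq e b := by
  have h1 : ∀ ψ, IsTestX A ψ → A.bb e ψ a = A.bb e ψ b := fun ψ hψ => by
    simp only [Atlas.bb, wedgeInt_congr hJ ((hO A J hJ).1 ψ hψ).toIsTestX ha hb h,
      fun i => wedgeInt_congr hJ (he i) ha hb h]
  rw [← Atlas.bb_self, ← Atlas.bb_self, h1 a ha, bb_comm hJ hO e ha hb, h1 b hb]

theorem sqrt_bq_sum_le {e : ι → Amb N → MN N} (he : ∀ i, IsTestX A (e i)) {κ : Type*}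
    (s : Finset κ) {F : κ → Amb N → MN N} (hF : ∀ i, IsAntiX A J (F i)) :
    Real.sqrt (A.bq e (∑ i ∈ s, F i)) ≤ ∑ i ∈ s, Real.sqrt (A.bq e (F i)) := by
  classical
  induction s using Finset.induction_on with
  | empty =>
    have h1 := bq_smul hJ hO 0 e (isTestX_zero (A := A))
    simp only [smul_zero, zero_pow two_ne_zero, zero_mul] at h1
    simp [h1]
  | insert a t ha ih =>
    rw [Finset.sum_insert ha, Finset.sum_insert ha]
    exact (sqrt_bq_add_le hJ hO he (hF a).1 (isAntiX_sum fun i _ => hF i).1).trans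
      (add_le_add le_rfl ih)

/-- The solution of the equation, with its bounds. -/
theorem exists_solution (hG : GardingStmt) (hT : TransferStmt) (hL : LimitStmt)
    {e : ι → Amb N → MN N} (he : ∀ i, IsTestX A (e i)) (hco : Coercive A J e) :
    ∃ C, 0 ≤ C ∧ ∀ φ, IsAntiX A J φ → ∃ ψ, IsAntiX A J ψ ∧
      (∀ ζ, IsAntiX A J ζ → A.res e φ ψ ζ = 0) ∧
      Real.sqrt (A.bq e ψ) ≤ C * Real.sqrt (A.sob 3 φ) ∧
      ∀ c, ∃ sv : Pt → Fm, ContDiff ℝ ∞ sv ∧
        (∀ p ∈ Metric.closedBall (0 : Pt) (1 / 2), A.fld c ψ =ᶠ[𝓝 p] sv) ∧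
        ∀ p d d', ‖sv p‖ ≤ C * Real.sqrt (A.sob 3 φ) ∧ ‖dd d sv p‖ ≤ C * Real.sqrt (A.sob 3 φ) ∧
          ‖dd d (dd d' sv) p‖ ≤ C * Real.sqrt (A.sob 3 φ) := by
  obtain ⟨Cq, hCq0, hCq⟩ := hco
  obtain ⟨Cφ, hCφ0, hCφ⟩ := exists_qq_le_sob hJ hO hT
  obtain ⟨CL, hCL0, hCL⟩ := hL
  obtain ⟨th, hth⟩ := exists_thc A
  obtain ⟨q0, r0', r0, hr0', hq0, hq0r, -, -, hq01⟩ := exists_cut (r := (3 / 4 : ℝ)) (by norm_num)
  obtain ⟨q, r', r₁, hr', hq, hqr, -, -, hq1⟩ := exists_cut hq0r.1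
  have hq1' : ∀ p, q0 p ≠ 0 → q p = 1 := fun p hp =>
    hq1 p (Metric.closedBall_subset_closedBall hr'.le (hq0r.2 p hp))
  have hq0th : ∀ c p, th c p ≠ 0 → q0 p = 1 := fun c p hp =>
    hq01 p (Metric.closedBall_subset_closedBall hr0'.le ((hth c).2.1.2 p hp))
  choose Ca hCa0 hCa using fun (c : Fin K) (k : ℕ) =>
    exists_apriori hJ hO hG hT e he ⟨Cq, hCq0, hCq⟩ k c hq hqr
  choose Cc hCc0 hCc using fun c => exists_base hJ hO hG e ⟨Cq, hCq0, hCq⟩ c hq hqr
  choose Cd hCd0 hCd using fun c => exists_base hJ hO hG e ⟨Cq, hCq0, hCq⟩ c hq0 hq0r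
  choose Cp hCp0 hCp using fun c =>
    (sm_pmap hJ c (hth c).1 (hth c).2.1).exists_eK_app 0
  choose Cb hCb0 hCb using fun c => exists_bq_pushF hJ hO (c := c) e he
    (r := (3 / 4 : ℝ)) (by norm_num)
  set Γ := 2 * Real.sqrt Cq * Cφ
  have hΓ : 0 ≤ Γ := by positivity
  set B := ∑ c, (Ca c 0 + Ca c 4) * (1 + Γ)
  have hB : 0 ≤ B := Finset.sum_nonneg fun c _ =>
    mul_nonneg (add_nonneg (hCa0 c 0) (hCa0 c 4)) (by positivity)
  refine ⟨Γ + 6 * CL * B, by positivity, fun φ hφ => ?_⟩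
  set S3 := Real.sqrt (A.sob 3 φ)
  have hS3 : 0 ≤ S3 := Real.sqrt_nonneg _
  obtain ⟨ψ, ε, hε, hψ⟩ := exists_approx hJ hO he hCq0 hCq hφ
  have hε0 : ∀ n, 0 ≤ ε n := fun n => (hψ n).1.2.1
  set a := Real.sqrt Cq * Real.sqrt (A.wedgeInt φ φ)
  have ha : 2 * a ≤ Γ * S3 := by
    have h1 := hCφ φ hφ.1
    rw [abs_of_nonneg (qq_nonneg hJ hφ)] at h1
    have h2 : Real.sqrt (A.sob 0 φ) ≤ S3 := Real.sqrt_le_sqrt (sob_le_sob φ (by norm_num))
    calc 2 * a = 2 * Real.sqrt Cq * Real.sqrt (A.wedgeInt φ φ) := by simp only [a]; ring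
      _ ≤ 2 * Real.sqrt Cq * (Cφ * S3) :=
          mul_le_mul_of_nonneg_left (h1.trans (mul_le_mul_of_nonneg_left h2 hCφ0)) (by positivity)
      _ = _ := by simp only [Γ]; ring
  have hbq : ∀ n, Real.sqrt (A.bq e (ψ n)) ≤ 2 * a + ε n := fun n =>
    (hψ n).2.1.trans_eq (by simp only [a]; ring)
  -- the limit in a chart
  have hlim : ∀ c (i : Fin 6), ∃ s : Pt → ℝ, ContDiff ℝ ∞ s ∧
      (Tendsto (fun n => n0 fun p => q0 p * (A.cut c q (ψ n) p i - s p)) atTop (𝓝 0) ∧
        ∀ d, Tendsto (fun n => n0 (dd d fun p => q0 p * (A.cut c q (ψ n) p i - s p)))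
          atTop (𝓝 0)) ∧
      ∀ p d d', |s p| ≤ CL * (B * S3) ∧ |dd d s p| ≤ CL * (B * S3) ∧
        |dd d (dd d' s) p| ≤ CL * (B * S3) := fun c i => by
    set P : Fm →L[ℝ] ℝ := EuclideanSpace.proj i
    have hP1 : ‖P‖ ≤ 1 := norm_proj_le i
    have hu : ∀ n, Sm (fun p => P (A.cut c q (ψ n) p)) := fun n =>
      sm_comp P (sm_cutA (hψ n).1.1.1 hq hqr)
    set Kk : ℕ → ℝ := fun k => Ca c k * (Real.sqrt (A.sob (k - 1) φ) + 2 * a)
    have hev : ∀ k h, ∀ η > 0, ∀ᶠ n in atTop, eK h k (A.cut c q (ψ n)) ≤ Kk k + η := fun k h η hη => by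
      obtain ⟨Ch, hCh0, hCh⟩ := hCa c k h
      have hev' : ∀ᶠ n in atTop, (Ca c k + Ch) * ε n ≤ η := by
        have := hε.const_mul (Ca c k + Ch)
        rw [mul_zero] at this
        exact this.eventually (eventually_le_nhds hη)
      filter_upwards [hev'] with n hn
      refine (hCh φ (ψ n) (ε n) hφ.1 (hψ n).1).trans ?_
      have h1 := mul_le_mul_of_nonneg_left (hbq n) (hCa0 c k)
      simp only [Kk]
      linarith
    obtain ⟨s, hs, hconv, hbd⟩ := hCL r₁ (fun n p => P (A.cut c q (ψ n) p)) Kk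
      (fun n => ⟨hu n, ⟨hqr.1, fun p hp => hqr.2 p fun h0 => hp (by simp [Atlas.cut, h0])⟩⟩)
      (fun η hη => by
        have hev' : ∀ᶠ n in atTop, 5 * Cc c * (2 * ε n) ≤ η / 2 := by
          have := (hε.const_mul 2).const_mul (5 * Cc c)
          rw [mul_zero, mul_zero] at this
          exact this.eventually (eventually_le_nhds (half_pos hη))
        rw [← prod_atTop_atTop_eq]
        filter_upwards [tendsto_fst.eventually hev', tendsto_snd.eventually hev'] with z h1 h2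
        · set D := ψ z.1 - ψ z.2
          have hD : IsAntiX A J D := isAntiX_sub (hψ _).1.1 (hψ _).1.1
          have hsm := sm_cutA (c := c) hD.1 hq hqr
          have e : (fun p => P (A.cut c q (ψ z.1) p)) - (fun p => P (A.cut c q (ψ z.2) p))
              = fun p => P (A.cut c q D p) := by
            funext p; simp [D, cut_sub]
          rw [e]
          have hb := hCc c 0 D hD
          have h3 : n0 (fun p => P (A.cut c q D p)) ≤ eK 0 0 (A.cut c q D) :=
            (n0_comp_le P hsm).trans ((mul_le_of_le_one_left (n0_nonneg _) hP1).trans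
              (n0_le_eK 0 _))
          have h4 : ∀ d, n0 (dd d fun p => P (A.cut c q D p)) ≤ eK 0 0 (A.cut c q D) := fun d => by
            rw [dd_comp P d hsm]
            exact (n0_comp_le P (hsm.ddS d)).trans ((mul_le_of_le_one_left (n0_nonneg _) hP1).trans
              (n0_dd_le_eK 0 _ d))
          have h5 := mul_le_mul_of_nonneg_left ((hψ z.1).2.2 z.2) (hCc0 c)
          simp only [Fin.sum_univ_four]
          linarith [h4 0, h4 1, h4 2, h4 3])
      (fun η hη => (hev 0 0 η hη).mono fun n hn =>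
        ((n0_comp_le P (sm_cutA (hψ n).1.1.1 hq hqr)).trans
          ((mul_le_of_le_one_left (n0_nonneg _) hP1).trans (n0_le_eK 0 _))).trans hn)
      (fun k d h _ η hη => (hev k h η hη).mono fun n hn => by
        have hsm := sm_cutA (c := c) (hψ n).1.1.1 hq hqr
        rw [dqL_comp P, dd_comp P d (hsm.dqLS _ _), dd_dqL hsm]
        refine ((n0_comp_le P ((hsm.ddS d).dqLS _ _)).trans
          (mul_le_of_le_one_left (n0_nonneg _) hP1)).trans ((n0_dqL_le h _ _).trans ?_)
        rw [List.length_replicate]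
        exact ((Finset.single_le_sum (f := fun d => nK h k (dd d (A.cut c q (ψ n))))
          (fun _ _ => nK_nonneg _ _ _) (Finset.mem_univ d)).trans
            (le_add_of_nonneg_left (nK_nonneg _ _ _))).trans hn)
    have hKB : Kk 0 + Kk 4 ≤ B * S3 := by
      have h0 : Real.sqrt (A.sob 0 φ) ≤ S3 := Real.sqrt_le_sqrt (sob_le_sob φ (by norm_num))
      have h1 : Kk 0 ≤ Ca c 0 * ((1 + Γ) * S3) := mul_le_mul_of_nonneg_left (by linarith) (hCa0 c 0)
      have h2 : Kk 4 ≤ Ca c 4 * ((1 + Γ) * S3) :=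
        mul_le_mul_of_nonneg_left (show S3 + 2 * a ≤ _ by linarith) (hCa0 c 4)
      have h3 : (Ca c 0 + Ca c 4) * (1 + Γ) * S3 ≤ B * S3 :=
        mul_le_mul_of_nonneg_right (Finset.single_le_sum (f := fun c => (Ca c 0 + Ca c 4) * (1 + Γ))
          (fun c _ => mul_nonneg (add_nonneg (hCa0 c 0) (hCa0 c 4)) (by positivity))
          (Finset.mem_univ c)) hS3
      linarith
    refine ⟨s, hs, hconv q0 r0 hq0 hq0r, fun p d d' => ?_⟩
    obtain ⟨b1, b2, b3⟩ := hbd p d d'
    have := mul_le_mul_of_nonneg_left hKB hCL0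
    exact ⟨b1.trans this, b2.trans this, b3.trans this⟩
  choose s hs hconv hbd using hlim
  set sv : Fin K → Pt → Fm := fun c p => ∑ i, incl i (s c i p)
  have hsv : ∀ c, ContDiff ℝ ∞ (sv c) := fun c =>
    ContDiff.sum fun i _ => (incl i).contDiff.comp (hs c i)
  set v : Fin K → Pt → Fm := fun c p => q0 p • sv c p
  have hv : ∀ c, Sm (v c) := fun c => sm_cut hq0 hq0r (hsv c).contDiffOn
  set z : Fin K → Pt → Fm := fun c => app (pmap A J c (th c)) (v c)
  have hz : ∀ c, Sm (z c) := fun c => (hv c).appS (sm_pmap hJ c (hth c).1 (hth c).2.1).smooth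
  have hzr : ∀ c, InBox (3 / 4) (z c) := fun c =>
    ⟨by norm_num, fun p hp => (hth c).2.1.2 p fun h0 => hp (by simp [z, app, pmap, h0])⟩
  have hpz := fun c => (hO A J hJ).2.2.1 c (z c) _ (hz c) (hzr c)
  have hza : ∀ c, IsAntiX A J (A.pushF c (z c)) := fun c =>
    isAntiX_pushF hJ c (hpz c).1 (hpz c).2.1 fun p hp => anti_pmap hJ (q := th c) (v c) p hp
  set P := ∑ c, A.pushF c (z c)
  have hP : IsAntiX A J P := isAntiX_sum fun c _ => hza c
  -- the difference in a chart tends to zero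
  have hvn : ∀ c, Tendsto (fun n => eK 0 0 (v c - A.cut c q0 (ψ n))) atTop (𝓝 0) := fun c => by
    have e : ∀ n, v c - A.cut c q0 (ψ n)
        = -∑ i, fun p => incl i (q0 p * (A.cut c q (ψ n) p i - s c i p)) := fun n => by
      funext p
      simp only [Pi.sub_apply, Pi.neg_apply, Finset.sum_apply, v, sv]
      by_cases hp : q0 p = 0
      · simp [hp, Atlas.cut]
      · have e1 : ∀ i, incl i (q0 p * (A.cut c q (ψ n) p i - s c i p))
            = q0 p • (incl i (A.fld c (ψ n) p i) - incl i (s c i p)) := fun i => by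
          rw [← map_sub, ← map_smul, smul_eq_mul, Atlas.cut, hq1' p hp, one_smul]
        rw [Finset.sum_congr rfl fun i _ => e1 i, ← Finset.smul_sum, Finset.sum_sub_distrib,
          sum_incl, smul_sub, neg_sub]
        rfl
    refine squeeze_zero (fun n => eK_nonneg _ _ _) (fun n => ?_) ?_
      (g := fun n => ∑ i, ‖incl i‖ * (n0 (fun p => q0 p * (A.cut c q (ψ n) p i - s c i p))
        + ∑ d, n0 (dd d fun p => q0 p * (A.cut c q (ψ n) p i - s c i p))))
    · have hsm : ∀ i, Sm fun p => q0 p * (A.cut c q (ψ n) p i - s c i p) := fun i => by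
        have hh := sm_cut (G := ℝ) hq0 hq0r (g := fun p => A.cut c q (ψ n) p i - s c i p)
          (((sm_comp (EuclideanSpace.proj i : Fm →L[ℝ] ℝ)
            (sm_cutA (c := c) (hψ n).1.1.1 hq hqr)).smooth.sub (hs c i)).contDiffOn)
        simpa using hh
      rw [e n, eK_neg]
      refine (eK_sum_le _ fun i => sm_comp (incl i) (hsm i)).trans (Finset.sum_le_sum fun i _ => ?_)
      exact eK_comp_le (incl i) 0 0 (hsm i)
    · have h0 : Tendsto (fun n => ∑ i : Fin 6, ‖incl i‖ *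
          (n0 (fun p => q0 p * (A.cut c q (ψ n) p i - s c i p))
            + ∑ d, n0 (dd d fun p => q0 p * (A.cut c q (ψ n) p i - s c i p)))) atTop
          (𝓝 (∑ i : Fin 6, ‖incl i‖ * (0 + ∑ _d : Fin 4, (0 : ℝ)))) :=
        tendsto_finsetSum _ fun i _ => ((hconv c i).1.add
          (tendsto_finsetSum _ fun d _ => (hconv c i).2 d)).const_mul _
      simpa using h0
  have hdiff : Tendsto (fun n => Real.sqrt (A.bq e (P - ψ n))) atTop (𝓝 0) := by
    refine squeeze_zero (fun n => Real.sqrt_nonneg _) (fun n => ?_)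
      (g := fun n => ∑ c, Cb c * (Cp c * eK 0 0 (v c - A.cut c q0 (ψ n)))) ?_
    · have hd : ∀ c, A.pushF c (z c) - A.pushF c (A.cut c (th c) (ψ n))
          = A.pushF c (app (pmap A J c (th c)) (v c - A.cut c q0 (ψ n))) := fun c => by
        rw [← pushF_sub, app_sub, pmap_cut' hJ (hψ n).1.1 (hth c).2.1 (hq0th c)]
      have hzd : ∀ c, Sm (app (pmap A J c (th c)) (v c - A.cut c q0 (ψ n))) ∧
          InBox (3 / 4) (app (pmap A J c (th c)) (v c - A.cut c q0 (ψ n))) := fun c =>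
        ⟨((hv c).sub (sm_cutA (hψ n).1.1.1 hq0 hq0r)).appS (sm_pmap hJ c (hth c).1 (hth c).2.1).smooth,
          ⟨by norm_num, fun p hp => (hth c).2.1.2 p fun h0 => hp (by simp [app, pmap, h0])⟩⟩
      have han : ∀ c, IsAntiX A J
          (A.pushF c (app (pmap A J c (th c)) (v c - A.cut c q0 (ψ n)))) := fun c => by
        obtain ⟨t1, t2, -⟩ := (hO A J hJ).2.2.1 c _ _ (hzd c).1 (hzd c).2
        exact isAntiX_pushF hJ c t1 t2 fun p hp =>
          anti_pmap hJ (q := th c) (v c - A.cut c q0 (ψ n)) p hp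
      obtain ⟨t1, t2, -⟩ := wedgeInt_decomp hJ hO hth (hψ n).1.1.1 (hψ n).1.1.1
      have hsumt : IsTestX A (∑ c, A.pushF c (z c) - ∑ c, A.pushF c (A.cut c (th c) (ψ n))) := by
        rw [← Finset.sum_sub_distrib, Finset.sum_congr rfl fun c _ => hd c]
        exact (isAntiX_sum fun c _ => han c).1
      rw [bq_congr hJ hO he (isAntiX_sub hP (hψ n).1.1).1 hsumt fun d p hp => by
        simp only [P]
        have h1 : ∀ x y : Amb N → MN N, A.pull d (x - y) p = A.pull d x p - A.pull d y p :=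
          fun x y => by simp [Atlas.pull, Atlas.pullAt, Matrix.mul_sub, Matrix.sub_mul]
        rw [h1, h1, t2 d p hp],
        ← Finset.sum_sub_distrib, Finset.sum_congr rfl fun c _ => hd c]
      refine (sqrt_bq_sum_le hJ hO he _ han).trans (Finset.sum_le_sum fun c _ => ?_)
      exact (hCb c _ (hzd c).1 (hzd c).2).trans (mul_le_mul_of_nonneg_left
        (hCp c 0 _ ((hv c).sub (sm_cutA (hψ n).1.1.1 hq0 hq0r))) (hCb0 c))
    · have h0 : Tendsto (fun n => ∑ c, Cb c * (Cp c * eK 0 0 (v c - A.cut c q0 (ψ n)))) atTop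
          (𝓝 (∑ c : Fin K, Cb c * (Cp c * 0))) :=
        tendsto_finsetSum _ fun c _ => ((hvn c).const_mul _).const_mul _
      simpa using h0
  refine ⟨P, hP, fun ζ hζ => ?_, ?_, fun c => ⟨sv c, hsv c, fun p hp => ?_, fun p d d' => ?_⟩⟩
  · have h : ∀ n, |A.res e φ P ζ|
        ≤ (ε n + Real.sqrt (A.bq e (P - ψ n))) * Real.sqrt (A.bq e ζ) := fun n => by
      have hd := (isAntiX_sub hP (hψ n).1.1).1
      have e1 : A.res e φ P ζ = A.res e φ (ψ n) ζ + A.bb e (P - ψ n) ζ := by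
        have e2 : A.bb e ζ P = A.bb e ζ (P - ψ n) + A.bb e ζ (ψ n) := by
          rw [← bb_add_right hJ hO he hζ.1 hd (hψ n).1.1.1, sub_add_cancel]
        rw [Atlas.res_eq, Atlas.res_eq, bb_comm hJ hO e hP.1 hζ.1, e2,
          bb_comm hJ hO e (hψ n).1.1.1 hζ.1, bb_comm hJ hO e hd hζ.1]
        ring
      rw [e1, add_mul]
      exact (abs_add_le _ _).trans (add_le_add ((hψ n).1.2.2 ζ hζ) (abs_bb_le hJ hO he hd hζ.1))
    have h0 : |A.res e φ P ζ| ≤ 0 := ge_of_tendsto'
      (by simpa using (hε.add hdiff).mul_const (Real.sqrt (A.bq e ζ))) h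
    exact abs_nonpos_iff.1 h0
  · have h : ∀ n, Real.sqrt (A.bq e P) ≤ Real.sqrt (A.bq e (P - ψ n)) + (2 * a + ε n) := fun n => by
      have h1 := sqrt_bq_add_le hJ hO he (isAntiX_sub hP (hψ n).1.1).1 (hψ n).1.1.1
      rw [sub_add_cancel] at h1
      linarith [hbq n]
    have h0 : Real.sqrt (A.bq e P) ≤ 0 + (2 * a + 0) :=
      ge_of_tendsto' (hdiff.add (hε.const_add (2 * a))) h
    have : 0 ≤ 6 * CL * B * S3 := by positivity
    linarith
  · have e0 : A.cut c q0 P - v c = 0 := by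
      refine eq_zero_of_n0 ((sm_cutA hP.1 hq0 hq0r).sub (hv c)) (le_antisymm ?_ (n0_nonneg _))
      have h : ∀ n, n0 (A.cut c q0 P - v c) ≤ Cd c * Real.sqrt (A.bq e (P - ψ n))
          + eK 0 0 (v c - A.cut c q0 (ψ n)) := fun n => by
        have hd := isAntiX_sub hP (hψ n).1.1
        have e2 : A.cut c q0 P - v c
            = A.cut c q0 (P - ψ n) - (v c - A.cut c q0 (ψ n)) := by rw [cut_sub]; abel
        rw [e2]
        exact (n0_sub_le (sm_cutA hd.1 hq0 hq0r) ((hv c).sub (sm_cutA (hψ n).1.1.1 hq0 hq0r))).trans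
          (add_le_add ((n0_le_eK 0 _).trans (hCd c 0 _ hd)) (n0_le_eK 0 _))
      have hlim0 : Tendsto (fun n => Cd c * Real.sqrt (A.bq e (P - ψ n))
          + eK 0 0 (v c - A.cut c q0 (ψ n))) atTop (𝓝 0) := by
        simpa using (hdiff.const_mul (Cd c)).add (hvn c)
      exact ge_of_tendsto' hlim0 h
    filter_upwards [eventually_mem_closedBall (show (1 / 2 : ℝ) < r0' by linarith) hp] with y hy
    have := congr_fun e0 y
    simpa [Atlas.cut, v, hq01 y hy, sub_eq_zero] using this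
  · have hnn : 0 ≤ Γ * S3 := mul_nonneg hΓ hS3
    have hgen : ∀ (f : Fin 6 → ℝ), (∀ i, |f i| ≤ CL * (B * S3)) →
        ‖∑ i, incl i (f i)‖ ≤ (Γ + 6 * CL * B) * S3 := fun f hf => by
      refine (norm_sum_le _ _).trans ((Finset.sum_le_sum (g := fun _ => CL * (B * S3))
        fun i _ => ?_).trans ?_)
      · simpa [incl, norm_smul] using hf i
      · simp; linarith
    have hd1 : ∀ d (g : Fin 6 → Pt → ℝ), (∀ i, ContDiff ℝ ∞ (g i)) → ∀ y,
        dd d (fun p => ∑ i, incl i (g i p)) y = ∑ i, incl i (dd d (g i) y) := fun d g hg y => by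
      have h := (HasFDerivAt.fun_sum (u := Finset.univ) fun i _ => (incl i).hasFDerivAt.comp y
        ((hg i).differentiable (by norm_num) y).hasFDerivAt)
      simp only [Function.comp_def] at h
      rw [dd, h.fderiv]
      simp [dd]
    have hds : ∀ d i, ContDiff ℝ ∞ (dd d (s c i)) := fun d i =>
      ((hs c i).fderiv_right (m := ∞) (by simp)).clm_apply contDiff_const
    refine ⟨hgen _ fun i => (hbd c i p d d').1, ?_, ?_⟩
    · rw [hd1 d _ (hs c) p]; exact hgen _ fun i => (hbd c i p d d').2.1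
    · rw [show dd d' (sv c) = fun y => ∑ i, incl i (dd d' (s c i) y) from
        funext fun y => hd1 d' _ (hs c) y, hd1 d _ (hds d') p]
      exact hgen _ fun i => (hbd c i p d d').2.2

end Ext

end Vale.Agent.P204.General
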