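import Mathlib
import Vale.Agent.P204.General.Dual
import Vale.Agent.P204.General.Forms
import Vale.Agent.P204.General.Stmts
import Vale.Agent.P204.General.Ext.Sob

/-!
# P204 on a closed four-manifold: the extension from the bound on closed forms
-/

open MeasureTheory Matrix Filter
open scoped ContDiff Topology

namespace Vale.Agent.P204.General

open Vale.Agent.P204.Torus

/-- The current of an obstruction is bounded on closed forms by their anti-invariant parts. -/
def BoundStmt : Prop :=
  ∀ {N K : ℕ} (A : Atlas N K) (J : Amb N → MN N) m, IsACS A J → ObsX A J m →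
    ∃ C, ∀ a, IsClosedX A a →
      |tcurX J m a| ≤ C * Real.sqrt (A.sob 3 fun x => antiX J x (a x))

variable {N K : ℕ}

/-- The test forms as a subspace. -/
def testMod (A : Atlas N K) : Submodule ℝ (Amb N → MN N) where
  carrier := {a | IsTestX A a}
  zero_mem' := isClosedX_zero.toIsTestX
  add_mem' {a b} ha hb := by
    refine ⟨fun x => by simp [ha.skew x, hb.skew x, add_comm], fun c i k => ?_⟩
    simp only [Atlas.pull_add, Matrix.add_apply]
    exact (ha.smooth c i k).add (hb.smooth c i k)
  smul_mem' t {a} ha := by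
    refine ⟨fun x => by simp [ha.skew x], fun c i k => ?_⟩
    simp only [Atlas.pull_smul, Matrix.smul_apply]
    exact (ha.smooth c i k).const_smul t

/-- The closed test forms. -/
def closedMod (A : Atlas N K) : Submodule ℝ (testMod A) where
  carrier := {a | IsClosedX A a.1}
  zero_mem' := isClosedX_zero
  add_mem' := isClosedX_add
  smul_mem' t {_} ha := isClosedX_smul ha t

variable {A : Atlas N K} {J : Amb N → MN N} {m : Measure (Amb N × Amb N)}

namespace Atlas

theorem integrable_line (hJ : IsACS A J) (hm : ObsX A J m) {a : Amb N → MN N} (ha : IsTestX A a) :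
    Integrable (fun p => p.2 ⬝ᵥ (a p.1 *ᵥ (J p.1 *ᵥ p.2))) m := by
  have := hm.finite
  have hc : ContinuousOn (fun p => p.2 ⬝ᵥ (a p.1 *ᵥ (J p.1 *ᵥ p.2))) A.unitTan :=
    continuousOn_iff_continuous_domRestrict.2 (cont_line hJ ha)
  obtain ⟨C, hC⟩ := A.isCompact_unitTan.exists_bound_of_continuousOn hc
  refine Integrable.of_bound ?_ C (hm.supp.mono hC)
  rw [← Measure.restrict_eq_self_of_ae_mem hm.supp]
  exact hc.aestronglyMeasurable A.isCompact_unitTan.measurableSet

theorem cutCoef_anti (hJ : IsACS A J) (c : Fin K) (a : Amb N → MN N) (i k : Fin 4) {p : Pt}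
    (hp : p ∈ box) :
    A.cutCoef c (fun x => antiX J x (a x)) i k p
      = A.chi c (A.psi c p) * antiP (A.jc J c p) (A.pull c a p) i k := by
  simp only [Atlas.cutCoef, hp, if_true]
  exact congrArg (fun M : M4 => A.chi c (A.psi c p) * M i k) (pullAt_antiX A hJ c hp _)

theorem sc_cutCoef (hJ : IsACS A J) {a : Amb N → MN N} (ha : IsTestX A a) (c : Fin K) (i k : Fin 4) :
    Sc (A.cutCoef c (fun x => antiX J x (a x)) i k) := by
  have hz : ∀ p, p ∉ Metric.closedBall (0 : Pt) (1 / 2) →
      A.cutCoef c (fun x => antiX J x (a x)) i k p = 0 := fun p hp => by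
    simp only [Atlas.cutCoef]
    split_ifs with h
    · by_contra hne
      obtain ⟨q, hq, he⟩ := A.chi_supp c _ (A.psi_mem c p h) (left_ne_zero_of_mul hne)
      rw [← A.phi_psi c h, ← he, A.phi_psi c (closedBall_subset_box hq)] at hp
      exact hp hq
    · rfl
  refine ⟨contDiff_iff_contDiffAt.2 fun p => ?_, HasCompactSupport.intro (isCompact_closedBall _ _) hz⟩
  by_cases hp : p ∈ Metric.closedBall (0 : Pt) (1 / 2)
  · have hb := isOpen_box.mem_nhds (closedBall_subset_box hp)
    refine ContDiffAt.congr_of_eventuallyEq ?_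
      (eventually_of_mem hb fun q hq => cutCoef_anti hJ c a i k hq)
    have hj := fun i k => (hJ.smooth c i k).contDiffAt hb
    have hp' := fun i k => (ha.smooth c i k).contDiffAt hb
    simp only [antiP, Matrix.smul_apply, Matrix.sub_apply, Matrix.mul_apply, transpose_apply,
      smul_eq_mul]
    exact ((A.chi_smooth c).comp (A.psi_smooth c)).contDiffAt.mul (contDiffAt_const.mul ((hp' i k).sub
      (ContDiffAt.sum fun u _ => (ContDiffAt.sum fun v _ => (hj v i).mul (hp' v u)).mul (hj u k))))
  · exact contDiffAt_const.congr_of_eventuallyEq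
      (eventually_of_mem (Metric.isClosed_closedBall.isOpen_compl.mem_nhds hp) hz)

/-- The seminorm on test forms. -/
theorem sob_anti_eq (a : Amb N → MN N) : A.sob 3 (fun x => antiX J x (a x))
    = ∑ z : Fin K × Fin 4 × Fin 4, sobR 3 (A.cutCoef z.1 (fun x => antiX J x (a x)) z.2.1 z.2.2) := by
  simp only [Atlas.sob, Fintype.sum_prod_type]

theorem cutCoef_anti_add (a b : Amb N → MN N) (c : Fin K) (i k : Fin 4) :
    A.cutCoef c (fun x => antiX J x ((a + b) x)) i k
      = A.cutCoef c (fun x => antiX J x (a x)) i k + A.cutCoef c (fun x => antiX J x (b x)) i k := by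
  funext p
  simp only [Atlas.cutCoef, Pi.add_apply]
  split_ifs
  · simp only [Atlas.pull, Atlas.pullAt, antiX, Pi.add_apply, Matrix.mul_add, Matrix.add_mul,
      Matrix.mul_smul, Matrix.smul_mul, Matrix.mul_sub, Matrix.sub_mul, Matrix.smul_apply,
      Matrix.add_apply, Matrix.sub_apply, smul_eq_mul]
    ring
  · simp

theorem cutCoef_anti_smul (t : ℝ) (a : Amb N → MN N) (c : Fin K) (i k : Fin 4) :
    A.cutCoef c (fun x => antiX J x ((t • a) x)) i k
      = t • A.cutCoef c (fun x => antiX J x (a x)) i k := by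
  funext p
  simp only [Atlas.cutCoef, Pi.smul_apply, smul_eq_mul]
  split_ifs
  · simp only [Atlas.pull, Atlas.pullAt, antiX, Pi.smul_apply, Matrix.mul_smul, Matrix.smul_mul,
      Matrix.mul_sub, Matrix.sub_mul, Matrix.smul_apply, Matrix.sub_apply, smul_eq_mul]
    ring
  · simp

end Atlas

open Atlas in
theorem extStmt_of_bound (hB : BoundStmt) : ExtStmt := by
  intro N K A J m hJ hm
  obtain ⟨C₁, hC₁⟩ := hB A J m hJ hm
  set C := |C₁|
  let T : (testMod A) → ℝ := fun a => C * Real.sqrt (A.sob 3 fun x => antiX J x (a.1 x))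
  let f : (testMod A) →ₗ.[ℝ] ℝ :=
    { domain := closedMod A
      toFun :=
        { toFun := fun a => -tcurX J m a.1.1
          map_add' := fun a b => by
            simp only [tcurX, Submodule.coe_add, Pi.add_apply, add_mulVec, dotProduct_add]
            rw [integral_add (integrable_line hJ hm a.1.2) (integrable_line hJ hm b.1.2), neg_add]
          map_smul' := fun t a => by
            simp only [tcurX, Submodule.coe_smul, Pi.smul_apply, smul_mulVec, dotProduct_smul,
              smul_eq_mul, integral_const_mul, RingHom.id_apply, mul_neg] } }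
  have hhom : ∀ t : ℝ, 0 < t → ∀ a, T (t • a) = t * T a := fun t ht a => by
    simp only [T, Submodule.coe_smul, sob_anti_eq, cutCoef_anti_smul,
      sqrt_sum_sobR_smul 3 (fun z : Fin K × Fin 4 × Fin 4 => sc_cutCoef hJ a.2 z.1 z.2.1 z.2.2) ht.le]
    ring
  have hadd : ∀ a b, T (a + b) ≤ T a + T b := fun a b => by
    simp only [T, Submodule.coe_add, sob_anti_eq, cutCoef_anti_add, ← mul_add]
    exact mul_le_mul_of_nonneg_left (sqrt_sum_sobR_add_le 3
      (fun z : Fin K × Fin 4 × Fin 4 => sc_cutCoef hJ a.2 z.1 z.2.1 z.2.2)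
      (fun z : Fin K × Fin 4 × Fin 4 => sc_cutCoef hJ b.2 z.1 z.2.1 z.2.2))
      (abs_nonneg _)
  obtain ⟨g, hgf, hgT⟩ := exists_extension_of_le_sublinear f T hhom hadd fun a =>
    (neg_le_abs _).trans ((hC₁ a.1.1 a.2).trans
      (mul_le_mul_of_nonneg_right (le_abs_self _) (Real.sqrt_nonneg _)))
  classical
  let R : (Amb N → MN N) → ℝ := fun a => if h : IsTestX A a then g ⟨a, h⟩ else 0
  have hR : ∀ {a} (h : IsTestX A a), R a = g ⟨a, h⟩ := fun h => dif_pos h
  have habs : ∀ {a} (h : IsTestX A a),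
      |R a| ≤ C * Real.sqrt (A.sob 3 fun x => antiX J x (a x)) := fun {a} h => by
    rw [hR h, abs_le]
    refine ⟨?_, hgT ⟨a, h⟩⟩
    have h2 := hgT ((-1 : ℝ) • ⟨a, h⟩)
    simp only [map_smul, smul_eq_mul, neg_one_mul] at h2
    have e : T ((-1 : ℝ) • ⟨a, h⟩) = T ⟨a, h⟩ := by
      simp only [T, Submodule.coe_smul, sob_anti_eq, cutCoef_anti_smul]
      congr 2
      refine Finset.sum_congr rfl fun z _ => ?_
      have hs := sc_cutCoef hJ h z.1 z.2.1 z.2.2
      rw [← sobI_self, sobI_smul_left 3 (-1) hs (sc_smul hs _), sobI_comm,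
        sobI_smul_left 3 (-1) hs hs, sobI_self]
      ring
    rw [e] at h2
    simp only [T] at h2
    linarith
  refine ⟨R, C, ⟨fun a b ha hb => ?_, fun t a ha => ?_, fun a ha hi => ?_, fun a ha => habs ha,
    fun a ha => ?_⟩⟩
  · rw [hR ha, hR hb, hR ((testMod A).add_mem ha hb), ← map_add]
    rfl
  · rw [hR ha, hR ((testMod A).smul_mem t ha), ← smul_eq_mul, ← map_smul]
    rfl
  · have h0 : A.sob 3 (fun x => antiX J x (a x)) = 0 := by
      rw [sob_anti_eq]
      refine Finset.sum_eq_zero fun z _ => ?_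
      have e : A.cutCoef z.1 (fun x => antiX J x (a x)) z.2.1 z.2.2 = (0 : ℝ) • (0 : Pt → ℝ) := by
        funext p
        by_cases hp : p ∈ box
        · rw [cutCoef_anti hJ z.1 a _ _ hp, antiP, hi z.1 p hp]
          simp
        · simp [Atlas.cutCoef, hp]
      rw [e, ← sobI_self, sobI_smul_left 3 0 sc_zero (sc_smul sc_zero 0), zero_mul]
    have := habs ha
    rw [h0, Real.sqrt_zero, mul_zero] at this
    exact abs_nonpos_iff.1 this
  · have h : g ⟨a, ha.toIsTestX⟩ = -tcurX J m a := hgf ⟨⟨a, ha.toIsTestX⟩, ha⟩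
    rw [hR ha.toIsTestX, h, add_neg_cancel]

end Vale.Agent.P204.General
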