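import Mathlib
import Vale.Agent.P204.General.Ext.Correct
import Vale.Agent.P204.General.Ext.Hahn

/-!
# P204, module C: the bound on closed forms
-/

open MeasureTheory Matrix Filter Set
open scoped ContDiff Topology InnerProductSpace

namespace Vale.Agent.P204.General

open Vale.Agent.P204.Torus Ext

namespace Ext

/-- The exact form in a chart. -/
def PullWStmt : Prop :=
  ∀ {N K : ℕ} (A : Atlas N K) (J ψ : Amb N → MN N), IsACS A J → IsTestX A ψ →
    ∀ c, ∀ p ∈ box, ∀ i j, A.pull c (A.wOp ψ) p i j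
      = ∑ a, (pd i (A.fc c a ψ) p * A.dmat c p a j - pd j (A.fc c a ψ) p * A.dmat c p a i)

variable {N K : ℕ} {A : Atlas N K} {J : Amb N → MN N} {ι : Type*} [Fintype ι]

theorem isAntiX_antiX (hJ : IsACS A J) {a : Amb N → MN N} (ha : IsTestX A a) :
    IsAntiX A J fun x => antiX J x (a x) :=
  ⟨isTestX_anti hJ ha, fun c p hp => by
    show antiP (A.jc J c p) (A.pullAt c (antiX J _ (a _)) p) = A.pullAt c (antiX J _ (a _)) p
    rw [pullAt_antiX A hJ c hp, antiP_idem (hJ.sq c p hp)]⟩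

theorem wedge_anti_eq (hJ : IsACS A J) {a ζ : Amb N → MN N} (ha : IsTestX A a)
    (hζ : IsAntiX A J ζ) :
    A.wedgeInt a ζ = A.wedgeInt (fun x => antiX J x (a x)) ζ := by
  refine integral_congr_ae ((ae_mem_X A).mono fun x hx => ?_)
  obtain ⟨c, hc, -⟩ := A.exists_chart hx
  obtain ⟨p, hp, rfl⟩ := A.chi_image hx hc
  show A.wedgePt (A.psi c p) (a _) (ζ _) = A.wedgePt (A.psi c p) (antiX J _ (a _)) (ζ _)
  rw [wedgePt_chart A (ha.skew _) (hζ.1.skew _) c hp,
    wedgePt_chart A (antiX_skew (ha.skew _)) (hζ.1.skew _) c hp, pullAt_antiX A hJ c hp]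
  have hz := hζ.2 c p hp
  have hPs := pullAt_skew A c p (ha.skew (A.psi c p))
  have hZs := pullAt_skew A c p (hζ.1.skew (A.psi c p))
  simp only [Atlas.pull] at hz
  set P := A.pullAt c (a (A.psi c p)) p
  set Z := A.pullAt c (ζ (A.psi c p)) p
  have h1 : P = inv11 (A.jc J c p) P + antiP (A.jc J c p) P := by
    simp only [inv11, antiP]; module
  conv_lhs => rw [h1, wedge_add_left, ← hz, wedge_inv11_antiP (hJ.sq c p hp) hPs hZs, zero_add, hz]

theorem pd_const_mul_sum {g : Fin 4 → Pt → ℝ} {D : Fin 4 → Pt → ℝ} {p : Pt} (i : Fin 4)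
    (hg : ∀ m, DifferentiableAt ℝ (g m) p) (hD : ∀ m, DifferentiableAt ℝ (D m) p) :
    pd i (fun y => ∑ m, g m y * D m y) p = ∑ m, (g m p * pd i (D m) p + pd i (g m) p * D m p) := by
  rw [pd, fderiv_fun_sum fun m _ => (hg m).fun_mul (hD m), _root_.sum_apply]
  exact Finset.sum_congr rfl fun m _ => pd_mul_at i (hg m) (hD m)

variable (hJ : IsACS A J)
include hJ

/-- The sup bound of the exact form of a solution. -/
theorem exists_wOp_sup (hW : PullWStmt) (c : Fin K) : ∃ C, 0 ≤ C ∧ ∀ ψ, IsTestX A ψ →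
    ∀ (sv : Pt → Fm) (M : ℝ), ContDiff ℝ ∞ sv →
      (∀ p ∈ Metric.closedBall (0 : Pt) (1 / 2), A.fld c ψ =ᶠ[𝓝 p] sv) →
      (∀ p d d', ‖sv p‖ ≤ M ∧ ‖dd d sv p‖ ≤ M ∧ ‖dd d (dd d' sv) p‖ ≤ M) →
      ∀ p ∈ Metric.closedBall (0 : Pt) (1 / 2), ∀ i j, |A.pull c (A.wOp ψ) p i j| ≤ C * M := by
  set S := Metric.closedBall (0 : Pt) (1 / 2)
  set G : Fin N → Fin 4 → Pt → ℝ := fun a m p => A.dmat c p a m / A.dens c p
  have hGs : ∀ a m, ContDiffOn ℝ ∞ (G a m) box := fun a m =>
    (A.dmat_smooth c a m).contDiffOn.div (contDiffOn_dens c) fun p hp => (dens_pos A hJ c hp).ne'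
  have hS : IsCompact S := isCompact_closedBall _ _
  choose b hb using fun z : Fin N × Fin 4 =>
    hS.exists_bound_of_continuousOn ((hGs z.1 z.2).continuousOn.mono closedBall_subset_box)
  choose b' hb' using fun z : (Fin N × Fin 4) × Fin 4 =>
    hS.exists_bound_of_continuousOn
      ((pd_smooth isOpen_box (hGs z.1.1 z.1.2) z.2).continuousOn.mono closedBall_subset_box)
  choose b'' hb'' using fun z : Fin N × Fin 4 =>
    hS.exists_bound_of_continuousOn (A.dmat_smooth c z.1 z.2).continuous.continuousOn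
  set l := ∑ d, ‖lam d‖
  set Bd := ∑ z, |b'' z|
  set Bf := (∑ z, |b z| + ∑ z, |b' z|) * l
  have hl : 0 ≤ l := Finset.sum_nonneg fun d _ => norm_nonneg _
  have hBd : 0 ≤ Bd := Finset.sum_nonneg fun z _ => abs_nonneg _
  have hBf : 0 ≤ Bf := mul_nonneg (add_nonneg (Finset.sum_nonneg fun z _ => abs_nonneg _)
    (Finset.sum_nonneg fun z _ => abs_nonneg _)) hl
  refine ⟨∑ _a : Fin N, 2 * ((∑ _m : Fin 4, Bf) * Bd), Finset.sum_nonneg fun a _ => by positivity,
    fun ψ hψ sv M hsv hloc hM p hp i j => ?_⟩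
  have hp' := closedBall_subset_box hp
  have hM0 : 0 ≤ M := (norm_nonneg _).trans (hM p 0 0).1
  set D : Fin 4 → Pt → ℝ := fun m y => dop sv y m
  have hds : ∀ d, ContDiff ℝ ∞ (dd d sv) := fun d =>
    (hsv.fderiv_right (m := ∞) (by simp)).clm_apply contDiff_const
  have hDdef : ∀ m, D m = fun y => ∑ d, (EuclideanSpace.proj m).comp (lam d) (dd d sv y) := fun m => by
    funext y
    simp [D, dop_eq, Finset.sum_apply]
  have hDd : ∀ m y, HasFDerivAt (D m)
      (∑ d, ((EuclideanSpace.proj m).comp (lam d)).comp (fderiv ℝ (dd d sv) y)) y := fun m y => by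
    rw [hDdef m]
    exact HasFDerivAt.fun_sum fun d _ => ((EuclideanSpace.proj m).comp (lam d)).hasFDerivAt.comp y
      ((hds d).differentiable (by norm_num) y).hasFDerivAt
  have hlam : ∀ m d (x : Fm), ‖x‖ ≤ M →
      |((EuclideanSpace.proj m).comp (lam d)) x| ≤ ‖lam d‖ * M := fun m d x hx => by
    refine (PiLp.norm_apply_le (lam d x) m).trans (((lam d).le_opNorm x).trans ?_)
    exact mul_le_mul_of_nonneg_left hx (norm_nonneg _)
  have hD0 : ∀ m, |D m p| ≤ l * M := fun m => by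
    rw [hDdef m]
    refine (Finset.abs_sum_le_sum_abs _ _).trans ?_
    rw [Finset.sum_mul]
    exact Finset.sum_le_sum fun d _ => hlam m d _ (hM p d 0).2.1
  have hD1 : ∀ m i, |pd i (D m) p| ≤ l * M := fun m i => by
    rw [pd, (hDd m p).fderiv, _root_.sum_apply]
    refine (Finset.abs_sum_le_sum_abs _ _).trans ?_
    rw [Finset.sum_mul]
    exact Finset.sum_le_sum fun d _ => hlam m d _ (hM p i d).2.2
  have hfc : ∀ a i, |pd i (A.fc c a ψ) p| ≤ (∑ _m : Fin 4, Bf) * M := fun a i => by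
    have e : A.fc c a ψ =ᶠ[𝓝 p] fun y => ∑ m, G a m y * D m y := by
      filter_upwards [(hloc p hp).eventually_nhds] with y hy
      have e2 : dop (A.fld c ψ) y = dop sv y := dop_congr hy
      simp only [Atlas.fc, e2, D, G, Finset.sum_div]
      exact Finset.sum_congr rfl fun m _ => by ring
    rw [pd_congr_nhds i e, pd_const_mul_sum i
      (fun m => ((hGs a m).differentiableOn (by norm_num)).differentiableAt (isOpen_box.mem_nhds hp'))
      (fun m => (hDd m p).differentiableAt)]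
    refine (Finset.abs_sum_le_sum_abs _ _).trans ?_
    rw [Finset.sum_mul]
    refine Finset.sum_le_sum fun m _ => (abs_add_le _ _).trans ?_
    have h1 : |G a m p| ≤ ∑ z, |b z| := ((Real.norm_eq_abs _).symm.trans_le (hb (a, m) p hp)).trans
      ((le_abs_self _).trans (Finset.single_le_sum (f := fun z => |b z|) (fun _ _ => abs_nonneg _)
        (Finset.mem_univ _)))
    have h2 : |pd i (G a m) p| ≤ ∑ z, |b' z| :=
      ((Real.norm_eq_abs _).symm.trans_le (hb' ((a, m), i) p hp)).trans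
      ((le_abs_self _).trans (Finset.single_le_sum (f := fun z => |b' z|) (fun _ _ => abs_nonneg _)
        (Finset.mem_univ _)))
    rw [abs_mul, abs_mul]
    have h0 : 0 ≤ l * M := mul_nonneg hl hM0
    have := mul_le_mul h1 (hD1 m i) (abs_nonneg _) ((abs_nonneg _).trans h1)
    have := mul_le_mul h2 (hD0 m) (abs_nonneg _) ((abs_nonneg _).trans h2)
    simp only [Bf]
    linarith
  rw [hW A J ψ hJ hψ c p hp' i j]
  refine (Finset.abs_sum_le_sum_abs _ _).trans ?_
  rw [Finset.sum_mul]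
  refine Finset.sum_le_sum fun a _ => (abs_sub _ _).trans ?_
  have hd : ∀ j, |A.dmat c p a j| ≤ Bd := fun j =>
    ((Real.norm_eq_abs _).symm.trans_le (hb'' (a, j) p hp)).trans
      ((le_abs_self _).trans (Finset.single_le_sum (f := fun z => |b'' z|) (fun _ _ => abs_nonneg _)
        (Finset.mem_univ _)))
  have hf0 : 0 ≤ (∑ _m : Fin 4, Bf) * M := by positivity
  rw [abs_mul, abs_mul]
  have := mul_le_mul (hfc a i) (hd j) (abs_nonneg _) hf0
  have := mul_le_mul (hfc a j) (hd i) (abs_nonneg _) hf0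
  linarith

variable (hO : OpStmt)
include hO

/-- The correction. -/
theorem exists_correction (hG : GardingStmt) (hT : TransferStmt) (hL : LimitStmt) (hW : PullWStmt)
    {e : ι → Amb N → MN N} (he : ∀ i, IsAntiX A J (e i)) (hco : Coercive A J e) :
    ∃ C, 0 ≤ C ∧ ∀ φ, IsAntiX A J φ → ∃ (w : Amb N → MN N) (b : ι → ℝ), IsClosedX A w ∧
      (∀ i, |b i| ≤ C * Real.sqrt (A.sob 3 φ)) ∧
      (∀ c, ∀ p ∈ box, antiP (A.jc J c p) (A.pull c w p)
        = A.pull c φ p - ∑ i, b i • A.pull c (e i) p) ∧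
      ∀ c, ∀ p ∈ Metric.closedBall (0 : Pt) (1 / 2), ∀ i j,
        |A.pull c w p i j| ≤ C * Real.sqrt (A.sob 3 φ) := by
  obtain ⟨C, hC0, hC⟩ := exists_solution hJ hO hG hT hL (fun i => (he i).1) hco
  choose D hD0 hD using fun c => exists_wOp_sup hJ hW c
  have hD' : 0 ≤ ∑ c, D c := Finset.sum_nonneg fun c _ => hD0 c
  refine ⟨C * (1 + ∑ c, D c), by positivity, fun φ hφ => ?_⟩
  obtain ⟨ψ, hψ, hres, hbd, hsv⟩ := hC φ hφ
  set S3 := Real.sqrt (A.sob 3 φ)
  have hS3 : 0 ≤ S3 := Real.sqrt_nonneg _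
  have hw := (hO A J hJ).1 ψ hψ.1
  set w := A.wOp ψ
  set b : ι → ℝ := fun i => A.wedgeInt (e i) ψ
  refine ⟨w, b, hw, fun i => ?_, ?_, fun c p hp i j => ?_⟩
  · refine ((bq_nonneg hJ hO e hψ.1).2.2 i).trans (hbd.trans ?_)
    exact mul_le_mul_of_nonneg_right (le_mul_of_one_le_right hC0 (le_add_of_nonneg_right hD')) hS3
  · set wa : Amb N → MN N := fun x => antiX J x (w x)
    have hwa : IsAntiX A J wa := isAntiX_antiX hJ hw.toIsTestX
    have hsum : IsAntiX A J (∑ i, b i • e i) := isAntiX_sum fun i _ => isAntiX_smul _ (he i)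
    set ζ := (wa + ∑ i, b i • e i) - φ
    have hζ : IsAntiX A J ζ := isAntiX_sub (isAntiX_add hwa hsum) hφ
    have hz : A.wedgeInt ζ ζ = 0 := by
      have h1 := hres ζ hζ
      have h2 : A.wedgeInt ζ ((wa + ∑ i, b i • e i) - φ)
          = A.wedgeInt ζ wa + ∑ i, b i * A.wedgeInt ζ (e i) - A.wedgeInt ζ φ := by
        have h3 : A.wedgeInt ζ ((wa + ∑ i, b i • e i) - φ) + A.wedgeInt ζ φ
            = A.wedgeInt ζ (wa + ∑ i, b i • e i) := by
          rw [← wedgeInt_add_right hJ hζ.1 hζ.1 hφ.1, sub_add_cancel]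
        rw [wedgeInt_add_right hJ hζ.1 hwa.1 hsum.1,
          wedgeInt_sum_right hJ hζ.1 (fun i _ => isTestX_smul _ (he i).1)] at h3
        simp only [wedgeInt_smul_right] at h3
        linarith
      rw [show A.wedgeInt ζ ζ = A.wedgeInt ζ ((wa + ∑ i, b i • e i) - φ) from rfl, h2]
      rw [Atlas.res, show A.wOp ψ = w from rfl, wedge_anti_eq hJ hw.toIsTestX hζ] at h1
      rw [wedgeInt_comm ζ wa, wedgeInt_comm ζ φ]
      simp only [wedgeInt_comm ζ (e _)]
      exact h1
    intro c p hp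
    obtain ⟨q, r', r₁, hr', hq, hqr, -, -, hq1⟩ :=
      exists_cut (r := ‖p‖) (mem_ball_zero_iff.1 hp)
    obtain ⟨C5, hC50, hC5⟩ := (hO A J hJ).2.2.2.2 c q r₁ hq hqr
    have h5 := hC5 ζ hζ
    rw [hz, mul_zero] at h5
    have h0 : A.cut c q ζ = 0 := by
      refine eq_zero_of_n0 (sm_cutA hζ.1 hq hqr) (le_antisymm ?_ (n0_nonneg _))
      rw [n0, Real.sqrt_le_iff]
      refine ⟨le_rfl, (le_of_eq ?_).trans (h5.trans (by norm_num))⟩
      exact integral_congr_ae (Eventually.of_forall fun y => real_inner_self_eq_norm_sq _)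
    have h6 := congrArg toM (congr_fun h0 p)
    simp only [Atlas.cut, hq1 p (mem_closedBall_zero_iff.2 hr'.le), one_smul, toM_fld hJ hζ.1,
      Pi.zero_apply] at h6
    have h7 : toM (0 : Fm) = 0 := by ext i k; fin_cases i <;> fin_cases k <;> simp [toM]
    have h8 : A.pull c ζ p = A.pull c wa p + ∑ i, b i • A.pull c (e i) p - A.pull c φ p := by
      simp [ζ, Atlas.pull, Atlas.pullAt, Matrix.mul_add, Matrix.add_mul, Matrix.mul_sub,
        Matrix.sub_mul, Finset.sum_apply, Matrix.mul_sum, Matrix.sum_mul, Matrix.mul_smul,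
        Matrix.smul_mul]
    have h9 : A.pull c wa p = antiP (A.jc J c p) (A.pull c w p) := pullAt_antiX A hJ c hp (w _)
    rw [h7, h8, h9, sub_eq_zero] at h6
    exact eq_sub_of_add_eq h6
  · obtain ⟨sv, hs, hloc, hM⟩ := hsv c
    refine (hD c ψ hψ.1 sv _ hs hloc hM p hp i j).trans ?_
    have h1 : D c ≤ 1 + ∑ c, D c := le_add_of_nonneg_of_le zero_le_one
      (Finset.single_le_sum (fun c _ => hD0 c) (Finset.mem_univ c))
    calc D c * (C * S3) ≤ (1 + ∑ c, D c) * (C * S3) :=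
          mul_le_mul_of_nonneg_right h1 (mul_nonneg hC0 hS3)
      _ = _ := by ring

omit hO in
/-- The current on a form bounded in the charts. -/
theorem exists_tcur_sup {m : Measure (Amb N × Amb N)} (hm : ObsX A J m) : ∃ C, 0 ≤ C ∧
    ∀ (a : Amb N → MN N) (M : ℝ), 0 ≤ M →
      (∀ c, ∀ p ∈ Metric.closedBall (0 : Pt) (1 / 2), ∀ i j, |A.pull c a p i j| ≤ M) →
        |tcurX J m a| ≤ C * M := by
  have := hm.finite
  obtain ⟨a₀, b₀, B, -, -, hB⟩ := exists_chart_bounds A hJ
  set U := ∑ c, ∑ i, ∑ a, |A.L c i a|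
  have hU : 0 ≤ U := Finset.sum_nonneg fun c _ => Finset.sum_nonneg fun i _ =>
    Finset.sum_nonneg fun a _ => abs_nonneg _
  refine ⟨16 * U * (4 * |B| * U) * m.real Set.univ, by positivity, fun a M hM ha => ?_⟩
  rw [tcurX, ← Real.norm_eq_abs]
  have hle : ∀ᵐ z ∂m, ‖z.2 ⬝ᵥ (a z.1 *ᵥ (J z.1 *ᵥ z.2))‖ ≤ 16 * U * (4 * |B| * U) * M := by
    filter_upwards [hm.supp] with z hz
    obtain ⟨hx, hv, hv1⟩ := hz
    obtain ⟨c, -, p, hp, hpx⟩ := A.exists_chart hx
    have hc : z.1 ∈ A.psi c '' box := ⟨p, closedBall_subset_box hp, hpx⟩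
    rw [Atlas.line_eq hJ a hv c hc, Real.norm_eq_abs, ← hpx,
      A.phi_psi c (closedBall_subset_box hp)]
    set u := A.L c *ᵥ z.2
    have hu : ∀ i, |u i| ≤ U := fun i => by
      show |∑ a, A.L c i a * z.2 a| ≤ U
      refine (Finset.abs_sum_le_sum_abs _ _).trans ((Finset.sum_le_sum (g := fun a => |A.L c i a|)
        fun a _ => ?_).trans ?_)
      · rw [abs_mul]
        refine mul_le_of_le_one_right (abs_nonneg _) ((norm_le_pi_norm z.2 a).trans
          (norm_sq_le_one' hv1))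
      · exact (Finset.single_le_sum (f := fun i => ∑ a, |A.L c i a|)
          (fun i _ => Finset.sum_nonneg fun a _ => abs_nonneg _) (Finset.mem_univ i)).trans
          (Finset.single_le_sum (f := fun c => ∑ i, ∑ a, |A.L c i a|)
            (fun c _ => Finset.sum_nonneg fun i _ => Finset.sum_nonneg fun a _ => abs_nonneg _)
            (Finset.mem_univ c))
    have hju : ∀ k, |(A.jc J c p *ᵥ u) k| ≤ 4 * |B| * U := fun k => by
      show |∑ l, A.jc J c p k l * u l| ≤ 4 * |B| * U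
      refine (Finset.abs_sum_le_sum_abs _ _).trans ((Finset.sum_le_sum (g := fun _ => |B| * U)
        fun l _ => ?_).trans_eq (by simp; ring))
      rw [abs_mul]
      exact mul_le_mul (((hB c p hp).2.2 k l).trans (le_abs_self B)) (hu l) (abs_nonneg _)
        (abs_nonneg _)
    have hev : ∀ (P : M4) (v : Pt) (V : ℝ), 0 ≤ V → (∀ i k, |P i k| ≤ M) → (∀ k, |v k| ≤ V) →
        |∑ i, u i * ∑ k, P i k * v k| ≤ 16 * U * V * M := fun P v V hV hP hv => by
      refine (Finset.abs_sum_le_sum_abs _ _).trans ((Finset.sum_le_sum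
        (g := fun _ => U * (4 * (M * V))) fun i _ => ?_).trans_eq (by simp; ring))
      rw [abs_mul]
      refine mul_le_mul (hu i) ((Finset.abs_sum_le_sum_abs _ _).trans ((Finset.sum_le_sum
        (g := fun _ => M * V) fun k _ => ?_).trans_eq (by simp))) (abs_nonneg _) hU
      rw [abs_mul]
      exact mul_le_mul (hP i k) (hv k) (abs_nonneg _) hM
    exact hev (A.pull c a p) (A.jc J c p *ᵥ u) _ (by positivity) (ha c p hp) hju
  refine (norm_integral_le_of_norm_le_const hle).trans_eq ?_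
  ring
where
  norm_sq_le_one' {v : Amb N} (hv : v ⬝ᵥ v = 1) : ‖v‖ ≤ 1 :=
    (pi_norm_le_iff_of_nonneg zero_le_one).2 fun i => by
      have : v i * v i ≤ 1 := hv ▸ Finset.single_le_sum (f := fun k => v k * v k)
        (fun k _ => mul_self_nonneg _) (Finset.mem_univ i)
      rw [Real.norm_eq_abs]; exact abs_le_one_iff_mul_self_le_one.2 this

end Ext

/-- The bound from the interfaces. -/
theorem boundStmt_of (hO : Ext.OpStmt) (hG : Ext.GardingStmt) (hT : Ext.TransferStmt)
    (hL : Ext.LimitStmt) (hCo : Ext.CoerStmt) (hW : Ext.PullWStmt) : BoundStmt := by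
  intro N K A J m hJ hm
  obtain ⟨n, e, he, hco⟩ := hCo A J hJ
  obtain ⟨C, hC0, hC⟩ := exists_correction hJ hO hG hT hL hW he hco
  obtain ⟨C1, hC10, hC1⟩ := exists_tcur_sup hJ hm
  let Good : (Fin n → ℝ) → (Amb N → MN N) → Prop := fun b a => IsClosedX A a ∧
    ∀ c, ∀ p ∈ box, antiP (A.jc J c p) (A.pull c a p) = ∑ i, b i • A.pull c (e i) p
  have hadd : ∀ b b' a a', Good b a → Good b' a' → Good (b + b') (a + a') :=
    fun b b' a a' ha ha' => ⟨isClosedX_add ha.1 ha'.1, fun c p hp => by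
      simp only [Pi.add_apply, add_smul, Finset.sum_add_distrib, ← ha.2 c p hp, ← ha'.2 c p hp,
        Atlas.pull_add, antiP, Matrix.mul_add, Matrix.add_mul]
      module⟩
  have hsmul : ∀ (t : ℝ) b a, Good b a → Good (t • b) (t • a) :=
    fun t b a ha => ⟨isClosedX_smul ha.1 t, fun c p hp => by
      simp only [Pi.smul_apply, smul_eq_mul, mul_smul, ← Finset.smul_sum, ← ha.2 c p hp,
        Atlas.pull_smul, antiP_smul]⟩
  let S : Submodule ℝ (Fin n → ℝ) :=
    { carrier := {b | ∃ a, Good b a}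
      add_mem' := fun {b b'} ⟨a, ha⟩ ⟨a', ha'⟩ => ⟨a + a', hadd b b' a a' ha ha'⟩
      zero_mem' := ⟨0, isClosedX_zero, fun c p _ => by simp [Atlas.pull_zero, antiP]⟩
      smul_mem' := fun t b ⟨a, ha⟩ => ⟨t • a, hsmul t b a ha⟩ }
  have tadd : ∀ a a', IsTestX A a → IsTestX A a' →
      tcurX J m (a + a') = tcurX J m a + tcurX J m a' := fun a a' ha ha' => by
    simp only [tcurX, Pi.add_apply, add_mulVec, dotProduct_add]
    exact integral_add (Atlas.integrable_line hJ hm ha) (Atlas.integrable_line hJ hm ha')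
  have tsmul : ∀ (t : ℝ) a, tcurX J m (t • a) = t * tcurX J m a := fun t a => by
    simp only [tcurX, Pi.smul_apply, smul_mulVec, dotProduct_smul, smul_eq_mul, integral_const_mul]
  have hwd : ∀ b a a', Good b a → Good b a' → tcurX J m a = tcurX J m a' := fun b a a' ha ha' => by
    have hd : IsClosedX A (a + (-1 : ℝ) • a') := isClosedX_add ha.1 (isClosedX_smul ha'.1 _)
    have hi : InvX A J (a + (-1 : ℝ) • a') := fun c p hp => by
      have h := (hadd b ((-1 : ℝ) • b) a _ ha (hsmul (-1) b a' ha')).2 c p hp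
      have h0 : b + (-1 : ℝ) • b = 0 := by simp
      rw [h0] at h
      simp only [Pi.zero_apply, zero_smul, Finset.sum_const_zero, antiP] at h
      set P := A.pull c (a + (-1 : ℝ) • a') p
      have h1 := congrArg (fun M => (2 : ℝ) • M) h
      simp only [smul_smul, mul_inv_cancel₀ (two_ne_zero' ℝ), one_smul, smul_zero, sub_eq_zero] at h1
      exact h1.symm
    have h := hm.kills _ hd hi
    rw [tadd _ _ ha.1.toIsTestX (isTestX_smul _ ha'.1.toIsTestX), tsmul] at h
    linarith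
  let Lf : S →ₗ[ℝ] ℝ :=
    { toFun := fun b => tcurX J m b.2.choose
      map_add' := fun b b' => by
        rw [← tadd _ _ b.2.choose_spec.1.toIsTestX b'.2.choose_spec.1.toIsTestX]
        exact hwd _ _ _ (b + b').2.choose_spec (hadd _ _ _ _ b.2.choose_spec b'.2.choose_spec)
      map_smul' := fun t b => by
        rw [RingHom.id_apply, smul_eq_mul, ← tsmul]
        exact hwd _ _ _ (t • b).2.choose_spec (hsmul t _ _ b.2.choose_spec) }
  refine ⟨‖Lf.toContinuousLinearMap‖ * C + C1 * C, fun a ha => ?_⟩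
  set φ : Amb N → MN N := fun x => antiX J x (a x)
  have hφ : IsAntiX A J φ := isAntiX_antiX hJ ha.toIsTestX
  obtain ⟨w, b, hw, hb, hwe, hsup⟩ := hC φ hφ
  set S3 := Real.sqrt (A.sob 3 φ)
  have hS3 : 0 ≤ S3 := Real.sqrt_nonneg _
  set a' := a + (-1 : ℝ) • w
  have hg : Good b a' := ⟨isClosedX_add ha (isClosedX_smul hw _), fun c p hp => by
    have e1 : antiP (A.jc J c p) (A.pull c a' p)
        = antiP (A.jc J c p) (A.pull c a p) - antiP (A.jc J c p) (A.pull c w p) := by
      simp only [a', Atlas.pull_add, Atlas.pull_smul, antiP, Matrix.mul_add, Matrix.add_mul,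
        Matrix.mul_smul, Matrix.smul_mul]
      module
    have e2 : A.pull c φ p = antiP (A.jc J c p) (A.pull c a p) := pullAt_antiX A hJ c hp (a _)
    rw [e1, hwe c p hp, e2]
    abel⟩
  have hT1 : |tcurX J m a'| ≤ ‖Lf.toContinuousLinearMap‖ * (C * S3) := by
    set bS : S := ⟨b, a', hg⟩
    have h1 : tcurX J m a' = Lf bS := hwd b _ _ hg bS.2.choose_spec
    rw [h1]
    refine (Lf.toContinuousLinearMap.le_opNorm bS).trans
      (mul_le_mul_of_nonneg_left ?_ (norm_nonneg _))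
    exact (pi_norm_le_iff_of_nonneg (mul_nonneg hC0 hS3)).2 fun i => (Real.norm_eq_abs _).trans_le (hb i)
  have hT2 := hC1 w (C * S3) (mul_nonneg hC0 hS3) hsup
  have e : tcurX J m a = tcurX J m a' + tcurX J m w := by
    rw [← tadd _ _ hg.1.toIsTestX hw.toIsTestX]
    congr 1
    simp [a']
  rw [e]
  refine (abs_add_le _ _).trans ((add_le_add hT1 hT2).trans_eq ?_)
  ring

end Vale.Agent.P204.General
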