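import Mathlib
import Vale.Agent.P204.General.Ext.Fields
import Vale.Agent.P204.General.Basic.Flux
import Vale.Agent.P204.General.Basic.Orient

/-!
# P204, module C: Gårding's inequality for anti-invariant fields

The sum over `d` of the wedge squares of `∂_d u` is a null Lagrangian plus a product with `du`.
-/

open MeasureTheory Matrix Filter Set
open scoped ContDiff Topology InnerProductSpace

namespace Vale.Agent.P204.General.Ext

open Vale.Agent.P204.Torus

theorem Sm.coord {u : Pt → Fm} (hu : Sm u) (i : Fin 6) : Sm fun p => u p i :=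
  ⟨(EuclideanSpace.proj (𝕜 := ℝ) i).contDiff.comp hu.smooth,
    hu.supp.comp_left (g := fun v : Fm => v i) rfl⟩

theorem dd_coord {u : Pt → Fm} (hu : Sm u) (d : Fin 4) (p : Pt) (i : Fin 6) :
    dd d u p i = pd d (fun q => u q i) p := by
  have h := (EuclideanSpace.proj (𝕜 := ℝ) i).hasFDerivAt.comp p
    ((hu.smooth.differentiable (by norm_num)) p).hasFDerivAt
  rw [pd, show (fun q => u q i) = EuclideanSpace.proj (𝕜 := ℝ) i ∘ u from rfl, h.fderiv]
  rfl

theorem Sm.dopS {u : Pt → Fm} (hu : Sm u) : Sm (dop u) := by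
  refine ⟨?_, ?_⟩
  · have h := fun d i => ((hu.ddS d).coord i).smooth
    refine (contDiff_piLp 2).2 fun m => ?_
    fin_cases m <;> simp [dop]
    · exact ((h 1 5).sub (h 2 4)).add (h 3 3)
    · exact ((h 3 1).neg.add ((h 2 2).sub (h 0 5)))
    · exact ((h 0 4).sub (h 1 2)).add (h 3 0)
    · exact ((h 2 0).neg.add ((h 1 1).sub (h 0 3)))
  · refine HasCompactSupport.intro (hu.supp.isCompact) fun p hp => ?_
    have hz : ∀ d, dd d u p = 0 := fun d => by
      rw [dd, fderiv_of_notMem_tsupport (𝕜 := ℝ) hp]; rfl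
    ext m
    fin_cases m <;> simp [dop, hz]

/-- The null part. -/
def nul (x : Fin 4 → Fm) (i k : Fin 6) (a b : Fin 4) : ℝ := x a i * x b k - x b i * x a k

/-- The sum of the twelve null parts. -/
def nulSum (x : Fin 4 → Fm) : ℝ :=
  nul x 0 4 1 2 - nul x 0 3 1 3 - nul x 1 5 2 1 - nul x 1 3 2 3 - nul x 2 5 3 1 + nul x 2 4 3 2
    + nul x 0 2 0 2 - nul x 0 1 0 3 + nul x 3 5 2 0 + nul x 4 5 3 0 - nul x 1 2 0 1 + nul x 3 4 1 0

theorem wedge_toM (v : Fm) :
    wedge (toM v) (toM v) = 2 * (v 0 * v 5 - v 1 * v 4 + v 2 * v 3) := by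
  simp [wedge, toM]; ring

/-- The algebraic identity behind Gårding's inequality. -/
theorem sum_wedge_eq (x : Fin 4 → Fm) :
    ∑ d, wedge (toM (x d)) (toM (x d))
      = -2 * (-(x 1 0 + x 2 1 + x 3 2) * (x 1 5 - x 2 4 + x 3 3)
            + (x 0 0 - x 2 3 - x 3 4) * -(x 0 5 - x 2 2 + x 3 1)
            + (x 0 1 + x 1 3 - x 3 5) * (x 0 4 - x 1 2 + x 3 0)
            + (x 0 2 + x 1 4 + x 2 5) * -(x 0 3 - x 1 1 + x 2 0))
        + 2 * nulSum x := by
  simp only [Fin.sum_univ_four, wedge_toM, nulSum, nul]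
  ring

theorem abs_coord_le {n : ℕ} (v : EuclideanSpace ℝ (Fin n)) (i : Fin n) : |v i| ≤ ‖v‖ := by
  simpa using PiLp.norm_apply_le v i

/-- The identity as an inequality. -/
theorem sum_wedge_le (u : Pt → Fm) (p : Pt) {c : ℝ} (hc : 0 < c) :
    ∑ d, wedge (toM (dd d u p)) (toM (dd d u p))
      ≤ 2 * nulSum (fun d => dd d u p) + c / 2 * ∑ d, ‖dd d u p‖ ^ 2
        + 4 * (288 / c) * ‖dop u p‖ ^ 2 := by
  rw [sum_wedge_eq]
  set D := ‖dop u p‖
  set n := fun d => ‖dd d u p‖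
  have hD : ∀ m, |dop u p m| ≤ D := fun m => abs_coord_le _ m
  have h0 := hD 0
  have h1 := hD 1
  have h2 := hD 2
  have h3 := hD 3
  simp [dop] at h0 h1 h2 h3
  have hn : ∀ d i, |dd d u p i| ≤ n d := fun d i => abs_coord_le _ i
  have hsum : ∀ x y z a b c' : ℝ, |x| ≤ a → |y| ≤ b → |z| ≤ c' → |x + y + z| ≤ a + b + c' :=
    fun x y z a b c' hx hy hz => (abs_add_three x y z).trans (add_le_add (add_le_add hx hy) hz)
  have e0 : |-(dd 1 u p 0 + dd 2 u p 1 + dd 3 u p 2)| ≤ n 1 + n 2 + n 3 := by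
    rw [abs_neg]; exact hsum _ _ _ _ _ _ (hn 1 0) (hn 2 1) (hn 3 2)
  have e1 : |dd 0 u p 0 - dd 2 u p 3 - dd 3 u p 4| ≤ n 0 + n 2 + n 3 := by
    rw [sub_eq_add_neg, sub_eq_add_neg]
    exact hsum _ _ _ _ _ _ (hn 0 0) ((abs_neg _).trans_le (hn 2 3)) ((abs_neg _).trans_le (hn 3 4))
  have e2 : |dd 0 u p 1 + dd 1 u p 3 - dd 3 u p 5| ≤ n 0 + n 1 + n 3 := by
    rw [sub_eq_add_neg]
    exact hsum _ _ _ _ _ _ (hn 0 1) (hn 1 3) ((abs_neg _).trans_le (hn 3 5))
  have e3 : |dd 0 u p 2 + dd 1 u p 4 + dd 2 u p 5| ≤ n 0 + n 1 + n 2 :=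
    hsum _ _ _ _ _ _ (hn 0 2) (hn 1 4) (hn 2 5)
  have hy : ∀ x, 24 * (x * D) ≤ c / 2 * x ^ 2 + 288 / c * D ^ 2 := fun x => by
    have h := sq_nonneg (c * x - 24 * D)
    rw [← sub_nonneg]
    have e : c / 2 * x ^ 2 + 288 / c * D ^ 2 - 24 * (x * D) = (c * x - 24 * D) ^ 2 / (2 * c) := by
      field_simp; ring
    rw [e]; positivity
  have hmul : ∀ a b A : ℝ, |a| ≤ A → |b| ≤ D → -(a * b) ≤ A * D := fun a b A ha hb =>
    (neg_le_abs _).trans ((abs_mul a b).trans_le
      (mul_le_mul ha hb (abs_nonneg _) ((abs_nonneg _).trans ha)))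
  have k0 := hmul _ _ _ e0 h0
  have h1' : |dd 0 u p 5 - dd 2 u p 2 + dd 3 u p 1| ≤ D := by
    rw [← abs_neg]; convert h1 using 2; ring
  have k1 := hmul _ (-(dd 0 u p 5 - dd 2 u p 2 + dd 3 u p 1)) _ e1 (by rwa [abs_neg])
  have k2 := hmul _ _ _ e2 h2
  have h3' : |dd 0 u p 3 - dd 1 u p 1 + dd 2 u p 0| ≤ D := by
    rw [← abs_neg]; convert h3 using 2; ring
  have k3 := hmul _ (-(dd 0 u p 3 - dd 1 u p 1 + dd 2 u p 0)) _ e3 (by rwa [abs_neg])
  simp only [Fin.sum_univ_four]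
  have hD0 : 0 ≤ D := norm_nonneg _
  have p0 : 0 ≤ n 0 * D := mul_nonneg (norm_nonneg _) hD0
  have p1 : 0 ≤ n 1 * D := mul_nonneg (norm_nonneg _) hD0
  have p2 : 0 ≤ n 2 * D := mul_nonneg (norm_nonneg _) hD0
  have p3 : 0 ≤ n 3 * D := mul_nonneg (norm_nonneg _) hD0
  linarith [hy (n 0), hy (n 1), hy (n 2), hy (n 3)]

/-- A null Lagrangian integrates to zero. -/
theorem integral_nul {f g : Pt → ℝ} (hf : Sm f) (hg : Sm g) (a b : Fin 4) :
    Integrable (fun p => pd a f p * pd b g p - pd b f p * pd a g p) ∧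
      ∫ p, (pd a f p * pd b g p - pd b f p * pd a g p) = 0 := by
  have hd : ∀ {h : Pt → ℝ}, Sm h → ∀ a, Sm (pd a h) := fun h a => h.ddS a
  have hF : ∀ a, Sm fun p => f p * pd a g p := fun a =>
    ⟨hf.smooth.mul (hd hg a).smooth, hf.supp.mul_right⟩
  have hdf : ∀ {h : Pt → ℝ}, Sm h → ∀ p, DifferentiableAt ℝ h p := fun h p =>
    (h.smooth.differentiable (by norm_num)) p
  have hsym : ∀ p, pd a (pd b g) p = pd b (pd a g) p := fun p => by
    have h2 : DifferentiableAt ℝ (fderiv ℝ g) p :=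
      ((hg.smooth.fderiv_right (m := ∞) (by norm_num)).differentiable (by norm_num)) p
    show fderiv ℝ (fun q => fderiv ℝ g q (Pi.single b 1)) p _
      = fderiv ℝ (fun q => fderiv ℝ g q (Pi.single a 1)) p _
    rw [fderiv_clm_apply h2 (differentiableAt_const _),
      fderiv_clm_apply h2 (differentiableAt_const _)]
    simp only [fderiv_fun_const, Pi.zero_apply, ContinuousLinearMap.comp_zero, zero_add,
      ContinuousLinearMap.flip_apply]
    exact hg.smooth.contDiffAt.isSymmSndFDerivAt (by simp; exact ENat.LEInfty.out) _ _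
  have e : (fun p => pd a f p * pd b g p - pd b f p * pd a g p)
      = fun p => pd a (fun p => f p * pd b g p) p - pd b (fun p => f p * pd a g p) p := by
    funext p
    rw [pd_mul_at a (hdf hf p) (hdf (hd hg b) p), pd_mul_at b (hdf hf p) (hdf (hd hg a) p), hsym p]
    ring
  have hi : ∀ (a : Fin 4) {h : Pt → ℝ}, Sm h → Integrable (pd a h) := fun a _ h =>
    (hd h a).smooth.continuous.integrable_of_hasCompactSupport (hd h a).supp
  rw [e]
  refine ⟨(hi a (hF b)).sub (hi b (hF a)), ?_⟩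
  rw [integral_sub (hi a (hF b)) (hi b (hF a)),
    integral_pd_eq_zero (hF b).smooth (hF b).supp a, integral_pd_eq_zero (hF a).smooth (hF a).supp b,
    sub_zero]

theorem sq2_toM (v : Fm) : sq2 (toM v) = 2 * ‖v‖ ^ 2 := by
  rw [EuclideanSpace.norm_sq_eq]
  simp [sq2, toM, Fin.sum_univ_four, Fin.sum_univ_six]; ring

theorem abs_toM_le (v : Fm) (i k : Fin 4) : |toM v i k| ≤ ‖v‖ := by
  fin_cases i <;> fin_cases k <;> simp [toM, abs_coord_le]

/-- The wedge square of a derivative of an anti-invariant field. -/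
theorem wedge_dd_lower {J : Pt → M4} {u : Pt → Fm} {p : Pt} (hu : Sm u) (d : Fin 4) {B c : ℝ}
    (hc : 0 ≤ c) (hj : J p * J p = -1) (hsgn : oSgn (J p) = 1)
    (hlow : ∀ A : M4, Aᵀ = -A → IsAnti (J p) A → c * sq2 A ≤ oSgn (J p) * wedge A A)
    (hB : ∀ i k, |J p i k| ≤ B) (hB' : ∀ i k, |pd d (fun q => J q i k) p| ≤ B)
    (hdJ : ∀ i k, DifferentiableAt ℝ (fun q => J q i k) p)
    (ha : ∀ᶠ q in 𝓝 p, antiP (J q) (toM (u q)) = toM (u q)) :
    c * ‖dd d u p‖ ^ 2
      ≤ wedge (toM (dd d u p)) (toM (dd d u p)) + (6 + c) * (16 * (16 * B ^ 2) ^ 2) * ‖u p‖ ^ 2 := by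
  have hB0 : 0 ≤ B := (abs_nonneg _).trans (hB 0 0)
  set M := toM (dd d u p) with hMdef
  have hdM : ∀ i k, DifferentiableAt ℝ (fun q => toM (u q) i k) p ∧
      pd d (fun q => toM (u q) i k) p = M i k := fun i k => by
    have hc' : ∀ n, DifferentiableAt ℝ (fun q => u q n) p := fun n =>
      ((hu.coord n).smooth.differentiable (by norm_num)) p
    fin_cases i <;> fin_cases k <;>
      (refine ⟨?_, ?_⟩ <;> simp [M, toM, dd_coord hu, pd, fderiv_fun_const, fderiv_fun_neg, hc'])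
  have heq : ∀ i k, pd d (fun q => ∑ b, ∑ a, J q a i * toM (u q) a b * J q b k) p = -M i k :=
    fun i k => by
    have h : (fun q => ∑ b, ∑ a, J q a i * toM (u q) a b * J q b k)
        =ᶠ[𝓝 p] fun q => -toM (u q) i k := ha.mono fun q hq => by
      have h2 := congrArg (fun P : M4 => P i k) hq
      simp only [antiP, Matrix.smul_apply, Matrix.sub_apply, Matrix.mul_apply, transpose_apply,
        smul_eq_mul, Finset.sum_mul] at h2
      linarith
    rw [pd_congr_nhds d h, ← (hdM i k).2, pd, pd, fderiv_fun_neg, _root_.neg_apply]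
  have hI : ∀ i k, |inv11 (J p) M i k| ≤ 16 * B ^ 2 * ‖u p‖ := fun i k => by
    have hdd : ∀ a b, DifferentiableAt ℝ (fun q => J q a i * toM (u q) a b * J q b k) p := fun a b =>
      ((hdJ a i).mul (hdM a b).1).mul (hdJ b k)
    have h := heq i k
    rw [pd, fderiv_fun_sum fun b _ => DifferentiableAt.fun_sum fun a _ => hdd a b] at h
    simp only [_root_.sum_apply, fderiv_fun_sum fun a _ => hdd a _] at h
    have e : ∀ a b, fderiv ℝ (fun q => J q a i * toM (u q) a b * J q b k) p (Pi.single d 1)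
        = (pd d (fun q => J q a i) p * toM (u p) a b * J p b k
            + J p a i * toM (u p) a b * pd d (fun q => J q b k) p) + J p a i * M a b * J p b k :=
      fun a b => by
      show pd d (fun q => (J q a i * toM (u q) a b) * J q b k) p = _
      rw [pd_mul_at d ((hdJ a i).fun_mul (hdM a b).1) (hdJ b k), pd_mul_at d (hdJ a i) (hdM a b).1,
        (hdM a b).2]
      ring
    simp only [e, Finset.sum_add_distrib] at h
    have hv : inv11 (J p) M i k
        = -(2 : ℝ)⁻¹ * ∑ b, ∑ a, (pd d (fun q => J q a i) p * toM (u p) a b * J p b k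
            + J p a i * toM (u p) a b * pd d (fun q => J q b k) p) := by
      simp only [inv11, Matrix.smul_apply, Matrix.add_apply, Matrix.mul_apply, transpose_apply,
        smul_eq_mul, Finset.sum_mul, Finset.sum_add_distrib]
      linarith
    rw [hv, abs_mul, abs_neg, abs_of_pos (by norm_num : (0:ℝ) < 2⁻¹)]
    refine (mul_le_mul_of_nonneg_left ((Finset.abs_sum_le_sum_abs _ _).trans
      (Finset.sum_le_sum fun b _ => (Finset.abs_sum_le_sum_abs _ _).trans
        (Finset.sum_le_sum fun a _ => (abs_add_le _ _).trans (add_le_add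
          ?_ ?_)))) (by norm_num)).trans_eq
      (b := (2:ℝ)⁻¹ * ∑ _b : Fin 4, ∑ _a : Fin 4, (B * ‖u p‖ * B + B * ‖u p‖ * B)) (by simp; ring)
    all_goals
      rw [abs_mul, abs_mul]
      exact mul_le_mul (mul_le_mul (by first | exact hB' _ _ | exact hB _ _) (abs_toM_le _ _ _)
        (abs_nonneg _) hB0) (by first | exact hB _ _ | exact hB' _ _) (abs_nonneg _) (by positivity)
  have hMs : Mᵀ = -M := toM_skew _
  have hP := antiP_skew (j := J p) hMs
  have hQ := inv11_skew (j := J p) hMs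
  have hx : wedge (inv11 (J p) M) (antiP (J p) M) = 0 := wedge_inv11_antiP hj hMs hMs
  have hsplit : antiP (J p) M + inv11 (J p) M = M := by rw [antiP, inv11]; module
  have hw : wedge M M = wedge (antiP (J p) M) (antiP (J p) M)
      + wedge (inv11 (J p) M) (inv11 (J p) M) := by
    conv_lhs => rw [← hsplit]
    rw [wedge_add_left, wedge_comm (antiP (J p) M), wedge_comm (inv11 (J p) M), wedge_add_left,
      wedge_add_left, hx, wedge_comm (antiP (J p) M) (inv11 (J p) M), hx]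
    ring
  have hl := hlow _ hP (isAnti_antiP hj hMs)
  rw [hsgn, one_mul] at hl
  have hq : ∀ (P : M4) i k, P i k ^ 2 ≤ sq2 P := fun P i k =>
    (Finset.single_le_sum (f := fun k => P i k ^ 2) (fun _ _ => sq_nonneg _)
      (Finset.mem_univ k)).trans (Finset.single_le_sum (f := fun i => ∑ k, P i k ^ 2)
      (fun _ _ => Finset.sum_nonneg fun _ _ => sq_nonneg _) (Finset.mem_univ i))
  set Q := inv11 (J p) M
  have hwQ : -(6 * sq2 Q) ≤ wedge Q Q := by
    have e : wedge Q Q = 2 * (Q 0 1 * Q 2 3 - Q 0 2 * Q 1 3 + Q 0 3 * Q 1 2) := by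
      simp only [wedge]; ring
    rw [e]
    nlinarith [hq Q 0 1, hq Q 2 3, hq Q 0 2, hq Q 1 3, hq Q 0 3, hq Q 1 2, sq_nonneg (Q 0 1 + Q 2 3),
      sq_nonneg (Q 0 2 - Q 1 3), sq_nonneg (Q 0 3 + Q 1 2)]
  have hsq : sq2 M ≤ 2 * sq2 (antiP (J p) M) + 2 * sq2 Q := by
    simp only [sq2, Finset.mul_sum, ← Finset.sum_add_distrib]
    refine Finset.sum_le_sum fun i _ => Finset.sum_le_sum fun k _ => ?_
    rw [show M i k = antiP (J p) M i k + Q i k from (congrArg (fun P : M4 => P i k) hsplit).symm]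
    nlinarith [sq_nonneg (antiP (J p) M i k - Q i k)]
  have hsQ : sq2 Q ≤ 16 * (16 * B ^ 2) ^ 2 * ‖u p‖ ^ 2 := by
    refine (Finset.sum_le_sum fun i _ => Finset.sum_le_sum fun k _ =>
      ((sq_abs _).symm.trans_le (pow_le_pow_left₀ (abs_nonneg _) (hI i k) 2))).trans_eq ?_
    simp; ring
  have h2 := sq2_toM (dd d u p)
  nlinarith [mul_le_mul_of_nonneg_left hsQ (show (0:ℝ) ≤ 3 + c by linarith),
    mul_le_mul_of_nonneg_left hsq hc]

theorem gardingStmt : GardingStmt := by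
  intro N K A J hJ c r hr
  have hsub : Metric.closedBall (0 : Pt) r ⊆ box := Metric.closedBall_subset_ball hr
  have hJd : ∀ d i k, ContinuousOn (fun p => pd d (fun q => A.jc J c q i k) p) box := fun d i k =>
    (((hJ.smooth c i k).fderiv_of_isOpen isOpen_box (m := ∞) (by norm_num)).clm_apply
      contDiffOn_const).continuousOn
  obtain ⟨B, hB, hB'⟩ : ∃ B, (∀ p ∈ Metric.closedBall (0 : Pt) r, ∀ i k, |A.jc J c p i k| ≤ B) ∧
      ∀ p ∈ Metric.closedBall (0 : Pt) r, ∀ d i k, |pd d (fun q => A.jc J c q i k) p| ≤ B := by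
    choose b hb using fun z : Fin 4 × Fin 4 => (isCompact_closedBall (0 : Pt) r).exists_bound_of_continuousOn
      ((hJ.smooth c z.1 z.2).continuousOn.mono hsub)
    choose b' hb' using fun z : Fin 4 × Fin 4 × Fin 4 =>
      (isCompact_closedBall (0 : Pt) r).exists_bound_of_continuousOn
        ((hJd z.1 z.2.1 z.2.2).mono hsub)
    refine ⟨∑ z, |b z| + ∑ z, |b' z|, fun p hp i k => ?_, fun p hp d i k => ?_⟩
    · refine ((hb (i, k) p hp).trans (le_abs_self _)).trans (le_add_of_le_of_nonneg ?_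
        (Finset.sum_nonneg fun _ _ => abs_nonneg _))
      exact Finset.single_le_sum (f := fun z => |b z|) (fun _ _ => abs_nonneg _) (Finset.mem_univ _)
    · refine ((hb' (d, i, k) p hp).trans (le_abs_self _)).trans (le_add_of_nonneg_of_le
        (Finset.sum_nonneg fun _ _ => abs_nonneg _) ?_)
      exact Finset.single_le_sum (f := fun z => |b' z|) (fun _ _ => abs_nonneg _) (Finset.mem_univ _)
  obtain ⟨c₀, hc₀, hlow⟩ := exists_anti_lower B
  set C₁ := 4 * ((6 + c₀) * (16 * (16 * B ^ 2) ^ 2))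
  set C₂ := 4 * (288 / c₀)
  have hC1 : 0 ≤ C₁ := by positivity
  have hC2 : 0 ≤ C₂ := by positivity
  refine ⟨Real.sqrt (4 * ((C₁ + C₂) * 2 / c₀)), Real.sqrt_nonneg _, fun u hu hin ha => ?_⟩
  have hpt : ∀ p, c₀ / 2 * ∑ d, ‖dd d u p‖ ^ 2
      ≤ C₂ * ‖dop u p‖ ^ 2 + C₁ * ‖u p‖ ^ 2 + 2 * nulSum fun d => dd d u p := fun p => by
    by_cases hp : p ∈ Metric.closedBall (0 : Pt) r
    · have hpb := hsub hp
      have h := Finset.sum_le_sum fun d (_ : d ∈ Finset.univ) => wedge_dd_lower (J := A.jc J c) hu d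
        hc₀.le (hJ.sq c p hpb) (oSgn_jc A hJ c hpb) (fun P hP hP' => hlow _ (hJ.sq c p hpb) (hB p hp) P hP hP')
        (hB p hp) (hB' p hp d) (fun i k => ((hJ.smooth c i k).differentiableOn (by norm_num)).differentiableAt
          (isOpen_box.mem_nhds hpb)) (eventually_of_mem (isOpen_box.mem_nhds hpb) ha)
      rw [← Finset.mul_sum, Finset.sum_add_distrib] at h
      simp only [Finset.sum_const, Finset.card_univ, Fintype.card_fin, nsmul_eq_mul] at h
      have h2 := sum_wedge_le u p hc₀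
      simp only [C₁, C₂]
      push_cast at h
      linarith
    · have hz : u =ᶠ[𝓝 p] fun _ => 0 :=
        eventually_of_mem (Metric.isClosed_closedBall.isOpen_compl.mem_nhds hp) fun q hq => by
          by_contra hne; exact hq (hin.2 q hne)
      have hd : ∀ d, dd d u p = 0 := fun d => by
        rw [dd, hz.fderiv_eq]; simp
      simp only [hd, nulSum, nul]
      simp
      positivity
  have hn0 : ∀ {n : ℕ} {f : Pt → EuclideanSpace ℝ (Fin n)}, Sm f →
      Integrable (fun p => ‖f p‖ ^ 2) ∧ ∫ p, ‖f p‖ ^ 2 = n0 f ^ 2 := fun {n f} hf => by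
    have e : (fun p => ‖f p‖ ^ 2) = fun p => ⟪f p, f p⟫_ℝ :=
      funext fun p => (real_inner_self_eq_norm_sq _).symm
    refine ⟨e ▸ hf.inner_int hf, ?_⟩
    rw [sq_n0, ip, e]
  have hnul : ∀ i k a b, Integrable (fun p => nul (fun d => dd d u p) i k a b) ∧
      ∫ p, nul (fun d => dd d u p) i k a b = 0 := fun i k a b => by
    simp only [nul, dd_coord hu]
    exact integral_nul (hu.coord i) (hu.coord k) a b
  have hN : Integrable (fun p => nulSum fun d => dd d u p) ∧
      ∫ p, (nulSum fun d => dd d u p) = 0 := by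
    unfold nulSum
    have hadd : ∀ {f g : Pt → ℝ}, (Integrable f ∧ ∫ p, f p = 0) → (Integrable g ∧ ∫ p, g p = 0) →
        (Integrable (fun p => f p + g p) ∧ ∫ p, (f p + g p) = 0) := fun hf hg =>
      ⟨hf.1.add hg.1, by rw [integral_add hf.1 hg.1, hf.2, hg.2, add_zero]⟩
    have hsub : ∀ {f g : Pt → ℝ}, (Integrable f ∧ ∫ p, f p = 0) → (Integrable g ∧ ∫ p, g p = 0) →
        (Integrable (fun p => f p - g p) ∧ ∫ p, (f p - g p) = 0) := fun hf hg =>
      ⟨hf.1.sub hg.1, by rw [integral_sub hf.1 hg.1, hf.2, hg.2, sub_zero]⟩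
    exact hadd (hsub (hadd (hadd (hsub (hadd (hadd (hsub (hsub (hsub (hsub (hnul 0 4 1 2)
      (hnul 0 3 1 3)) (hnul 1 5 2 1)) (hnul 1 3 2 3)) (hnul 2 5 3 1)) (hnul 2 4 3 2))
      (hnul 0 2 0 2)) (hnul 0 1 0 3)) (hnul 3 5 2 0)) (hnul 4 5 3 0)) (hnul 1 2 0 1)) (hnul 3 4 1 0)
  have hD := hn0 hu.dopS
  have hU := hn0 hu
  have h := integral_mono ((integrable_finsetSum Finset.univ fun d _ => (hn0 (hu.ddS d)).1).const_mul
    (c₀ / 2)) (((hD.1.const_mul C₂).add (hU.1.const_mul C₁)).add (hN.1.const_mul 2)) hpt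
  rw [integral_const_mul, integral_finsetSum _ fun d _ => (hn0 (hu.ddS d)).1] at h
  simp only [Pi.add_apply] at h
  rw [integral_add, integral_add (hD.1.const_mul C₂) (hU.1.const_mul C₁), integral_const_mul,
    integral_const_mul, integral_const_mul, hD.2, hU.2, hN.2, mul_zero, add_zero] at h
  · simp only [fun d => (hn0 (hu.ddS d)).2] at h
    set a := n0 (dop u)
    set b := n0 u
    have ha0 : 0 ≤ a := n0_nonneg _
    have hb0 : 0 ≤ b := n0_nonneg _
    have hs : (∑ d, n0 (dd d u)) ^ 2 ≤ 4 * ((C₁ + C₂) * 2 / c₀) * (a + b) ^ 2 := by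
      refine (sq_sum_le_card_mul_sum_sq).trans ?_
      simp only [Finset.card_univ, Fintype.card_fin, Nat.cast_ofNat]
      rw [mul_assoc, div_mul_eq_mul_div]
      refine mul_le_mul_of_nonneg_left ?_ (by norm_num)
      rw [le_div_iff₀ hc₀]
      nlinarith [mul_nonneg hC1 (mul_nonneg ha0 hb0), mul_nonneg hC2 (mul_nonneg ha0 hb0),
        mul_nonneg hC1 (sq_nonneg a), mul_nonneg hC2 (sq_nonneg b)]
    have h2 := Real.abs_le_sqrt hs
    rw [Real.sqrt_mul (by positivity), Real.sqrt_sq (add_nonneg ha0 hb0)] at h2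
    exact (le_abs_self _).trans h2
  · exact (hD.1.const_mul C₂).add (hU.1.const_mul C₁)
  · exact hN.1.const_mul 2

end Vale.Agent.P204.General.Ext
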