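import Mathlib
import Vale.Agent.P204.General.Ext.Parts
import Vale.Agent.P204.General.Ext.Garding
import Vale.Agent.P204.General.Ext.Hahn
import Vale.Agent.P204.General.Repr
import Vale.Agent.P204.General.Basic.Stokes

/-!
# P204, module C: coercivity of the quadratic form for finitely many forms
-/

open MeasureTheory Matrix Filter Set
open scoped ContDiff Topology InnerProductSpace

namespace Vale.Agent.P204.General.Ext

open Vale.Agent.P204.Torus

variable {N K : ℕ} (A : Atlas N K)

theorem sq_n0_eq_norm {E : Type*} [NormedAddCommGroup E] [InnerProductSpace ℝ E] (f : Pt → E) :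
    n0 f ^ 2 = ∫ p, ‖f p‖ ^ 2 := by
  simp only [sq_n0, ip, real_inner_self_eq_norm_sq]

theorem integrable_sq_norm {E : Type*} [NormedAddCommGroup E] [InnerProductSpace ℝ E] {f : Pt → E}
    (hf : Continuous f) (hs : HasCompactSupport f) : Integrable fun p => ‖f p‖ ^ 2 :=
  (hf.norm.pow 2).integrable_of_hasCompactSupport
    (hs.mono fun p hp h => hp (by simp [h]))

theorem integral_le_of_le_nonneg {f g : Pt → ℝ} (hg : Integrable g) (h0 : ∀ p, 0 ≤ g p)
    (h : ∀ p, f p ≤ g p) : ∫ p, f p ≤ ∫ p, g p := by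
  by_cases hf : Integrable f
  · exact integral_mono hf hg h
  · rw [integral_undef hf]; exact integral_nonneg h0

theorem sq_n0_coord {u : Pt → Fm} (hu : Sm u) :
    n0 u ^ 2 = ∑ i : Fin 6, n0 (fun p => u p i) ^ 2 := by
  simp only [sq_n0_eq_norm]
  rw [← integral_finsetSum _ fun i _ =>
    integrable_sq_norm (hu.coord i).smooth.continuous (hu.coord i).supp]
  simp only [EuclideanSpace.norm_sq_eq]

theorem toM_wedge_le (v : Fm) : wedge (toM v) (toM v) ≤ 2 * ‖v‖ ^ 2 := by
  rw [EuclideanSpace.norm_sq_eq]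
  simp [wedge, toM, Fin.sum_univ_six]
  nlinarith [sq_nonneg (v 0 - v 5), sq_nonneg (v 1 + v 4), sq_nonneg (v 2 - v 3), sq_nonneg (v 0 + v 5),
    sq_nonneg (v 1 - v 4), sq_nonneg (v 2 + v 3)]

theorem omF_omF (v : Fm) : omF (omF v) = v := by
  ext i; fin_cases i <;> simp [omF, omLin]

theorem coerStmt (hG : GardingStmt) (hO : OpStmt) (hM : ModesStmt) : CoerStmt := by
  intro N K A J hJ
  classical
  obtain ⟨-, hop2, hop3, hop4, hop5⟩ := hO A J hJ
  obtain ⟨th, r₀, r, hr0, hth, hthr, -, -, hth1⟩ := exists_cut (show (1 : ℝ) / 2 < 1 by norm_num)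
  obtain ⟨q, r', r₁, hrr', hq, hqr, -, -, hq1⟩ := exists_cut hthr.1
  choose CG hCG0 hCG using fun c => hG A J hJ c r hthr.1
  choose C4 hC40 hC4 using fun c => hop4 c th r hth hthr
  choose C5 hC50 hC5 using fun c => hop5 c th r hth hthr
  choose C5q hC5q0 hC5q using fun c => hop5 c q r₁ hq hqr
  have htS : Sm (tmap th) := sm_tmap ⟨hth, hthr.supp⟩
  obtain ⟨B, hB0, hB⟩ := htS.exists_bd 0
  set av : Fin K → ℝ := fun c => 4 * CG c ^ 2 * C4 c
  set bv : Fin K → ℝ := fun c => 4 * CG c ^ 2 * B ^ 2 * C5q c + 2 * CG c ^ 2 * C5 c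
  have hbv : ∀ c, 0 ≤ bv c := fun c => by
    have := hC50 c; have := hC5q0 c; positivity
  set η := 1 / (96 * (∑ c, bv c + 1))
  have hsb : 0 ≤ ∑ c, bv c := Finset.sum_nonneg fun c _ => hbv c
  have hη : 0 < η := by positivity
  obtain ⟨n, g, hg, hmod⟩ := hM r η hthr.1 hη
  set z : Fin 6 × Fin n → Pt → Fm := fun s p => (th p * g s.2 p) • omF (EuclideanSpace.single s.1 1)
  have hzS : ∀ s, InBox r (z s) := fun s => ⟨hthr.1, fun p hp => hthr.2 p fun h => hp (by simp [z, h])⟩
  have hzSm : ∀ s, Sm (z s) := fun s =>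
    ⟨(hth.mul (hg s.2)).smul contDiff_const, (hzS s).supp⟩
  set e : Fin K × Fin 6 × Fin n → Amb N → MN N := fun s x => antiX J x (A.pushF s.1 (z s.2) x)
  have hpt : ∀ s : Fin K × Fin 6 × Fin n, IsTestX A (A.pushF s.1 (z s.2)) := fun s =>
    (hop3 s.1 (z s.2) r (hzSm _) (hzS _)).1
  have he : ∀ s, IsAntiX A J (e s) := fun s => by
    refine ⟨isTestX_anti hJ (hpt s), fun c p hp => ?_⟩
    show antiP _ (A.pullAt c (antiX J (A.psi c p) _) p) = A.pullAt c (antiX J (A.psi c p) _) p
    rw [pullAt_antiX A hJ c hp, antiP_idem (hJ.sq c p hp)]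
  refine ⟨Fintype.card (Fin K × Fin 6 × Fin n), fun l => e ((Fintype.equivFin _).symm l),
    fun l => he _, ?_⟩
  set a' := 96 * η * ∑ c, av c
  refine ⟨max a' 4, le_max_of_le_right (by norm_num), fun ψ hψ => ?_⟩
  set W := A.wedgeInt ψ ψ
  set P := A.wedgeInt (A.wOp ψ) ψ
  set S := ∑ s, A.wedgeInt (e s) ψ ^ 2
  have hP : 0 ≤ P := by
    simp only [P, hop2 ψ ψ hψ.1 hψ.1]
    exact integral_nonneg fun x => Finset.sum_nonneg fun a _ => mul_self_nonneg _
  set u : Fin K → Pt → Fm := fun c => A.cut c th ψ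
  have hu : ∀ c, Sm (u c) := fun c => sm_cut hth hthr (contDiffOn_fld hψ.1 c)
  have huB : ∀ c, InBox r (u c) := fun c => inBox_smul hthr _
  have hanti : ∀ c, ∀ p ∈ box, antiP (A.jc J c p) (toM (u c p)) = toM (u c p) := fun c p hp => by
    show antiP _ (toM (th p • A.fld c ψ p)) = toM (th p • A.fld c ψ p)
    rw [toM_smul, toM_fld hJ hψ.1, antiP_smul, hψ.2 c p hp]
  have hqS : ∀ c, Sm (A.cut c q ψ) := fun c => sm_cut hq hqr (contDiffOn_fld hψ.1 c)
  -- the derivative
  have hder : ∀ c d, n0 (dd d (u c)) ^ 2 ≤ av c * P + bv c * W := fun c d => by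
    have h1 : n0 (dd d (u c)) ≤ CG c * (n0 (dop (u c)) + n0 (u c)) :=
      (Finset.single_le_sum (f := fun d => n0 (dd d (u c))) (fun _ _ => n0_nonneg _)
        (Finset.mem_univ d)).trans (hCG c (u c) (hu c) (huB c) (hanti c))
    have h2 : n0 (dd d (u c)) ^ 2 ≤ 2 * CG c ^ 2 * (n0 (dop (u c)) ^ 2 + n0 (u c) ^ 2) :=
      (pow_le_pow_left₀ (n0_nonneg _) h1 2).trans (by
        rw [mul_pow, mul_assoc 2, ← mul_left_comm]
        exact mul_le_mul_of_nonneg_left (add_sq_le) (sq_nonneg _))
    have h3 : n0 (u c) ^ 2 ≤ C5 c * W := (sq_n0_eq_norm _).trans_le (hC5 c ψ hψ)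
    have hF : ∀ p, th p * ‖dop (A.fld c ψ) p‖ = 0 ∨ p ∈ box := fun p => by
      by_cases hp : p ∈ box
      · exact Or.inr hp
      · exact Or.inl (by rw [hthr.eq_zero hp]; ring)
    have hc4 : Continuous fun p => th p • dop (A.fld c ψ) p := by
      refine (sm_cut hth hthr ?_).smooth.continuous
      rw [dop_eq]
      refine ContDiffOn.congr (f := fun p => ∑ d, lam d (dd d (A.fld c ψ) p)) ?_
        fun p _ => by simp [Finset.sum_apply]
      exact ContDiffOn.sum fun d _ => (lam d).contDiff.comp_contDiffOn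
        (((contDiffOn_fld hψ.1 c).fderiv_of_isOpen isOpen_box (by simp)).clm_apply contDiffOn_const)
    have i4 : Integrable fun p => th p ^ 2 * ‖dop (A.fld c ψ) p‖ ^ 2 := by
      have h := integrable_sq_norm hc4 (inBox_smul hthr (dop (A.fld c ψ))).supp
      refine h.congr (Eventually.of_forall fun p => ?_)
      show ‖th p • dop (A.fld c ψ) p‖ ^ 2 = _
      rw [norm_smul, mul_pow, Real.norm_eq_abs, sq_abs]
    have iq : Integrable fun p => ‖A.cut c q ψ p‖ ^ 2 :=
      integrable_sq_norm (hqS c).smooth.continuous (hqS c).supp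
    have hp4 : ∀ p, ‖dop (u c) p‖ ^ 2 ≤
        2 * (th p ^ 2 * ‖dop (A.fld c ψ) p‖ ^ 2) + 2 * B ^ 2 * ‖A.cut c q ψ p‖ ^ 2 := fun p => by
      by_cases hp : p ∈ Metric.closedBall (0 : Pt) r
      · have hb := Metric.closedBall_subset_ball hthr.1 hp
        have hd : DifferentiableAt ℝ (A.fld c ψ) p :=
          ((contDiffOn_fld hψ.1 c).contDiffAt (isOpen_box.mem_nhds hb)).differentiableAt (by simp)
        have e1 : dop (u c) p = th p • dop (A.fld c ψ) p + tmap th p (A.fld c ψ p) := dop_smul hth hd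
        have e2 : A.cut c q ψ p = A.fld c ψ p := by
          simp [Atlas.cut, hq1 p (Metric.closedBall_subset_closedBall hrr'.le hp)]
        rw [e1, e2]
        refine (pow_le_pow_left₀ (norm_nonneg _) (norm_add_le _ _) 2).trans ?_
        refine (add_sq_le).trans ?_
        rw [norm_smul, mul_pow, Real.norm_eq_abs, sq_abs, mul_add]
        refine add_le_add le_rfl ?_
        rw [mul_assoc]
        refine mul_le_mul_of_nonneg_left ?_ zero_le_two
        rw [← mul_pow]
        exact pow_le_pow_left₀ (norm_nonneg _) ((ContinuousLinearMap.le_opNorm _ _).trans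
          (mul_le_mul_of_nonneg_right (hB.bound p) (norm_nonneg _))) 2
      · have e0 : dop (u c) p = 0 := by_contra fun h => hp ((huB c).dop.2 p h)
        rw [e0, norm_zero, zero_pow two_ne_zero]
        positivity
    have h4 : n0 (dop (u c)) ^ 2 ≤ 2 * (C4 c * P) + 2 * B ^ 2 * (C5q c * W) := by
      rw [sq_n0_eq_norm]
      refine (integral_mono_of_nonneg (Eventually.of_forall fun p => sq_nonneg _)
        ((i4.const_mul 2).add (iq.const_mul _)) (Eventually.of_forall hp4)).trans ?_
      simp only [Pi.add_apply]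
      rw [integral_add (i4.const_mul 2) (iq.const_mul _), integral_const_mul, integral_const_mul]
      exact add_le_add (mul_le_mul_of_nonneg_left (hC4 c ψ hψ.1) zero_le_two)
        (mul_le_mul_of_nonneg_left (hC5q c ψ hψ) (by positivity))
    refine h2.trans ((mul_le_mul_of_nonneg_left (add_le_add h4 h3) (by positivity)).trans_eq ?_)
    simp only [av, bv]; ring
  -- the functionals
  have hcoef : ∀ c i j, ∫ p, g j p * u c p i = A.wedgeInt (e (c, i, j)) ψ := fun c i j => by
    have h := (hop3 c (z (i, j)) r (hzSm _) (hzS _))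
    have hsym : A.wedgeInt (e (c, i, j)) ψ = A.wedgeInt ψ (A.pushF c (z (i, j))) := by
      refine integral_congr_ae ((ae_mem_X A).mono fun x hx => ?_)
      obtain ⟨d, -, hd⟩ := Finset.exists_ne_zero_of_sum_ne_zero
        ((A.chi_sum x hx).symm ▸ one_ne_zero : ∑ d, A.chi d x ≠ 0)
      obtain ⟨p, hp, hpe⟩ := A.chi_supp d x hx hd
      have hb := closedBall_subset_box hp
      rw [← hpe]
      show A.wedgePt _ (antiX J _ _) _ = A.wedgePt _ _ (A.pushF c (z (i, j)) _)
      rw [wedgePt_chart A (antiX_skew ((hpt (c, i, j)).skew _)) (hψ.1.skew _) d hb,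
        wedgePt_chart A (hψ.1.skew _) ((hpt (c, i, j)).skew _) d hb, pullAt_antiX A hJ d hb]
      congr 1
      set M := A.pullAt d (A.pushF c (z (i, j)) (A.psi d p)) p
      set Q := A.pullAt d (ψ (A.psi d p)) p
      have hMs : Mᵀ = -M := by
        simp only [M, Atlas.pullAt, transpose_mul, transpose_transpose, (hpt (c, i, j)).skew,
          Matrix.neg_mul, Matrix.mul_neg, Matrix.mul_assoc]
      have hQs : Qᵀ = -Q := by
        simp only [Q, Atlas.pullAt, transpose_mul, transpose_transpose, hψ.1.skew,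
          Matrix.neg_mul, Matrix.mul_neg, Matrix.mul_assoc]
      have hQ : antiP (A.jc J d p) Q = Q := hψ.2 d p hb
      have hM2 : M = inv11 (A.jc J d p) M + antiP (A.jc J d p) M := by rw [inv11, antiP]; module
      conv_rhs => rw [wedge_comm', hM2, wedge_add_left]
      rw [← hQ, wedge_inv11_antiP (hJ.sq d p hb) hMs hQs, zero_add]
    rw [hsym, (h.2.2 ψ hψ.1).1, ← integral_indicator isOpen_box.measurableSet]
    refine integral_congr_ae (Eventually.of_forall fun p => ?_)
    by_cases hp : p ∈ box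
    · rw [Set.indicator_of_mem hp]
      show g j p * (th p • A.fld c ψ p) i = _
      rw [← toM_fld hJ hψ.1, ← inner_omF]
      simp only [z, map_smul, omF_omF, inner_smul_right, EuclideanSpace.inner_single_right,
        PiLp.smul_apply, smul_eq_mul, one_mul, conj_trivial]
      ring
    · rw [Set.indicator_of_notMem hp]
      show g j p * u c p i = 0
      rw [(huB c).eq_zero hp]
      simp
  -- modes
  have hn0 : ∀ c, n0 (u c) ^ 2 ≤ ∑ i, ∑ j, A.wedgeInt (e (c, i, j)) ψ ^ 2 +
      24 * η * (av c * P + bv c * W) := fun c => by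
    rw [sq_n0_coord (hu c)]
    have h1 : ∀ i : Fin 6, n0 (fun p => u c p i) ^ 2 ≤ ∑ j, A.wedgeInt (e (c, i, j)) ψ ^ 2 +
        η * (4 * (av c * P + bv c * W)) := fun i => by
      have hB' : InBox r fun p => u c p i := ⟨hthr.1, fun p hp => (huB c).2 p fun h => hp (by simp [h])⟩
      refine (hmod _ ((hu c).coord i) hB').trans (add_le_add (le_of_eq ?_) ?_)
      · exact Finset.sum_congr rfl fun j _ => by rw [hcoef]
      · refine mul_le_mul_of_nonneg_left (le_of_le_of_eq (b := ∑ _d : Fin 4, (av c * P + bv c * W))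
          (Finset.sum_le_sum fun d _ => ?_) (by simp; ring)) hη.le
        refine le_trans ?_ (hder c d)
        rw [sq_n0_eq_norm, sq_n0_eq_norm]
        refine integral_mono_of_nonneg (Eventually.of_forall fun p => sq_nonneg _) ?_
          (Eventually.of_forall fun p => ?_)
        · exact integrable_sq_norm ((hu c).ddS d).smooth.continuous ((hu c).ddS d).supp
        · refine pow_le_pow_left₀ (norm_nonneg _) ?_ 2
          show ‖pd d (fun q => u c q i) p‖ ≤ _
          rw [← dd_coord (hu c)]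
          exact abs_coord_le _ _
    refine (Finset.sum_le_sum fun i _ => h1 i).trans_eq ?_
    rw [Finset.sum_add_distrib, Finset.sum_const, Finset.card_univ, Fintype.card_fin, nsmul_eq_mul]
    push_cast; ring
  -- the norm through the charts
  have hW : W ≤ 2 * ∑ c, n0 (u c) ^ 2 := by
    have hc : ContinuousOn (fun x => A.wedgePt x (ψ x) (ψ x)) A.X :=
      continuousOn_wedgePt A hψ.1.skew hψ.1.skew hJ (fun c i k => (hψ.1.smooth c i k).continuousOn)
        (fun c i k => (hψ.1.smooth c i k).continuousOn)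
    have hcc : ∀ c, ContinuousOn (fun x => A.chi c x * A.wedgePt x (ψ x) (ψ x)) A.X := fun c =>
      (A.chi_smooth c).continuous.continuousOn.mul hc
    have e1 : W = ∑ c, ∫ x, A.chi c x * A.wedgePt x (ψ x) (ψ x) ∂A.vol := by
      rw [← integral_finsetSum _ fun c _ => integrable_of_continuousOn A (hcc c)]
      refine integral_congr_ae ((ae_mem_X A).mono fun x hx => ?_)
      show A.wedgePt x (ψ x) (ψ x) = ∑ c, A.chi c x * A.wedgePt x (ψ x) (ψ x)
      rw [← Finset.sum_mul, A.chi_sum x hx, one_mul]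
    rw [e1, Finset.mul_sum]
    refine Finset.sum_le_sum fun c _ => ?_
    rw [integral_eq_chart A hJ c (hcc c) fun x hx hx' => ?_]
    · rw [sq_n0_eq_norm, ← integral_const_mul, ← integral_indicator isOpen_box.measurableSet]
      refine integral_le_of_le_nonneg ?_ (fun p => by positivity) fun p => ?_
      · exact (integrable_sq_norm (hu c).smooth.continuous (hu c).supp).const_mul 2
      · show Set.indicator box _ p ≤ 2 * ‖u c p‖ ^ 2
        by_cases hp : p ∈ box
        · rw [Set.indicator_of_mem hp, wedgePt_chart A (hψ.1.skew _) (hψ.1.skew _) c hp]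
          show _ ≤ 2 * ‖th p • A.fld c ψ p‖ ^ 2
          rw [mul_left_comm (A.dens c p), mul_div_cancel₀ _ (dens_pos A hJ c hp).ne']
          by_cases h0 : A.chi c (A.psi c p) = 0
          · rw [h0, zero_mul]; positivity
          · obtain ⟨p', hp', hpe⟩ := A.chi_supp c _ (A.psi_mem c p hp) h0
            have hpp : p = p' := by
              rw [← A.phi_psi c hp, ← hpe, A.phi_psi c (closedBall_subset_box hp')]
            rw [hth1 p (Metric.closedBall_subset_closedBall hr0.le (hpp ▸ hp')), one_smul]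
            show _ * wedge (A.pull c ψ p) (A.pull c ψ p) ≤ _
            rw [← toM_fld hJ hψ.1]
            have hle : A.chi c (A.psi c p) ≤ 1 :=
              (Finset.single_le_sum (f := fun d => A.chi d (A.psi c p)) (fun d _ => A.chi_nonneg d _)
                (Finset.mem_univ c)).trans_eq (A.chi_sum _ (A.psi_mem c p hp))
            nlinarith [toM_wedge_le (A.fld c ψ p), A.chi_nonneg c (A.psi c p),
              sq_nonneg ‖A.fld c ψ p‖]
        · rw [Set.indicator_of_notMem hp]; positivity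
    · have h0 : A.chi c x = 0 := by
        by_contra h
        obtain ⟨p, hp, hpe⟩ := A.chi_supp c x hx h
        exact hx' ⟨p, hp, hpe⟩
      rw [h0, zero_mul]
  have hSsum : ∑ c, ∑ i, ∑ j, A.wedgeInt (e (c, i, j)) ψ ^ 2 = S := by
    simp only [S, Fintype.sum_prod_type]
  have h5 := Finset.sum_le_sum fun c (_ : c ∈ Finset.univ) => hn0 c
  rw [Finset.sum_add_distrib, hSsum, ← Finset.mul_sum, Finset.sum_add_distrib, ← Finset.sum_mul,
    ← Finset.sum_mul] at h5
  have h6 : 96 * η * (∑ c, bv c) ≤ 1 := by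
    simp only [η]
    rw [← mul_div_assoc, mul_one, div_mul_eq_mul_div, div_le_one (by positivity)]
    linarith
  have hbq : A.bq (fun l => e ((Fintype.equivFin _).symm l)) ψ = P + S := by
    simp only [Atlas.bq, P, S]
    exact congrArg _ (Equiv.sum_comp (Fintype.equivFin _).symm fun s => A.wedgeInt (e s) ψ ^ 2)
  have hS : 0 ≤ S := Finset.sum_nonneg fun s _ => sq_nonneg _
  show W ≤ _
  rw [hbq]
  have hCa : a' * P + 4 * S ≤ max a' 4 * (P + S) := by
    rw [mul_add]
    exact add_le_add (mul_le_mul_of_nonneg_right (le_max_left _ _) hP)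
      (mul_le_mul_of_nonneg_right (le_max_right _ _) hS)
  refine le_trans ?_ hCa
  simp only [a']
  by_cases hW0 : W ≤ 0
  · have hav : 0 ≤ ∑ c, av c := Finset.sum_nonneg fun c _ => by have := hC40 c; positivity
    have : 0 ≤ 96 * η * (∑ c, av c) * P := by positivity
    linarith
  · nlinarith [mul_le_mul_of_nonneg_right h6 (le_of_lt (not_le.1 hW0))]

end Vale.Agent.P204.General.Ext
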