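import Mathlib
import Vale.Agent.P204.Torus.Defs

/-!
# P204, module C: Fourier coefficients on the cube of side two

`coef f n` is the `n`-th coefficient of `f` on `(-1, 1]⁴`. Used for the tail estimate and for the
smoothness of the limit of the approximate solutions.
-/

open MeasureTheory Filter Set
open scoped ContDiff Topology

namespace Vale.Agent.P204.General.Ext

/-- The normalised measure on the circle, as in Mathlib's file on Fourier series of several variables. -/
noncomputable local instance : MeasureSpace UnitAddCircle := ⟨AddCircle.haarAddCircle⟩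

local instance : Measure.IsAddHaarMeasure (volume : Measure UnitAddCircle) :=
  inferInstanceAs (Measure.IsAddHaarMeasure AddCircle.haarAddCircle)

local instance : IsProbabilityMeasure (volume : Measure UnitAddCircle) :=
  inferInstanceAs (IsProbabilityMeasure AddCircle.haarAddCircle)

/-- The period cube. -/
def per : Set Pt := {p | ∀ i, p i ∈ Ioc (-1 : ℝ) 1}

/-- The phase. -/
noncomputable def phase (n : Fin 4 → ℤ) : Pt →L[ℝ] ℂ :=
  ∑ i, ((Real.pi : ℂ) * (n i : ℂ) * Complex.I) •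
    (Complex.ofRealCLM.comp (ContinuousLinearMap.proj i))

theorem phase_apply (n : Fin 4 → ℤ) (p : Pt) :
    phase n p = ∑ i, (Real.pi : ℂ) * (n i : ℂ) * Complex.I * (p i : ℂ) := by
  simp [phase]

theorem phase_single (n : Fin 4 → ℤ) (d : Fin 4) (t : ℝ) :
    phase n (Pi.single d t) = (Real.pi : ℂ) * (n d : ℂ) * Complex.I * (t : ℂ) := by
  rw [phase_apply, Finset.sum_eq_single d (fun i _ hi => by simp [Pi.single_eq_of_ne hi])
    (by simp)]
  simp

theorem norm_exp_phase (n : Fin 4 → ℤ) (p : Pt) : ‖Complex.exp (phase n p)‖ = 1 := by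
  rw [Complex.norm_exp, phase_apply, Complex.re_sum]
  simp

theorem phase_neg (n : Fin 4 → ℤ) (p : Pt) : phase (-n) p = -phase n p := by
  simp [phase_apply, Finset.sum_neg_distrib]

/-- The Fourier coefficient. -/
noncomputable def coef (f : Pt → ℂ) (n : Fin 4 → ℤ) : ℂ :=
  (16 : ℂ)⁻¹ * ∫ p in per, Complex.exp (phase (-n) p) * f p

/-- A function on the cube, read on the torus. -/
noncomputable def toT (f : Pt → ℂ) (t : UnitAddTorus (Fin 4)) : ℂ :=
  f fun i => 2 * (AddCircle.equivIoc 1 (-(1 / 2) : ℝ) (t i) : ℝ)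

theorem mFourier_coe (n : Fin 4 → ℤ) (x : Pt) :
    UnitAddTorus.mFourier n (fun i => (x i : UnitAddCircle))
      = Complex.exp (phase n ((2 : ℝ) • x)) := by
  rw [phase_apply, Complex.exp_sum]
  show ∏ i, fourier (n i) (x i : UnitAddCircle) = _
  refine Finset.prod_congr rfl fun i _ => ?_
  rw [fourier_coe_apply]
  congr 1
  simp
  ring

theorem isCompact_closure_per : IsCompact (Metric.closedBall (0 : Pt) 1) := isCompact_closedBall _ _

theorem per_subset : per ⊆ Metric.closedBall (0 : Pt) 1 := fun p hp => by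
  refine mem_closedBall_zero_iff.2 ((pi_norm_le_iff_of_nonneg zero_le_one).2 fun i => ?_)
  exact abs_le.2 ⟨(hp i).1.le, (hp i).2⟩

theorem ball_subset_per {r : ℝ} (hr : r < 1) : Metric.closedBall (0 : Pt) r ⊆ per := fun p hp i => by
  have h := (norm_le_pi_norm p i).trans (mem_closedBall_zero_iff.1 hp)
  rw [Real.norm_eq_abs] at h
  exact ⟨by linarith [neg_abs_le (p i)], by linarith [le_abs_self (p i)]⟩

theorem measurableSet_per : MeasurableSet per :=
  MeasurableSet.univ_pi' fun _ => measurableSet_Ioc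

theorem integral_per (g : Pt → ℂ) :
    ∫ x in {x : Pt | ∀ i, x i ∈ Ioc (-(1 / 2) : ℝ) (-(1 / 2) + 1)}, g ((2 : ℝ) • x)
      = (16 : ℂ)⁻¹ * ∫ p in per, g p := by
  have hs : MeasurableSet {x : Pt | ∀ i, x i ∈ Ioc (-(1 / 2) : ℝ) (-(1 / 2) + 1)} :=
    MeasurableSet.univ_pi' fun _ => measurableSet_Ioc
  rw [← integral_indicator hs, ← integral_indicator measurableSet_per]
  have e : ∀ x : Pt, {x : Pt | ∀ i, x i ∈ Ioc (-(1 / 2) : ℝ) (-(1 / 2) + 1)}.indicator
      (fun x => g ((2 : ℝ) • x)) x = per.indicator g ((2 : ℝ) • x) := fun x => by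
    have hiff : x ∈ {x : Pt | ∀ i, x i ∈ Ioc (-(1 / 2) : ℝ) (-(1 / 2) + 1)} ↔
        (2 : ℝ) • x ∈ per := by
      simp only [per, mem_setOf_eq, mem_Ioc, Pi.smul_apply, smul_eq_mul]
      exact forall_congr' fun i => ⟨fun h => ⟨by linarith [h.1], by linarith [h.2]⟩,
        fun h => ⟨by linarith [h.1], by linarith [h.2]⟩⟩
    by_cases h : (2 : ℝ) • x ∈ per
    · rw [indicator_of_mem h, indicator_of_mem (hiff.2 h)]
    · rw [indicator_of_notMem h, indicator_of_notMem (fun h' => h (hiff.1 h'))]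
  simp only [e]
  rw [Measure.integral_comp_smul volume (fun p => per.indicator g p) (2 : ℝ)]
  norm_num [Module.finrank_fin_fun, Complex.real_smul]

theorem mFourierCoeff_toT (f : Pt → ℂ) (n : Fin 4 → ℤ) :
    UnitAddTorus.mFourierCoeff (toT f) n = coef f n := by
  rw [UnitAddTorus.mFourierCoeff_eq_integral (toT f) n (fun _ => (-(1 / 2) : ℝ)), coef,
    ← integral_per]
  refine setIntegral_congr_fun (MeasurableSet.univ_pi' fun _ => measurableSet_Ioc) fun x hx => ?_
  rw [smul_eq_mul, mFourier_coe]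
  congr 1
  show f (fun i => 2 * ((AddCircle.equivIoc 1 (-(1 / 2) : ℝ) (x i : UnitAddCircle)) : ℝ)) = _
  congr 1
  funext i
  rw [AddCircle.equivIoc_coe_eq (hx i)]
  rfl

theorem exists_toLp {f : Pt → ℂ} (hf : Continuous f) :
    ∃ F : Lp ℂ 2 (volume : Measure (UnitAddTorus (Fin 4))), F =ᵐ[volume] toT f ∧
      (∀ n, UnitAddTorus.mFourierCoeff F n = coef f n) := by
  obtain ⟨C, hC⟩ := isCompact_closure_per.exists_bound_of_continuousOn hf.continuousOn
  have hm : Measurable (toT f) := hf.measurable.comp (measurable_pi_lambda _ fun i =>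
    ((measurable_subtype_coe.comp ((AddCircle.measurableEquivIoc 1 (-(1 / 2) : ℝ)).measurable.comp
      (measurable_pi_apply i))).const_mul 2))
  have hb : ∀ t, ‖toT f t‖ ≤ C := fun t => hC _ (per_subset fun i => by
    have h := (AddCircle.equivIoc 1 (-(1 / 2) : ℝ) (t i)).2
    exact ⟨by linarith [h.1], by linarith [h.2]⟩)
  have hL : MemLp (toT f) 2 (volume : Measure (UnitAddTorus (Fin 4))) :=
    MemLp.of_bound hm.aestronglyMeasurable C (Eventually.of_forall hb)
  refine ⟨hL.toLp, hL.coeFn_toLp, fun n => ?_⟩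
  rw [← mFourierCoeff_toT]
  exact integral_congr_ae (by filter_upwards [hL.coeFn_toLp] with t ht; rw [ht])

/-- Parseval. -/
theorem parseval {f : Pt → ℂ} (hf : Continuous f) :
    HasSum (fun n => ‖coef f n‖ ^ 2) ((16 : ℝ)⁻¹ * ∫ p in per, ‖f p‖ ^ 2) := by
  obtain ⟨F, hF, hc⟩ := exists_toLp hf
  have h := UnitAddTorus.hasSum_sq_mFourierCoeff F
  simp only [hc] at h
  refine (congrArg (HasSum _ ·) ?_).mp h
  apply Complex.ofReal_injective
  rw [← integral_complex_ofReal]
  rw [integral_congr_ae (g := fun t => ((‖toT f t‖ ^ 2 : ℝ) : ℂ))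
    (by filter_upwards [hF] with t ht; rw [ht]),
    UnitAddTorus.integral_preimage _ (fun _ => (-(1 / 2) : ℝ))]
  push_cast
  rw [← integral_complex_ofReal, ← integral_per (fun p => ((‖f p‖ ^ 2 : ℝ) : ℂ))]
  refine setIntegral_congr_fun (MeasurableSet.univ_pi' fun _ => measurableSet_Ioc) fun x hx => ?_
  show ((‖f (fun i => 2 * ((AddCircle.equivIoc 1 (-(1 / 2) : ℝ)
    (x i : UnitAddCircle)) : ℝ))‖ : ℝ) : ℂ) ^ 2 = _
  push_cast
  congr 4
  funext i
  rw [AddCircle.equivIoc_coe_eq (hx i)]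
  rfl

theorem coef_sub {f g : Pt → ℂ} (hf : Continuous f) (hg : Continuous g) (n : Fin 4 → ℤ) :
    coef (fun p => f p - g p) n = coef f n - coef g n := by
  have hi : ∀ k : Pt → ℂ, Continuous k →
      Integrable (fun p => Complex.exp (phase (-n) p) * k p) (volume.restrict per) := fun k hk =>
    (((Complex.continuous_exp.comp (phase (-n)).continuous).mul hk).continuousOn.integrableOn_compact
      isCompact_closure_per).mono_set per_subset
  simp only [coef, mul_sub, integral_sub (hi f hf) (hi g hg)]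

/-- The coefficient of a real function supported in the cube. -/
theorem coef_ofReal {f : Pt → ℝ} {r : ℝ} (hr : r < 1)
    (h0 : ∀ p, f p ≠ 0 → p ∈ Metric.closedBall 0 r) (n : Fin 4 → ℤ) :
    coef (fun p => (f p : ℂ)) n = (16 : ℂ)⁻¹ * ∫ p, Complex.exp (phase (-n) p) * (f p : ℂ) := by
  rw [coef, setIntegral_eq_integral_of_forall_compl_eq_zero fun p hp => ?_]
  have : f p = 0 := by_contra fun h => hp (ball_subset_per hr (h0 p h))
  simp [this]

theorem parseval_real {f : Pt → ℝ} (hf : Continuous f) {r : ℝ} (hr : r < 1)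
    (h0 : ∀ p, f p ≠ 0 → p ∈ Metric.closedBall 0 r) :
    HasSum (fun n => ‖coef (fun p => (f p : ℂ)) n‖ ^ 2) ((16 : ℝ)⁻¹ * ∫ p, f p ^ 2) := by
  have h := parseval (f := fun p => (f p : ℂ)) (Complex.continuous_ofReal.comp hf)
  simp only [Complex.norm_real, Real.norm_eq_abs, sq_abs] at h
  rwa [setIntegral_eq_integral_of_forall_compl_eq_zero fun p hp => ?_] at h
  have : f p = 0 := by_contra fun h => hp (ball_subset_per hr (h0 p h))
  simp [this]

/-- The multiplier of a derivative. -/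
noncomputable def dmul (d : Fin 4) (n : Fin 4 → ℤ) : ℂ := (Real.pi : ℂ) * (n d : ℂ) * Complex.I

theorem norm_dmul (d : Fin 4) (n : Fin 4 → ℤ) : ‖dmul d n‖ = Real.pi * |(n d : ℝ)| := by
  simp [dmul, abs_of_pos Real.pi_pos]

theorem coef_pd {f : Pt → ℝ} (hf : ContDiff ℝ ∞ f) {r : ℝ} (hr : r < 1)
    (h0 : ∀ p, f p ≠ 0 → p ∈ Metric.closedBall 0 r) (d : Fin 4) (n : Fin 4 → ℤ) :
    coef (fun p => (pd d f p : ℂ)) n = dmul d n * coef (fun p => (f p : ℂ)) n := by
  have hs : HasCompactSupport f := HasCompactSupport.intro (isCompact_closedBall 0 r) fun p hp =>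
    by_contra fun h => hp (h0 p h)
  have hd0 : ∀ p, pd d f p ≠ 0 → p ∈ Metric.closedBall 0 r := fun p hp => by
    by_contra h
    refine hp ?_
    have e : f =ᶠ[𝓝 p] fun _ => 0 := by
      filter_upwards [Metric.isClosed_closedBall.isOpen_compl.mem_nhds h] with q hq
      exact by_contra fun h' => hq (h0 q h')
    simp [pd, e.fderiv_eq]
  rw [coef_ofReal hr hd0, coef_ofReal hr h0, mul_left_comm (dmul d n)]
  congr 1
  set E : Pt → ℂ := fun p => Complex.exp (phase (-n) p)
  have hE : ContDiff ℝ ∞ E := Complex.contDiff_exp.comp (phase (-n)).contDiff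
  have hE' : ∀ p, fderiv ℝ E p (Pi.single d 1) = -dmul d n * E p := fun p => by
    have h1 : HasFDerivAt E (Complex.exp (phase (-n) p) • phase (-n)) p :=
      (phase (-n)).hasFDerivAt.cexp
    rw [h1.fderiv, _root_.smul_apply, phase_single, smul_eq_mul]
    simp [dmul, E]
    ring
  set g : Pt → ℂ := fun p => (f p : ℂ)
  have hg : ContDiff ℝ ∞ g := Complex.ofRealCLM.contDiff.comp hf
  have hg' : ∀ p, fderiv ℝ g p (Pi.single d 1) = (pd d f p : ℂ) := fun p => by
    have h1 := Complex.ofRealCLM.hasFDerivAt.comp p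
      ((hf.differentiable (by norm_num)) p).hasFDerivAt
    rw [show fderiv ℝ g p = _ from h1.fderiv]
    rfl
  have hgs : HasCompactSupport g := hs.comp_left (g := fun x : ℝ => (x : ℂ)) (by simp)
  have hgd : HasCompactSupport fun p => fderiv ℝ g p (Pi.single d 1) :=
    (hgs.fderiv (𝕜 := ℝ)).comp_left (g := fun T : Pt →L[ℝ] ℂ => T (Pi.single d 1)) rfl
  have i1 : Integrable fun p => fderiv ℝ E p (Pi.single d 1) * g p :=
    (((hE.continuous_fderiv (by norm_num)).clm_apply continuous_const).mul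
      hg.continuous).integrable_of_hasCompactSupport hgs.mul_left
  have i2 : Integrable fun p => E p * fderiv ℝ g p (Pi.single d 1) :=
    (hE.continuous.mul ((hg.continuous_fderiv (by norm_num)).clm_apply
      continuous_const)).integrable_of_hasCompactSupport hgd.mul_left
  have i3 : Integrable fun p => E p * g p :=
    (hE.continuous.mul hg.continuous).integrable_of_hasCompactSupport hgs.mul_left
  have h := integral_mul_fderiv_eq_neg_fderiv_mul_of_integrable i1 i2 i3
    (fun p _ => (hE.differentiable (by norm_num)) p) (fun p _ => (hg.differentiable (by norm_num)) p)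
  simp only [hE', hg'] at h
  rw [h, ← integral_neg, ← integral_const_mul]
  refine integral_congr_ae (Eventually.of_forall fun p => ?_)
  simp only [g]
  ring

/-- The multiplier of a difference quotient. -/
noncomputable def qmul (h : ℝ) (d : Fin 4) (n : Fin 4 → ℤ) : ℂ :=
  (Complex.exp ((Real.pi : ℂ) * (n d : ℂ) * Complex.I * (h : ℂ)) - 1) / (h : ℂ)

theorem coef_quot {f : Pt → ℝ} (hf : Continuous f) {r : ℝ} (hr : r < 1)
    (h0 : ∀ p, f p ≠ 0 → p ∈ Metric.closedBall 0 r) {h : ℝ} (hh : r + |h| < 1) (d : Fin 4)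
    (n : Fin 4 → ℤ) :
    coef (fun p => ((h⁻¹ * (f (p + h • Pi.single d 1) - f p) : ℝ) : ℂ)) n
      = qmul h d n * coef (fun p => (f p : ℂ)) n := by
  set e : Pt := h • Pi.single d 1
  have he : ‖e‖ ≤ |h| := by simp [e, norm_smul, Pi.norm_single]
  have hshift : ∀ p, f (p + e) ≠ 0 → p ∈ Metric.closedBall 0 (r + |h|) := fun p hp => by
    have h1 := mem_closedBall_zero_iff.1 (h0 _ hp)
    refine mem_closedBall_zero_iff.2 ?_
    calc ‖p‖ = ‖(p + e) - e‖ := by simp
      _ ≤ ‖p + e‖ + ‖e‖ := norm_sub_le _ _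
      _ ≤ r + |h| := add_le_add h1 he
  have h0' : ∀ p, h⁻¹ * (f (p + e) - f p) ≠ 0 → p ∈ Metric.closedBall 0 (r + |h|) := fun p hp => by
    by_cases h1 : f (p + e) = 0
    · refine Metric.closedBall_subset_closedBall (le_add_of_nonneg_right (abs_nonneg h)) (h0 p ?_)
      intro h2
      simp [h1, h2] at hp
    · exact hshift p h1
  rw [coef_ofReal hh h0', coef_ofReal hr h0, mul_left_comm (qmul h d n)]
  congr 1
  have hs : HasCompactSupport f := HasCompactSupport.intro (isCompact_closedBall 0 r) fun p hp =>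
    by_contra fun h' => hp (h0 p h')
  have i1 : Integrable fun p => Complex.exp (phase (-n) p) * (f p : ℂ) :=
    ((Complex.continuous_exp.comp (phase (-n)).continuous).mul
      (Complex.continuous_ofReal.comp hf)).integrable_of_hasCompactSupport
      ((hs.comp_left (g := fun x : ℝ => (x : ℂ)) (by simp)).mul_left)
  have e1 : ∀ p, Complex.exp (phase (-n) p) * (f (p + e) : ℂ)
      = Complex.exp (phase n e) * (Complex.exp (phase (-n) (p + e)) * (f (p + e) : ℂ)) := fun p => by
    rw [← mul_assoc, ← Complex.exp_add, map_add, phase_neg n e]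
    congr 2
    ring
  have i2 : Integrable fun p => Complex.exp (phase (-n) p) * (f (p + e) : ℂ) := by
    simp only [e1]
    exact (i1.comp_add_right e).const_mul _
  have e2 : ∀ p, Complex.exp (phase (-n) p) * ((h⁻¹ * (f (p + e) - f p) : ℝ) : ℂ)
      = (h : ℂ)⁻¹ * (Complex.exp (phase (-n) p) * (f (p + e) : ℂ)
        - Complex.exp (phase (-n) p) * (f p : ℂ)) := fun p => by push_cast; ring
  simp only [e2]
  rw [integral_const_mul, integral_sub i2 i1]
  simp only [e1]
  rw [integral_const_mul, integral_add_right_eq_self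
    (fun p => Complex.exp (phase (-n) p) * (f p : ℂ)) e, qmul, div_eq_mul_inv,
    show phase n e = (Real.pi : ℂ) * (n d : ℂ) * Complex.I * (h : ℂ) by
      simp only [e, map_smul, phase_single, Complex.real_smul]; push_cast; ring]
  ring

theorem tendsto_qmul (d : Fin 4) (n : Fin 4 → ℤ) :
    Tendsto (fun h : ℝ => ‖qmul h d n‖) (𝓝[≠] 0) (𝓝 ‖dmul d n‖) := by
  have h : HasDerivAt (fun t : ℝ => Complex.exp (dmul d n * (t : ℂ))) (dmul d n) 0 := by
    simpa using! ((hasDerivAt_id (0 : ℝ)).ofReal_comp.const_mul (dmul d n)).cexp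
  have h1 := (hasDerivAt_iff_tendsto_slope_zero.1 h).norm
  refine h1.congr' (Eventually.of_forall fun t => ?_)
  simp [qmul, dmul, div_eq_inv_mul]

/-- The weight. -/
noncomputable def wgt (n : Fin 4 → ℤ) : ℝ := 1 + ∑ i, |(n i : ℝ)|

theorem one_le_wgt (n : Fin 4 → ℤ) : 1 ≤ wgt n :=
  le_add_of_nonneg_right (Finset.sum_nonneg fun _ _ => abs_nonneg _)

theorem wgt_pos (n : Fin 4 → ℤ) : 0 < wgt n := zero_lt_one.trans_le (one_le_wgt n)

theorem summable_one : Summable fun k : ℤ => ((1 + |(k : ℝ)|) ^ (3 / 2 : ℝ))⁻¹ := by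
  have h := Real.summable_abs_int_rpow (b := (3 / 2 : ℝ)) (by norm_num)
  refine Summable.of_norm_bounded_eventually h ?_
  rw [Filter.eventually_cofinite]
  refine (Set.finite_singleton (0 : ℤ)).subset fun k hk => ?_
  by_contra h0
  refine hk ?_
  have h1 : (1 : ℝ) ≤ |(k : ℝ)| := by
    rw [← Int.cast_abs]; exact_mod_cast Int.one_le_abs (fun h => h0 h)
  rw [Real.norm_eq_abs, abs_of_nonneg (by positivity),
    Real.rpow_neg (abs_nonneg _)]
  exact inv_anti₀ (Real.rpow_pos_of_pos (zero_lt_one.trans_le h1) _)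
    (Real.rpow_le_rpow (abs_nonneg _) (by linarith) (by norm_num))

theorem summable_wgt : Summable fun n : Fin 4 → ℤ => (wgt n ^ 6)⁻¹ := by
  set g : ℤ → ℝ := fun k => ((1 + |(k : ℝ)|) ^ (3 / 2 : ℝ))⁻¹
  have hg : ∀ k, 0 ≤ g k := fun k => by positivity
  have hs : Summable fun q : (ℤ × ℤ) × ℤ × ℤ => g q.1.1 * g q.1.2 * (g q.2.1 * g q.2.2) := by
    have h2 : Summable fun q : ℤ × ℤ => g q.1 * g q.2 :=
      summable_one.mul_of_nonneg summable_one hg hg
    exact h2.mul_of_nonneg h2 (fun q => mul_nonneg (hg _) (hg _)) fun q => mul_nonneg (hg _) (hg _)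
  have hi : Function.Injective fun n : Fin 4 → ℤ => ((n 0, n 1), n 2, n 3) := fun a b h => by
    simp only [Prod.mk.injEq] at h
    funext i; fin_cases i <;> simp [h.1.1, h.1.2, h.2.1, h.2.2]
  refine (hs.comp_injective hi).of_nonneg_of_le
    (fun n => inv_nonneg.2 (pow_nonneg (wgt_pos n).le 6)) fun n => ?_
  have hw : ∀ i, (1 + |(n i : ℝ)|) ^ (3 / 2 : ℝ) ≤ wgt n ^ (3 / 2 : ℝ) := fun i =>
    Real.rpow_le_rpow (by positivity) (add_le_add le_rfl
      (Finset.single_le_sum (f := fun i => |(n i : ℝ)|) (fun _ _ => abs_nonneg _)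
        (Finset.mem_univ i))) (by norm_num)
  show (wgt n ^ 6)⁻¹ ≤ g (n 0) * g (n 1) * (g (n 2) * g (n 3))
  simp only [g, ← mul_inv]
  refine inv_anti₀ (by positivity) ?_
  have hp : 0 ≤ wgt n ^ (3 / 2 : ℝ) := Real.rpow_nonneg (wgt_pos n).le _
  calc (1 + |(n 0 : ℝ)|) ^ (3 / 2 : ℝ) * (1 + |(n 1 : ℝ)|) ^ (3 / 2 : ℝ)
        * ((1 + |(n 2 : ℝ)|) ^ (3 / 2 : ℝ) * (1 + |(n 3 : ℝ)|) ^ (3 / 2 : ℝ))
      ≤ wgt n ^ (3 / 2 : ℝ) * wgt n ^ (3 / 2 : ℝ)
        * (wgt n ^ (3 / 2 : ℝ) * wgt n ^ (3 / 2 : ℝ)) := by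
        have hh : ∀ i, 0 ≤ (1 + |(n i : ℝ)|) ^ (3 / 2 : ℝ) := fun i => by positivity
        exact mul_le_mul (mul_le_mul (hw 0) (hw 1) (hh 1) hp) (mul_le_mul (hw 2) (hw 3) (hh 3) hp)
          (mul_nonneg (hh 2) (hh 3)) (mul_nonneg hp hp)
    _ = wgt n ^ (6 : ℝ) := by
        rw [← Real.rpow_add (wgt_pos n), ← Real.rpow_add (wgt_pos n)]; norm_num
    _ = wgt n ^ 6 := by rw [show (6 : ℝ) = ((6 : ℕ) : ℝ) by norm_num, Real.rpow_natCast]

/-- Bounds on the sums of squares of the coefficients of high derivatives bound weighted sums. -/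
theorem exists_weighted_le (m p : ℕ) (hp : m + 3 ≤ p) : ∃ C, 0 ≤ C ∧
    ∀ (c : (Fin 4 → ℤ) → ℂ) (M : ℝ), 0 ≤ M → (∀ F : Finset (Fin 4 → ℤ), ∑ n ∈ F, ‖c n‖ ^ 2 ≤ M ^ 2) →
      (∀ d, ∀ F : Finset (Fin 4 → ℤ), ∑ n ∈ F, (|(n d : ℝ)| ^ p * ‖c n‖) ^ 2 ≤ M ^ 2) →
      Summable (fun n => wgt n ^ m * ‖c n‖) ∧ ∑' n, wgt n ^ m * ‖c n‖ ≤ C * M := by
  set S := ∑' n : Fin 4 → ℤ, (wgt n ^ 6)⁻¹
  have hS : 0 ≤ S := tsum_nonneg fun n => inv_nonneg.2 (pow_nonneg (wgt_pos n).le 6)
  set K := 5 ^ (2 * p) * 5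
  refine ⟨Real.sqrt (S * (K : ℝ)), Real.sqrt_nonneg _, fun c M hM h0 hd => ?_⟩
  have hbound : ∀ F : Finset (Fin 4 → ℤ), ∑ n ∈ F, wgt n ^ m * ‖c n‖ ≤ Real.sqrt (S * K) * M := by
    intro F
    have h1 : ∑ n ∈ F, (wgt n ^ p * ‖c n‖) ^ 2 ≤ (K : ℝ) * M ^ 2 := by
      have e : ∀ n, (wgt n ^ p * ‖c n‖) ^ 2
          ≤ 5 ^ (2 * p) * (‖c n‖ ^ 2 + ∑ d, (|(n d : ℝ)| ^ p * ‖c n‖) ^ 2) := fun n => by
        have h5 : ∀ (x : Fin 4 → ℝ), (∀ i, 0 ≤ x i) →
            (1 + ∑ i, x i) ^ (2 * p) ≤ 5 ^ (2 * p) * (1 + ∑ i, x i ^ (2 * p)) := fun x hx => by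
          obtain ⟨j, -, hj⟩ := Finset.exists_max_image Finset.univ x Finset.univ_nonempty
          have hsum : ∑ i, x i ≤ 4 * x j := by
            simpa using Finset.sum_le_sum fun i (hi : i ∈ Finset.univ) => hj i hi
          have hsx : x j ^ (2 * p) ≤ ∑ i, x i ^ (2 * p) :=
            Finset.single_le_sum (f := fun i => x i ^ (2 * p)) (fun i _ => pow_nonneg (hx i) _)
              (Finset.mem_univ j)
          have hn : 0 ≤ 1 + ∑ i, x i :=
            add_nonneg zero_le_one (Finset.sum_nonneg fun i _ => hx i)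
          have hn' : 0 ≤ ∑ i, x i ^ (2 * p) := Finset.sum_nonneg fun i _ => pow_nonneg (hx i) _
          rcases le_total (x j) 1 with h | h
          · calc (1 + ∑ i, x i) ^ (2 * p) ≤ (5 : ℝ) ^ (2 * p) :=
                  pow_le_pow_left₀ hn (by linarith) _
              _ ≤ _ := le_mul_of_one_le_right (by positivity) (le_add_of_nonneg_right hn')
          · calc (1 + ∑ i, x i) ^ (2 * p) ≤ (5 * x j) ^ (2 * p) :=
                  pow_le_pow_left₀ hn (by linarith) _
              _ = 5 ^ (2 * p) * x j ^ (2 * p) := mul_pow _ _ _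
              _ ≤ _ := mul_le_mul_of_nonneg_left (by linarith) (by positivity)
        have h := h5 (fun i => |(n i : ℝ)|) fun i => abs_nonneg _
        rw [mul_pow, ← pow_mul, mul_comm p 2]
        refine (mul_le_mul_of_nonneg_right h (sq_nonneg _)).trans_eq ?_
        simp only [mul_pow, ← pow_mul, mul_comm p 2, Finset.sum_mul, add_mul, mul_assoc, one_mul]
      refine (Finset.sum_le_sum fun n _ => e n).trans ?_
      rw [← Finset.mul_sum, Finset.sum_add_distrib, Finset.sum_comm]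
      have h4 := Finset.sum_le_sum fun d (_ : d ∈ Finset.univ) => hd d F
      simp only [Finset.sum_const, Finset.card_univ, Fintype.card_fin, nsmul_eq_mul] at h4
      simp only [K]
      push_cast at h4 ⊢
      rw [mul_assoc]
      exact mul_le_mul_of_nonneg_left (by linarith [h0 F]) (by positivity)
    refine (abs_le_of_sq_le_sq' ?_ (by positivity)).2
    calc (∑ n ∈ F, wgt n ^ m * ‖c n‖) ^ 2
        = (∑ n ∈ F, (wgt n ^ 3)⁻¹ * (wgt n ^ (m + 3) * ‖c n‖)) ^ 2 := by
          congr 1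
          refine Finset.sum_congr rfl fun n _ => ?_
          have := (wgt_pos n).ne'
          field_simp
          ring
      _ ≤ (∑ n ∈ F, ((wgt n ^ 3)⁻¹) ^ 2) * ∑ n ∈ F, (wgt n ^ (m + 3) * ‖c n‖) ^ 2 :=
          Finset.sum_mul_sq_le_sq_mul_sq _ _ _
      _ ≤ S * (K * M ^ 2) := by
          refine mul_le_mul ?_ (le_trans (Finset.sum_le_sum fun n _ => ?_) h1)
            (Finset.sum_nonneg fun n _ => sq_nonneg _) hS
          · simp only [inv_pow, ← pow_mul]
            exact summable_wgt.sum_le_tsum F fun n _ => inv_nonneg.2 (pow_nonneg (wgt_pos n).le 6)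
          · exact pow_le_pow_left₀ (mul_nonneg (pow_nonneg (wgt_pos n).le _) (norm_nonneg _))
              (mul_le_mul_of_nonneg_right (pow_le_pow_right₀ (one_le_wgt n) hp) (norm_nonneg _)) 2
      _ = _ := by rw [mul_pow, Real.sq_sqrt (by positivity)]; ring
  have hn : ∀ n, 0 ≤ wgt n ^ m * ‖c n‖ := fun n =>
    mul_nonneg (pow_nonneg (wgt_pos n).le _) (norm_nonneg _)
  have hsum := summable_of_sum_le hn hbound
  exact ⟨hsum, hsum.tsum_le_of_sum_le hbound⟩

/-- Rapid decay. -/
def Rapid (c : (Fin 4 → ℤ) → ℂ) : Prop := ∀ m : ℕ, Summable fun n => wgt n ^ m * ‖c n‖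

/-- The series. -/
noncomputable def syn (c : (Fin 4 → ℤ) → ℂ) (p : Pt) : ℂ := ∑' n, c n * Complex.exp (phase n p)

theorem Rapid.summable_norm {c : (Fin 4 → ℤ) → ℂ} (hc : Rapid c) : Summable fun n => ‖c n‖ := by
  simpa using hc 0

theorem Rapid.dmul {c : (Fin 4 → ℤ) → ℂ} (hc : Rapid c) (d : Fin 4) :
    Rapid fun n => Ext.dmul d n * c n := fun m => by
  refine ((hc (m + 1)).mul_left Real.pi).of_nonneg_of_le
    (fun n => mul_nonneg (pow_nonneg (wgt_pos n).le _) (norm_nonneg _)) fun n => ?_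
  rw [norm_mul, norm_dmul, pow_succ]
  have h : |(n d : ℝ)| ≤ wgt n := (Finset.single_le_sum (f := fun i => |(n i : ℝ)|)
    (fun _ _ => abs_nonneg _) (Finset.mem_univ d)).trans (le_add_of_nonneg_left zero_le_one)
  calc wgt n ^ m * (Real.pi * |(n d : ℝ)| * ‖c n‖)
      = Real.pi * (wgt n ^ m * (|(n d : ℝ)| * ‖c n‖)) := by ring
    _ ≤ Real.pi * (wgt n ^ m * (wgt n * ‖c n‖)) :=
        mul_le_mul_of_nonneg_left (mul_le_mul_of_nonneg_left
          (mul_le_mul_of_nonneg_right h (norm_nonneg _)) (pow_nonneg (wgt_pos n).le _)) Real.pi_pos.le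
    _ = _ := by ring

theorem norm_syn_le {c : (Fin 4 → ℤ) → ℂ} (hc : Rapid c) (p : Pt) :
    ‖syn c p‖ ≤ ∑' n, ‖c n‖ := by
  refine (norm_tsum_le_tsum_norm ?_).trans_eq ?_ <;>
    simp [norm_exp_phase, hc.summable_norm]

theorem hasFDerivAt_syn {c : (Fin 4 → ℤ) → ℂ} (hc : Rapid c) (p : Pt) :
    HasFDerivAt (syn c) (∑ d, syn (fun n => dmul d n * c n) p •
      Complex.ofRealCLM.comp (ContinuousLinearMap.proj d)) p := by
  have hd : ∀ n x, HasFDerivAt (fun q => c n * Complex.exp (phase n q))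
      (c n • (Complex.exp (phase n x) • phase n)) x := fun n x =>
    ((phase n).hasFDerivAt.cexp).const_mul (c n)
  set B : ℝ := ∑ d, ‖Complex.ofRealCLM.comp (ContinuousLinearMap.proj (R := ℝ) (φ := fun _ : Fin 4 => ℝ) d)‖
  have hb : ∀ n x, ‖c n • (Complex.exp (phase n x) • phase n)‖ ≤ Real.pi * B * (wgt n * ‖c n‖) := by
    intro n x
    rw [norm_smul, norm_smul, norm_exp_phase, one_mul]
    have h1 : ‖phase n‖ ≤ Real.pi * wgt n * B := by
      refine (norm_sum_le _ _).trans ?_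
      rw [Finset.mul_sum]
      refine Finset.sum_le_sum fun i _ => ?_
      rw [norm_smul]
      refine mul_le_mul_of_nonneg_right ?_ (norm_nonneg _)
      have h : |(n i : ℝ)| ≤ wgt n := (Finset.single_le_sum (f := fun i => |(n i : ℝ)|)
        (fun _ _ => abs_nonneg _) (Finset.mem_univ i)).trans (le_add_of_nonneg_left zero_le_one)
      simpa [abs_of_pos Real.pi_pos] using mul_le_mul_of_nonneg_left h Real.pi_pos.le
    calc ‖c n‖ * ‖phase n‖ ≤ ‖c n‖ * (Real.pi * wgt n * B) :=
          mul_le_mul_of_nonneg_left h1 (norm_nonneg _)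
      _ = _ := by ring
  have hu : Summable fun n => Real.pi * B * (wgt n * ‖c n‖) := by
    simpa using (hc 1).mul_left (Real.pi * B)
  have h0 : Summable fun n => c n * Complex.exp (phase n (0 : Pt)) :=
    Summable.of_norm (by simpa [norm_exp_phase] using hc.summable_norm)
  refine (hasFDerivAt_tsum hu hd hb h0 p).congr_fderiv (ContinuousLinearMap.ext fun v => ?_)
  have hsd : ∀ d, Summable fun n => dmul d n * c n * Complex.exp (phase n p) := fun d =>
    Summable.of_norm (by simpa [norm_exp_phase] using (hc.dmul d).summable_norm)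
  have hsv : Summable fun n => c n • (Complex.exp (phase n p) • phase n) :=
    Summable.of_norm_bounded hu fun n => hb n p
  rw [show (∑' n, c n • (Complex.exp (phase n p) • phase n)) v
      = ∑' n, (c n • (Complex.exp (phase n p) • phase n)) v from
    (ContinuousLinearMap.apply ℝ ℂ v).map_tsum hsv]
  simp only [_root_.sum_apply, _root_.smul_apply, ContinuousLinearMap.comp_apply,
    ContinuousLinearMap.proj_apply, Complex.ofRealCLM_apply, smul_eq_mul, syn]
  simp only [← tsum_mul_right]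
  rw [← Summable.tsum_finsetSum fun d _ => (hsd d).mul_right _]
  refine tsum_congr fun n => ?_
  rw [phase_apply n v, Finset.mul_sum, Finset.mul_sum]
  exact Finset.sum_congr rfl fun d _ => by simp only [dmul]; ring

theorem contDiff_syn {c : (Fin 4 → ℤ) → ℂ} (hc : Rapid c) : ContDiff ℝ ∞ (syn c) := by
  refine contDiff_infty.2 fun m => ?_
  induction m generalizing c with
  | zero =>
    refine contDiff_zero.2 ?_
    exact continuous_iff_continuousAt.2 fun p => (hasFDerivAt_syn hc p).continuousAt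
  | succ m ih =>
    rw [show ((m + 1 : ℕ) : WithTop ℕ∞) = (m : WithTop ℕ∞) + 1 by push_cast; rfl,
      contDiff_succ_iff_fderiv]
    refine ⟨fun p => (hasFDerivAt_syn hc p).differentiableAt, by simp, ?_⟩
    rw [show fderiv ℝ (syn c) = fun p => ∑ d, syn (fun n => dmul d n * c n) p •
      Complex.ofRealCLM.comp (ContinuousLinearMap.proj d) from
      funext fun p => (hasFDerivAt_syn hc p).fderiv]
    exact ContDiff.sum fun d _ => (ih (hc.dmul d)).smul contDiff_const

theorem coef_syn {c : (Fin 4 → ℤ) → ℂ} (hc : Rapid c) (m : Fin 4 → ℤ) : coef (syn c) m = c m := by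
  set T := fun n => c n • (UnitAddTorus.mFourierLp 2 n :
    Lp ℂ 2 (volume : Measure (UnitAddTorus (Fin 4))))
  have hs : Summable fun n => c n • (UnitAddTorus.mFourier (d := Fin 4) n) :=
    Summable.of_norm (by simpa [norm_smul, UnitAddTorus.mFourier_norm] using hc.summable_norm)
  have h1 := (ContinuousMap.toLp (E := ℂ) 2 (volume : Measure (UnitAddTorus (Fin 4))) ℂ).hasSum
    hs.hasSum
  simp only [map_smul] at h1
  set G := ∑' n, c n • UnitAddTorus.mFourier (d := Fin 4) n
  have h2 : UnitAddTorus.mFourierCoeff (ContinuousMap.toLp (E := ℂ) 2 volume ℂ G) m = c m := by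
    rw [← UnitAddTorus.mFourierBasis_repr, HilbertBasis.repr_apply_apply]
    have h3 := h1.mapL (innerSL ℂ (UnitAddTorus.mFourierBasis m :
      Lp ℂ 2 (volume : Measure (UnitAddTorus (Fin 4)))))
    simp only [innerSL_apply_apply] at h3
    rw [← h3.tsum_eq, tsum_eq_single m fun n hn => ?_]
    · rw [inner_smul_right, UnitAddTorus.coe_mFourierBasis,
        inner_self_eq_norm_sq_to_K, UnitAddTorus.orthonormal_mFourier.1 m]
      simp
    · rw [inner_smul_right, UnitAddTorus.coe_mFourierBasis,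
        UnitAddTorus.orthonormal_mFourier.2 hn.symm, mul_zero]
  rw [UnitAddTorus.mFourierCoeff_toLp] at h2
  rw [← mFourierCoeff_toT, ← h2]
  congr 1
  funext t
  show syn c (fun i => 2 * ((AddCircle.equivIoc 1 (-(1 / 2) : ℝ) (t i)) : ℝ)) = G t
  rw [show G t = ∑' n, (c n • UnitAddTorus.mFourier (d := Fin 4) n) t from
    (ContinuousMap.evalCLM ℂ t).map_tsum hs]
  refine tsum_congr fun n => ?_
  have h4 := mFourier_coe n (fun i => ((AddCircle.equivIoc 1 (-(1 / 2) : ℝ) (t i)) : ℝ))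
  simp only [AddCircle.coe_equivIoc] at h4
  rw [ContinuousMap.smul_apply, smul_eq_mul, h4]
  rfl

/-- The square distance on the cube to a series. -/
theorem sq_dist_syn {u : Pt → ℝ} (hu : Continuous u) {c : (Fin 4 → ℤ) → ℂ} (hc : Rapid c) :
    HasSum (fun n => ‖coef (fun p => (u p : ℂ)) n - c n‖ ^ 2)
      ((16 : ℝ)⁻¹ * ∫ p in per, ‖(u p : ℂ) - syn c p‖ ^ 2) := by
  have h1 : Continuous fun p => (u p : ℂ) := Complex.continuous_ofReal.comp hu
  have h2 := (contDiff_syn hc).continuous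
  have h := parseval (h1.sub h2)
  simp only [Pi.sub_apply] at h
  refine h.congr_fun fun n => ?_
  rw [show (fun p => (u p : ℂ)) - syn c = fun p => (u p : ℂ) - syn c p from rfl,
    coef_sub h1 h2, coef_syn hc]

end Vale.Agent.P204.General.Ext
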