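import Mathlib
import Vale.Agent.P204.General.Ext.Parts
import Vale.Agent.P204.General.Ext.Fourier

/-!
# P204, module C: finitely many Fourier modes and the gradient control the square norm
-/

open MeasureTheory Filter Set
open scoped ContDiff Topology InnerProductSpace

namespace Vale.Agent.P204.General.Ext

theorem sq_n0_real (f : Pt → ℝ) : n0 f ^ 2 = ∫ p, f p ^ 2 := by
  rw [sq_n0, ip]
  refine integral_congr_ae (Eventually.of_forall fun p => ?_)
  show ⟪f p, f p⟫_ℝ = _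
  rw [real_inner_self_eq_norm_sq, Real.norm_eq_abs, sq_abs]

theorem parseval_n0 {f : Pt → ℝ} (hf : Sm f) {r : ℝ} (hr : InBox r f) :
    HasSum (fun n => ‖coef (fun p => (f p : ℂ)) n‖ ^ 2) (n0 f ^ 2 / 16) := by
  rw [sq_n0_real, div_eq_inv_mul]
  exact parseval_real hf.smooth.continuous hr.1 hr.2

theorem sum_coef_le {f : Pt → ℝ} (hf : Sm f) {r : ℝ} (hr : InBox r f) (F : Finset (Fin 4 → ℤ)) :
    ∑ n ∈ F, ‖coef (fun p => (f p : ℂ)) n‖ ^ 2 ≤ n0 f ^ 2 / 16 :=
  sum_le_hasSum F (fun n _ => sq_nonneg _) (parseval_n0 hf hr)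

theorem coef_dd {f : Pt → ℝ} (hf : Sm f) {r : ℝ} (hr : InBox r f) (d : Fin 4) (n : Fin 4 → ℤ) :
    coef (fun p => ((dd d f p : ℝ) : ℂ)) n = dmul d n * coef (fun p => (f p : ℂ)) n :=
  coef_pd hf.smooth hr.1 hr.2 d n

theorem sq_norm_coef {f : Pt → ℝ} (hf : Sm f) {r : ℝ} (hr : InBox r f) (n : Fin 4 → ℤ) :
    16 * ‖coef (fun p => (f p : ℂ)) n‖ ^ 2
      = (∫ p, (4 : ℝ)⁻¹ * (Complex.exp (phase (-n) p)).re * f p) ^ 2
        + (∫ p, (4 : ℝ)⁻¹ * (Complex.exp (phase (-n) p)).im * f p) ^ 2 := by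
  have hi : Integrable fun p => Complex.exp (phase (-n) p) * (f p : ℂ) :=
    ((Complex.continuous_exp.comp (phase (-n)).continuous).mul
      (Complex.continuous_ofReal.comp hf.smooth.continuous)).integrable_of_hasCompactSupport
      ((hf.supp.comp_left (g := fun x : ℝ => (x : ℂ)) (by simp)).mul_left)
  have hre : ∫ p, (Complex.exp (phase (-n) p)).re * f p
      = (∫ p, Complex.exp (phase (-n) p) * (f p : ℂ)).re := by
    rw [← Complex.reCLM_apply, ← Complex.reCLM.integral_comp_comm hi]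
    simp
  have him : ∫ p, (Complex.exp (phase (-n) p)).im * f p
      = (∫ p, Complex.exp (phase (-n) p) * (f p : ℂ)).im := by
    rw [← Complex.imCLM_apply, ← Complex.imCLM.integral_comp_comm hi]
    simp
  rw [coef_ofReal hr.1 hr.2 n, norm_mul, mul_pow, Complex.sq_norm (∫ p, _), Complex.normSq_apply]
  simp only [mul_assoc, integral_const_mul, hre, him]
  norm_num
  ring

theorem modesStmt : ModesStmt := by
  intro r η hr hη
  obtain ⟨R, hR⟩ := exists_nat_gt ((η * Real.pi ^ 2)⁻¹)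
  have hηp : 0 < η * Real.pi ^ 2 := by positivity
  have hR0 : (0 : ℝ) < R := lt_trans (inv_pos.2 hηp) hR
  set F : Finset (Fin 4 → ℤ) := Fintype.piFinset fun _ => Finset.Icc (-(R : ℤ)) R
  let e := Fintype.equivFin (↥F × Bool)
  let g : ↥F × Bool → Pt → ℝ := fun z p => (4 : ℝ)⁻¹ *
    if z.2 then (Complex.exp (phase (-z.1.1) p)).re else (Complex.exp (phase (-z.1.1) p)).im
  refine ⟨_, fun j => g (e.symm j), fun j => ?_, fun u hu hin => ?_⟩
  · have hE : ContDiff ℝ ∞ fun p => Complex.exp (phase (-(e.symm j).1.1) p) :=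
      Complex.contDiff_exp.comp (phase _).contDiff
    refine contDiff_const.mul ?_
    by_cases hb : (e.symm j).2 <;> simp only [hb, if_true, if_false, Bool.false_eq_true]
    · exact Complex.reCLM.contDiff.comp hE
    · exact Complex.imCLM.contDiff.comp hE
  have hlow : ∑ n ∈ F, 16 * ‖coef (fun p => (u p : ℂ)) n‖ ^ 2
      = ∑ j, (∫ p, g (e.symm j) p * u p) ^ 2 := by
    rw [Equiv.sum_comp e.symm (fun z => (∫ p, g z p * u p) ^ 2), Fintype.sum_prod_type]
    simp only [Fintype.sum_bool]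
    rw [← Finset.sum_coe_sort F]
    exact Finset.sum_congr rfl fun n _ => by simp only [g, sq_norm_coef hu hin]; simp
  have hdd : ∀ d n, ‖coef (fun p => ((dd d u p : ℝ) : ℂ)) n‖ ^ 2
      = (Real.pi * |(n d : ℝ)|) ^ 2 * ‖coef (fun p => (u p : ℂ)) n‖ ^ 2 := fun d n => by
    rw [coef_dd hu hin, norm_mul, norm_dmul, mul_pow]
  have hinD : ∀ d, InBox r (dd d u) := fun d => hin.ddS d
  set D := ∑ d, n0 (dd d u) ^ 2
  have hD : 0 ≤ D := Finset.sum_nonneg fun d _ => sq_nonneg _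
  have key : ∀ n, n ∉ F → 16 * ‖coef (fun p => (u p : ℂ)) n‖ ^ 2
      ≤ 16 * η * ∑ d, ‖coef (fun p => ((dd d u p : ℝ) : ℂ)) n‖ ^ 2 := fun n hn => by
    simp only [F, Fintype.mem_piFinset, Finset.mem_Icc, not_forall] at hn
    obtain ⟨d, hd⟩ := hn
    have hnd : (R : ℝ) ≤ |(n d : ℝ)| := by
      have : (R : ℤ) ≤ |n d| := by
        rcases le_or_gt (-(R : ℤ)) (n d) with h | h
        · exact le_trans (le_of_lt (not_le.1 fun h' => hd ⟨h, h'⟩)) (le_abs_self _)
        · exact le_trans (by omega) (neg_le_abs _)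
      rw [← Int.cast_abs]; exact_mod_cast this
    have h1 : 1 ≤ η * (Real.pi * |(n d : ℝ)|) ^ 2 := by
      rw [inv_lt_iff_one_lt_mul₀ hηp] at hR
      have h2 : (R : ℝ) ≤ |(n d : ℝ)| ^ 2 := by
        have h3 : (1 : ℝ) ≤ R := by exact_mod_cast (Nat.cast_pos.1 hR0 : 0 < R)
        nlinarith
      rw [mul_pow]
      nlinarith
    refine le_trans ?_ (mul_le_mul_of_nonneg_left (Finset.single_le_sum
      (fun d _ => sq_nonneg (‖coef (fun p => ((dd d u p : ℝ) : ℂ)) n‖)) (Finset.mem_univ d))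
      (by positivity))
    rw [hdd]
    nlinarith [mul_le_mul_of_nonneg_right h1 (sq_nonneg (‖coef (fun p => (u p : ℂ)) n‖))]
  rw [← hlow]
  have hs : HasSum (fun n => 16 * ‖coef (fun p => (u p : ℂ)) n‖ ^ 2) (n0 u ^ 2) := by
    have := (parseval_n0 hu hin).mul_left 16
    rwa [mul_div_cancel₀ _ (by norm_num : (16:ℝ) ≠ 0)] at this
  refine hasSum_le_of_sum_le hs fun G => ?_
  rw [← Finset.sum_filter_add_sum_filter_not G (· ∈ F)]
  refine add_le_add (Finset.sum_le_sum_of_subset_of_nonneg (fun n hn => (Finset.mem_filter.1 hn).2)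
    fun n _ _ => by positivity) ?_
  refine (Finset.sum_le_sum fun n hn => key n (Finset.mem_filter.1 hn).2).trans ?_
  rw [← Finset.mul_sum, Finset.sum_comm, mul_comm (16 : ℝ) η, mul_assoc, Finset.mul_sum]
  refine mul_le_mul_of_nonneg_left (Finset.sum_le_sum fun d _ => ?_) hη.le
  have := sum_coef_le (hu.ddS d) (hinD d) (G.filter (· ∉ F))
  linarith

end Vale.Agent.P204.General.Ext
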