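import Mathlib
import Vale.Agent.P204.General.Ext.Modes

/-!
# P204, module C: smoothness of the limit of the approximate solutions

The Fourier coefficients converge; the bounds on difference quotients, as the step tends to zero,
give rapid decay of their limit, whose series is the smooth limit.
-/

open MeasureTheory Filter Set
open scoped ContDiff Topology InnerProductSpace

namespace Vale.Agent.P204.General.Ext

/-- The coefficient of a real function. -/
noncomputable def cf (f : Pt → ℝ) (n : Fin 4 → ℤ) : ℂ := coef (fun p => (f p : ℂ)) n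

theorem cf_sub {f g : Pt → ℝ} (hf : Sm f) (hg : Sm g) (n : Fin 4 → ℤ) :
    cf (f - g) n = cf f n - cf g n := by
  have h := coef_sub (f := fun p => (f p : ℂ)) (g := fun p => (g p : ℂ))
    (Complex.continuous_ofReal.comp hf.smooth.continuous)
    (Complex.continuous_ofReal.comp hg.smooth.continuous) n
  rw [cf, cf, cf, ← h]
  congr 1
  funext p
  simp

theorem norm_cf_le {f : Pt → ℝ} (hf : Sm f) {r : ℝ} (hr : InBox r f) (n : Fin 4 → ℤ) :
    ‖cf f n‖ ≤ n0 f := by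
  have h := sum_coef_le hf hr {n}
  simp only [Finset.sum_singleton] at h
  refine (sq_le_sq₀ (norm_nonneg _) (n0_nonneg f)).1 (h.trans ?_)
  linarith [sq_nonneg (n0 f)]

theorem InBox.subS {f g : Pt → ℝ} {r : ℝ} (hf : InBox r f) (hg : InBox r g) : InBox r (f - g) :=
  ⟨hf.1, fun p hp => by
    by_cases h : f p = 0
    · exact hg.2 p fun h' => hp (by simp [h, h'])
    · exact hf.2 p h⟩

theorem inBox_dq {f : Pt → ℝ} {r : ℝ} (hr : InBox r f) {h : ℝ} (hh : r + |h| < 1) (d : Fin 4) :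
    InBox (r + |h|) (dq h d f) := by
  refine ⟨hh, fun p hp => ?_⟩
  by_cases h1 : f (p + h • Pi.single d (1 : ℝ)) = 0
  · refine Metric.closedBall_subset_closedBall (le_add_of_nonneg_right (abs_nonneg h)) (hr.2 p ?_)
    intro h2
    simp [dq, trl, h1, h2] at hp
  · have h2 := mem_closedBall_zero_iff.1 (hr.2 _ h1)
    refine mem_closedBall_zero_iff.2 ?_
    calc ‖p‖ = ‖(p + h • Pi.single d (1 : ℝ)) - h • Pi.single d (1 : ℝ)‖ := by simp
      _ ≤ ‖p + h • Pi.single d (1 : ℝ)‖ + ‖h • Pi.single (M := fun _ => ℝ) d 1‖ := norm_sub_le _ _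
      _ ≤ r + |h| := add_le_add h2 (by simp [norm_smul, Pi.norm_single])

theorem cf_iter {f : Pt → ℝ} {r : ℝ} (hf : Sm f) (hr : InBox r f) (d : Fin 4) (h : ℝ) (k : ℕ)
    (hh : r + k * |h| < 1) :
    InBox (r + k * |h|) (dqL h (List.replicate k d) f) ∧
      ∀ n, cf (dqL h (List.replicate k d) f) n = qmul h d n ^ k * cf f n := by
  induction k generalizing f r with
  | zero => simpa [dqL] using hr
  | succ k ih =>
    push_cast at hh ⊢
    have h0 : 0 ≤ (k : ℝ) * |h| := mul_nonneg (Nat.cast_nonneg k) (abs_nonneg h)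
    have h1 : r + |h| < 1 := by linarith
    obtain ⟨i1, i2⟩ := ih (hf.dqS h d) (inBox_dq hr h1 d) (by linarith)
    simp only [List.replicate_succ, dqL]
    refine ⟨⟨hh, fun p hp => Metric.closedBall_subset_closedBall (by linarith) (i1.2 p hp)⟩,
      fun n => ?_⟩
    rw [i2, show cf (dq h d f) n = qmul h d n * cf f n from
      coef_quot hf.smooth.continuous hr.1 hr.2 h1 d n]
    ring

/-- The bounds pass to the limit of the coefficients and to the derivative. -/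
theorem sum_pow_le {r : ℝ} {u : ℕ → Pt → ℝ} {c : (Fin 4 → ℤ) → ℂ} {Kk : ℝ} {k : ℕ} {d : Fin 4}
    (hu : ∀ i, Sm (u i) ∧ InBox r (u i)) (hlim : ∀ n, Tendsto (fun i => cf (u i) n) atTop (𝓝 (c n)))
    (hk : ∀ h, h ≠ 0 → ∀ η > 0, ∀ᶠ i in atTop,
      n0 (dd d (dqL h (List.replicate k d) (u i))) ≤ Kk + η)
    (F : Finset (Fin 4 → ℤ)) :
    ∑ n ∈ F, (|(n d : ℝ)| ^ (k + 1) * ‖c n‖) ^ 2 ≤ (Kk / 4) ^ 2 := by
  have hr := (hu 0).2.1
  have hsmall : ∀ᶠ h in 𝓝[≠] (0 : ℝ), r + k * |h| < 1 :=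
    eventually_nhdsWithin_of_eventually_nhds (((continuous_const.add
      (continuous_const.mul continuous_abs)).tendsto' (0 : ℝ) r (by simp)).eventually
        (eventually_lt_nhds hr))
  have key : ∀ᶠ h in 𝓝[≠] (0 : ℝ),
      ∑ n ∈ F, (‖dmul d n‖ * ‖qmul h d n‖ ^ k * ‖c n‖) ^ 2 ≤ (Kk / 4) ^ 2 := by
    filter_upwards [hsmall, self_mem_nhdsWithin] with h hh hne
    have hb : ∀ η > 0, ∑ n ∈ F, (‖dmul d n‖ * ‖qmul h d n‖ ^ k * ‖c n‖) ^ 2
        ≤ ((Kk + η) / 4) ^ 2 := fun η hη => by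
      refine le_of_tendsto (tendsto_finsetSum F fun n _ =>
        ((tendsto_const_nhds.mul (hlim n).norm).pow 2)) ?_
      filter_upwards [hk h hne η hη] with i hi
      obtain ⟨i1, i2⟩ := cf_iter (hu i).1 (hu i).2 d h k hh
      have h2 := sum_coef_le (((hu i).1.dqLS h _).ddS d) (i1.ddS d) F
      refine le_trans (le_of_eq (Finset.sum_congr rfl fun n _ => ?_)) (h2.trans ?_)
      · rw [coef_dd ((hu i).1.dqLS h _) i1,
          show coef (fun p => ((dqL h (List.replicate k d) (u i) p : ℝ) : ℂ)) n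
            = qmul h d n ^ k * cf (u i) n from i2 n, norm_mul, norm_mul, norm_pow, mul_assoc]
      · rw [div_pow]; norm_num
        exact div_le_div_of_nonneg_right (pow_le_pow_left₀ (n0_nonneg _) hi 2) (by norm_num)
    have ht : Tendsto (fun η : ℝ => ((Kk + η) / 4) ^ 2) (𝓝[>] 0) (𝓝 ((Kk / 4) ^ 2)) :=
      tendsto_nhdsWithin_of_tendsto_nhds
        (((continuous_const.add continuous_id).div_const 4).pow 2 |>.tendsto' 0 _ (by simp))
    exact ge_of_tendsto ht (eventually_nhdsWithin_of_forall fun η hη => hb η hη)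
  have hl := le_of_tendsto (tendsto_finsetSum F fun n _ =>
    (((tendsto_const_nhds (x := ‖dmul d n‖)).mul ((tendsto_qmul d n).pow k)).mul
      (tendsto_const_nhds (x := ‖c n‖))).pow 2) key
  refine le_trans (Finset.sum_le_sum fun n _ => ?_) hl
  rw [norm_dmul, ← pow_succ']
  refine pow_le_pow_left₀ (mul_nonneg (pow_nonneg (abs_nonneg _) _) (norm_nonneg _))
    (mul_le_mul_of_nonneg_right (pow_le_pow_left₀ (abs_nonneg _)
      (le_mul_of_one_le_left (abs_nonneg _) (le_trans (by norm_num) Real.two_le_pi)) _)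
      (norm_nonneg _)) 2

theorem tendsto_dist_syn {r : ℝ} {v : ℕ → Pt → ℝ} (hv : ∀ i, Sm (v i) ∧ InBox r (v i))
    (hC : ∀ η > 0, ∀ᶠ z : ℕ × ℕ in atTop, n0 (v z.1 - v z.2) ≤ η) {c : (Fin 4 → ℤ) → ℂ}
    (hc : Rapid c) (hlim : ∀ n, Tendsto (fun i => cf (v i) n) atTop (𝓝 (c n))) :
    Tendsto (fun i => ∫ p in per, ‖(v i p : ℂ) - syn c p‖ ^ 2) atTop (𝓝 0) := by
  refine Metric.tendsto_atTop.2 fun ε hε => ?_
  obtain ⟨z₀, hz⟩ := eventually_atTop.1 (hC (Real.sqrt (ε / 2)) (Real.sqrt_pos.2 (half_pos hε)))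
  refine ⟨z₀.1, fun i hi => ?_⟩
  have hs := sq_dist_syn (hv i).1.smooth.continuous hc
  have hF : (16 : ℝ)⁻¹ * ∫ p in per, ‖(v i p : ℂ) - syn c p‖ ^ 2 ≤ ε / 2 / 16 := by
    refine hasSum_le_of_sum_le hs fun F => ?_
    refine le_of_tendsto (tendsto_finsetSum F fun n _ =>
      ((tendsto_const_nhds.sub (hlim n)).norm.pow 2)) ?_
    filter_upwards [eventually_ge_atTop z₀.2] with j hj
    have h2 := sum_coef_le ((hv i).1.sub (hv j).1) ((hv i).2.subS (hv j).2) F
    refine le_trans (le_of_eq (Finset.sum_congr rfl fun n _ => ?_)) (h2.trans ?_)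
    · rw [← cf, ← cf, cf_sub (hv i).1 (hv j).1]
    · refine div_le_div_of_nonneg_right ?_ (by norm_num)
      calc n0 (v i - v j) ^ 2 ≤ Real.sqrt (ε / 2) ^ 2 :=
            pow_le_pow_left₀ (n0_nonneg _) (hz (i, j) ⟨hi, hj⟩) 2
        _ = ε / 2 := Real.sq_sqrt (half_pos hε).le
  rw [Real.dist_0_eq_abs, abs_of_nonneg (setIntegral_nonneg measurableSet_per
    fun p _ => sq_nonneg _)]
  linarith

theorem tendsto_cut_syn {r : ℝ} {v : ℕ → Pt → ℝ} (hv : ∀ i, Sm (v i) ∧ InBox r (v i))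
    {c : (Fin 4 → ℤ) → ℂ} (hc : Rapid c)
    (hd : Tendsto (fun i => ∫ p in per, ‖(v i p : ℂ) - syn c p‖ ^ 2) atTop (𝓝 0))
    {g : Pt → ℝ} {r' : ℝ} (hg : ContDiff ℝ ∞ g) (hin : InBox r' g) :
    Tendsto (fun i => n0 fun p => g p * (v i p - (syn c p).re)) atTop (𝓝 0) := by
  obtain ⟨B, hB⟩ := (isCompact_closedBall (0 : Pt) 1).exists_bound_of_continuousOn hg.continuous.continuousOn
  have hsq : Tendsto (fun i => Real.sqrt (B ^ 2 * ∫ p in per, ‖(v i p : ℂ) - syn c p‖ ^ 2))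
      atTop (𝓝 0) := by simpa using (hd.const_mul (B ^ 2)).sqrt
  refine squeeze_zero (fun i => n0_nonneg _) (fun i => Real.le_sqrt_of_sq_le ?_) hsq
  have hcs := (contDiff_syn hc).continuous
  have hvi := (hv i).1.smooth.continuous
  have hout : ∀ p, p ∉ per → (g p * (v i p - (syn c p).re)) ^ 2 = 0 := fun p hp => by
    have : g p = 0 := by_contra fun h => hp (ball_subset_per hin.1 (hin.2 p h))
    simp [this]
  rw [sq_n0_real, ← setIntegral_eq_integral_of_forall_compl_eq_zero hout, ← integral_const_mul]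
  have hio : ∀ {f : Pt → ℝ}, Continuous f → IntegrableOn f per := fun hf =>
    (hf.continuousOn.integrableOn_compact isCompact_closure_per).mono_set per_subset
  refine setIntegral_mono_on (hio (by fun_prop)) (hio (by fun_prop)) measurableSet_per fun p hp => ?_
  rw [mul_pow]
  refine mul_le_mul ?_ ?_ (sq_nonneg _) (sq_nonneg _)
  · have h := hB p (per_subset hp)
    rw [Real.norm_eq_abs] at h
    calc g p ^ 2 = |g p| ^ 2 := (sq_abs _).symm
      _ ≤ B ^ 2 := pow_le_pow_left₀ (abs_nonneg _) h 2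
  · have h := Complex.abs_re_le_norm ((v i p : ℂ) - syn c p)
    simp only [Complex.sub_re, Complex.ofReal_re] at h
    calc (v i p - (syn c p).re) ^ 2 = |v i p - (syn c p).re| ^ 2 := (sq_abs _).symm
      _ ≤ _ := pow_le_pow_left₀ (abs_nonneg _) h 2

theorem dd_re_syn {c : (Fin 4 → ℤ) → ℂ} (hc : Rapid c) (d : Fin 4) :
    dd d (fun p => (syn c p).re) = fun p => (syn (fun n => dmul d n * c n) p).re := by
  funext p
  have h := Complex.reCLM.hasFDerivAt.comp p (hasFDerivAt_syn hc p)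
  rw [dd, show (fun p => (syn c p).re) = Complex.reCLM ∘ syn c from rfl, h.fderiv]
  simp [_root_.sum_apply, Pi.single_apply]

theorem norm_syn_dd_le {c : (Fin 4 → ℤ) → ℂ} (hc : Rapid c) (d e : Fin 4) (p : Pt) :
    ‖syn c p‖ ≤ ∑' n, wgt n ^ 2 * ‖c n‖ ∧
    ‖syn (fun n => dmul d n * c n) p‖ ≤ Real.pi * ∑' n, wgt n ^ 2 * ‖c n‖ ∧
    ‖syn (fun n => dmul d n * (dmul e n * c n)) p‖ ≤ Real.pi ^ 2 * ∑' n, wgt n ^ 2 * ‖c n‖ := by
  have hw : ∀ (d : Fin 4) n, |(n d : ℝ)| ≤ wgt n := fun d n =>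
    (Finset.single_le_sum (f := fun i => |(n i : ℝ)|) (fun _ _ => abs_nonneg _)
      (Finset.mem_univ d)).trans (le_add_of_nonneg_left zero_le_one)
  have h1 : ∀ n, 1 ≤ wgt n ^ 2 := fun n => one_le_pow₀ (one_le_wgt n)
  have hm : ∀ (d : Fin 4) n, ‖dmul d n‖ ≤ Real.pi * wgt n := fun d n => by
    rw [norm_dmul]; exact mul_le_mul_of_nonneg_left (hw d n) Real.pi_pos.le
  refine ⟨(norm_syn_le hc p).trans (hc.summable_norm.tsum_le_tsum
      (fun n => le_mul_of_one_le_left (norm_nonneg _) (h1 n)) (hc 2)), ?_, ?_⟩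
  · refine (norm_syn_le (hc.dmul d) p).trans ?_
    rw [← tsum_mul_left]
    refine (hc.dmul d).summable_norm.tsum_le_tsum (fun n => ?_) ((hc 2).mul_left _)
    rw [norm_mul, ← mul_assoc]
    refine mul_le_mul_of_nonneg_right ((hm d n).trans (mul_le_mul_of_nonneg_left ?_ Real.pi_pos.le))
      (norm_nonneg _)
    exact le_self_pow₀ (one_le_wgt n) two_ne_zero
  · refine (norm_syn_le ((hc.dmul e).dmul d) p).trans ?_
    rw [← tsum_mul_left]
    refine ((hc.dmul e).dmul d).summable_norm.tsum_le_tsum (fun n => ?_) ((hc 2).mul_left _)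
    rw [norm_mul, norm_mul, ← mul_assoc, ← mul_assoc, ← mul_pow, sq]
    exact mul_le_mul_of_nonneg_right (mul_le_mul (hm d n) (hm e n) (norm_nonneg _)
      (mul_nonneg Real.pi_pos.le (wgt_pos n).le)) (norm_nonneg _)

theorem limitStmt : LimitStmt := by
  obtain ⟨C₂, hC2, hC₂⟩ := exists_weighted_le 2 5 (by norm_num)
  have hπ : (1 : ℝ) ≤ Real.pi := le_trans (by norm_num) Real.two_le_pi
  refine ⟨Real.pi ^ 2 * C₂, by positivity, fun r u K hu hC h0 hk => ?_⟩
  have hC0 : ∀ η > 0, ∀ᶠ z : ℕ × ℕ in atTop, n0 (u z.1 - u z.2) ≤ η := fun η hη =>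
    (hC η hη).mono fun z hz => le_trans (le_add_of_nonneg_right
      (Finset.sum_nonneg fun d _ => n0_nonneg _)) hz
  have hCd : ∀ d, ∀ η > 0, ∀ᶠ z : ℕ × ℕ in atTop,
      n0 (dd d (u z.1) - dd d (u z.2)) ≤ η := fun d η hη => (hC η hη).mono fun z hz => by
    rw [← dd_sub d (hu _).1 (hu _).1]
    exact (Finset.single_le_sum (fun d _ => n0_nonneg (dd d (u z.1 - u z.2)))
      (Finset.mem_univ d)).trans (le_trans (le_add_of_nonneg_left (n0_nonneg _)) hz)
  have hcau : ∀ n, ∃ c, Tendsto (fun i => cf (u i) n) atTop (𝓝 c) := fun n => by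
    refine cauchySeq_tendsto_of_complete (Metric.cauchySeq_iff'.2 fun ε hε => ?_)
    obtain ⟨z₀, hz⟩ := eventually_atTop.1 (hC0 (ε / 2) (half_pos hε))
    refine ⟨max z₀.1 z₀.2, fun i hi => ?_⟩
    rw [dist_eq_norm, ← cf_sub (hu i).1 (hu _).1]
    refine ((norm_cf_le ((hu i).1.sub (hu _).1) ((hu i).2.subS (hu _).2) n).trans
      (hz (i, max z₀.1 z₀.2) ⟨le_trans (le_max_left _ _) hi, le_max_right _ _⟩)).trans_lt
      (half_lt_self hε)
  choose c hlim using hcau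
  have hnn : ∀ {x : ℝ} {f : ℕ → ℝ}, (∀ i, 0 ≤ f i) → (∀ η > 0, ∀ᶠ i in atTop, f i ≤ x + η) →
      0 ≤ x := fun {x f} hf h => le_of_forall_pos_le_add fun η hη => by
    obtain ⟨i, hi⟩ := (h η hη).exists
    linarith [hf i]
  have hK0 : 0 ≤ K 0 := hnn (fun i => n0_nonneg _) h0
  have hKk : ∀ k, 0 ≤ K k := fun k => hnn (fun i => n0_nonneg _) (hk k 0 1 one_ne_zero)
  have hsum0 : ∀ F : Finset (Fin 4 → ℤ), ∑ n ∈ F, ‖c n‖ ^ 2 ≤ (K 0 / 4) ^ 2 := fun F => by
    have ht : Tendsto (fun η : ℝ => ((K 0 + η) / 4) ^ 2) (𝓝[>] 0) (𝓝 ((K 0 / 4) ^ 2)) :=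
      tendsto_nhdsWithin_of_tendsto_nhds
        (((continuous_const.add continuous_id).div_const 4).pow 2 |>.tendsto' 0 _ (by simp))
    refine ge_of_tendsto ht (eventually_nhdsWithin_of_forall fun η hη => ?_)
    refine le_of_tendsto (tendsto_finsetSum F fun n _ => (hlim n).norm.pow 2) ?_
    filter_upwards [h0 η hη] with i hi
    refine (sum_coef_le (hu i).1 (hu i).2 F).trans ?_
    rw [div_pow]; norm_num
    exact div_le_div_of_nonneg_right (pow_le_pow_left₀ (n0_nonneg _) hi 2) (by norm_num)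
  have hsumk : ∀ k d (F : Finset (Fin 4 → ℤ)),
      ∑ n ∈ F, (|(n d : ℝ)| ^ (k + 1) * ‖c n‖) ^ 2 ≤ (K k / 4) ^ 2 := fun k d F =>
    sum_pow_le hu hlim (hk k d) F
  have hM : ∀ k, 0 ≤ (K 0 + K k) / 4 := fun k => div_nonneg (add_nonneg hK0 (hKk k)) (by norm_num)
  have hM0 : ∀ k, ∀ F : Finset (Fin 4 → ℤ), ∑ n ∈ F, ‖c n‖ ^ 2 ≤ ((K 0 + K k) / 4) ^ 2 :=
    fun k F => (hsum0 F).trans (pow_le_pow_left₀ (by linarith) (by linarith [hKk k]) 2)
  have hMk : ∀ k d (F : Finset (Fin 4 → ℤ)),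
      ∑ n ∈ F, (|(n d : ℝ)| ^ (k + 1) * ‖c n‖) ^ 2 ≤ ((K 0 + K k) / 4) ^ 2 :=
    fun k d F => (hsumk k d F).trans (pow_le_pow_left₀ (by linarith [hKk k]) (by linarith) 2)
  have hrap : Rapid c := fun m => by
    obtain ⟨C, -, hC⟩ := exists_weighted_le m (m + 3) le_rfl
    exact (hC c _ (hM (m + 2)) (hM0 (m + 2)) (hMk (m + 2))).1
  have hB : ∑' n, wgt n ^ 2 * ‖c n‖ ≤ C₂ * (K 0 + K 4) :=
    ((hC₂ c _ (hM 4) (hM0 4) (hMk 4)).2).trans
      (mul_le_mul_of_nonneg_left (by linarith [hKk 4]) hC2)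
  have hd0 := tendsto_dist_syn hu hC0 hrap hlim
  have hud : ∀ d i, Sm (dd d (u i)) ∧ InBox r (dd d (u i)) := fun d i =>
    ⟨(hu i).1.ddS d, (hu i).2.ddS d⟩
  have hlimd : ∀ d n, Tendsto (fun i => cf (dd d (u i)) n) atTop (𝓝 (dmul d n * c n)) := fun d n =>
    ((hlim n).const_mul (dmul d n)).congr fun i => (coef_dd (hu i).1 (hu i).2 d n).symm
  have hdd := fun d => tendsto_dist_syn (hud d) (hCd d) (hrap.dmul d) (hlimd d)
  have hs : ∀ {e : (Fin 4 → ℤ) → ℂ}, Rapid e → ContDiff ℝ ∞ fun p => (syn e p).re := fun he =>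
    Complex.reCLM.contDiff.comp (contDiff_syn he)
  refine ⟨fun p => (syn c p).re, hs hrap, fun th r' hth hin => ⟨tendsto_cut_syn hu hrap hd0 hth hin,
    fun d => ?_⟩, fun p d e => ?_⟩
  · have hsth : Sm th := ⟨hth, hin.supp⟩
    have e : ∀ i, dd d (fun p => th p * (u i p - (syn c p).re))
        = (fun p => dd d th p * (u i p - (syn c p).re))
          + fun p => th p * (dd d (u i) p - (syn (fun n => dmul d n * c n) p).re) := fun i => by
      funext p
      have h1 := (hth.differentiable (by norm_num)) p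
      have h2 := ((hu i).1.smooth.differentiable (by norm_num)) p
      have h3 := ((hs hrap).differentiable (by norm_num)) p
      have h4 := congrFun (dd_re_syn hrap d) p
      simp only [dd] at h4 ⊢
      rw [fderiv_fun_mul h1 (h2.fun_sub h3), fderiv_fun_sub h2 h3]
      simp only [Pi.add_apply, _root_.add_apply, _root_.smul_apply, _root_.sub_apply, smul_eq_mul,
        h4]
      ring
    simp only [e]
    have hw : ∀ {g : Pt → ℝ} {f s : Pt → ℝ}, Sm g → ContDiff ℝ ∞ f → ContDiff ℝ ∞ s →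
        Sm fun p => g p * (f p - s p) := fun hg hf hs =>
      ⟨hg.smooth.mul (hf.sub hs), hg.supp.mul_right⟩
    have hlim0 := (tendsto_cut_syn hu hrap hd0 (hsth.ddS d).smooth (hin.ddS d)).add
      (tendsto_cut_syn (hud d) (hrap.dmul d) (hdd d) hth hin)
    rw [add_zero] at hlim0
    exact squeeze_zero (fun i => n0_nonneg _) (fun i => n0_add_le
      (hw (hsth.ddS d) (hu i).1.smooth (hs hrap)) (hw hsth (hud d i).1.smooth (hs (hrap.dmul d)))) hlim0
  · obtain ⟨b0, b1, b2⟩ := norm_syn_dd_le hrap d e p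
    have hT : 0 ≤ ∑' n, wgt n ^ 2 * ‖c n‖ :=
      tsum_nonneg fun n => mul_nonneg (pow_nonneg (wgt_pos n).le _) (norm_nonneg _)
    have hπ2 : Real.pi ≤ Real.pi ^ 2 := le_self_pow₀ hπ two_ne_zero
    have hfin : Real.pi ^ 2 * ∑' n, wgt n ^ 2 * ‖c n‖ ≤ Real.pi ^ 2 * C₂ * (K 0 + K 4) := by
      rw [mul_assoc]; exact mul_le_mul_of_nonneg_left hB (sq_nonneg _)
    refine ⟨((Complex.abs_re_le_norm _).trans b0).trans ((le_mul_of_one_le_left hT
      (hπ.trans hπ2)).trans hfin), ?_, ?_⟩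
    · rw [dd_re_syn hrap d]
      exact ((Complex.abs_re_le_norm _).trans b1).trans
        ((mul_le_mul_of_nonneg_right hπ2 hT).trans hfin)
    · rw [dd_re_syn hrap e, dd_re_syn (hrap.dmul e) d]
      exact ((Complex.abs_re_le_norm _).trans b2).trans hfin

end Vale.Agent.P204.General.Ext
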