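import Mathlib
import Vale.Agent.P204.General.Basic.Stokes
import Vale.Agent.P204.General.Ext.Solve
import Vale.Agent.P204.General.Ext.Bound

/-!
# P204, module C: the operator in the charts
-/

open MeasureTheory Matrix Filter Set
open scoped ContDiff Topology InnerProductSpace

namespace Vale.Agent.P204.General

open Vale.Agent.P204.Torus Ext

variable {N K : ℕ} (A : Atlas N K)

open Classical in
/-- A function in the chart `c`, moved to the manifold and extended by zero. -/
noncomputable def Atlas.pushS (c : Fin K) (G : Pt → ℝ) (x : Amb N) : ℝ :=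
  if x ∈ A.psi c '' box then G (A.phi c x) else 0

namespace Ext

theorem pushS_psi (c : Fin K) (G : Pt → ℝ) {p : Pt} (hp : p ∈ box) :
    A.pushS c G (A.psi c p) = G p := by
  rw [Atlas.pushS, if_pos ⟨p, hp, rfl⟩, A.phi_psi c hp]

theorem pushS_zero {c : Fin K} {G : Pt → ℝ} {r : ℝ} (hr : InBox r G) {x : Amb N}
    (hx : x ∉ A.psi c '' Metric.closedBall 0 r) : A.pushS c G x = 0 := by
  by_cases h : x ∈ A.psi c '' box
  · obtain ⟨p, hp, rfl⟩ := h
    rw [pushS_psi A c G hp]
    exact by_contra fun h' => hx ⟨p, hr.2 p h', rfl⟩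
  · rw [Atlas.pushS, if_neg h]

theorem eventually_notMem {c e : Fin K} {r : ℝ} {p : Pt} (hp : p ∈ box)
    (h : A.psi e p ∉ A.psi c '' Metric.closedBall 0 r) :
    ∀ᶠ y in 𝓝 p, y ∈ box ∧ A.psi e y ∉ A.psi c '' Metric.closedBall 0 r := by
  filter_upwards [isOpen_box.mem_nhds hp, (A.psi_cont e).continuousAt.preimage_mem_nhds
    ((((isCompact_closedBall (0 : Pt) r).image (A.psi_cont c)).isClosed.isOpen_compl).mem_nhds h)]
    with y hy hy'
  exact ⟨hy, hy'⟩

theorem contDiff_trans (c e : Fin K) : ContDiff ℝ ∞ (A.trans c e) :=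
  (Matrix.mulVecLin (A.L c)).toContinuousLinearMap.contDiff.comp
    ((A.psi_smooth e).sub contDiff_const)

theorem image_closedBall_subset {c : Fin K} {r : ℝ} (hr : r < 1) :
    A.psi c '' Metric.closedBall 0 r ⊆ A.psi c '' box :=
  Set.image_mono (Metric.closedBall_subset_ball hr)

theorem isFunX_pushS {c : Fin K} {G : Pt → ℝ} {r : ℝ} (hG : ContDiffOn ℝ ∞ G box)
    (hr : InBox r G) : IsFunX A (A.pushS c G) := by
  intro e p hp
  refine ContDiffAt.contDiffWithinAt ?_
  by_cases h : A.psi e p ∈ A.psi c '' box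
  · refine ((hG.contDiffAt (isOpen_box.mem_nhds (A.phi_mem c h))).comp p
      (contDiff_trans A c e).contDiffAt).congr_of_eventuallyEq ?_
    filter_upwards [A.psi_trans_eventually c e hp h] with y hy
    show A.pushS c G (A.psi e y) = G (A.phi c (A.psi e y))
    rw [Atlas.pushS, if_pos hy.2]
  · refine contDiffAt_const (c := (0 : ℝ)).congr_of_eventuallyEq ?_
    filter_upwards [eventually_notMem A hp fun h' => h (image_closedBall_subset A hr.1 h')] with y hy
    exact pushS_zero A hr hy.2

theorem continuousOn_funX {f : Amb N → ℝ} (hf : IsFunX A f) : ContinuousOn f A.X :=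
  continuousOn_of_charts A fun c => (hf c).continuousOn

theorem pushF_skew (c : Fin K) (z : Pt → Fm) (x : Amb N) :
    (A.pushF c z x)ᵀ = -A.pushF c z x := by
  by_cases h : x ∈ A.psi c '' box
  · simp only [Atlas.pushF, if_pos h, Atlas.push]
    exact skew_conj' (toM_skew _) _
  · simp [Atlas.pushF, h]

theorem pull_pushF_self (c : Fin K) (z : Pt → Fm) {p : Pt} (hp : p ∈ box) :
    A.pull c (A.pushF c z) p = toM (z p) := by
  simp only [Atlas.pull, Atlas.pushF, if_pos (Set.mem_image_of_mem (A.psi c) hp), Atlas.push,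
    Atlas.pullAt, A.phi_psi c hp]
  calc (A.dmat c p)ᵀ * ((A.L c)ᵀ * toM (z p) * A.L c) * A.dmat c p
      = (A.L c * A.dmat c p)ᵀ * toM (z p) * (A.L c * A.dmat c p) := by
        simp only [transpose_mul, Matrix.mul_assoc]
    _ = _ := by rw [A.L_mul_dmat c hp]; simp

theorem pull_pushF_zero {c e : Fin K} {z : Pt → Fm} {r : ℝ} (hr : InBox r z) {p : Pt}
    (h : A.psi e p ∉ A.psi c '' Metric.closedBall 0 r) : A.pull e (A.pushF c z) p = 0 := by
  by_cases h' : A.psi e p ∈ A.psi c '' box
  · obtain ⟨y, hy, he⟩ := h'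
    have hz : z y = 0 := by_contra fun h0 => h ⟨y, hr.2 y h0, he⟩
    have h7 : toM (0 : Fm) = 0 := by ext i k; fin_cases i <;> fin_cases k <;> simp [toM]
    simp [Atlas.pull, Atlas.pushF, show A.psi e p ∈ A.psi c '' box from ⟨y, hy, he⟩,
      Atlas.push, ← he, A.phi_psi c hy, hz, h7, Atlas.pullAt]
  · simp [Atlas.pull, Atlas.pullAt, Atlas.pushF, h']

theorem isTestX_pushF {c : Fin K} {z : Pt → Fm} {r : ℝ} (hz : Sm z) (hr : InBox r z) :
    IsTestX A (A.pushF c z) := by
  refine ⟨pushF_skew A c z, fun e i k p hp => ContDiffAt.contDiffWithinAt ?_⟩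
  by_cases h : A.psi e p ∈ A.psi c '' box
  · have hM : ∀ a b, ContDiff ℝ ∞ fun y => toM (z (A.trans c e y)) a b := fun a b => by
      have hz' : ∀ j : Fin 6, ContDiff ℝ ∞ fun y => z (A.trans c e y) j := fun j =>
        ((EuclideanSpace.proj j : Fm →L[ℝ] ℝ).contDiff.comp hz.smooth).comp (contDiff_trans A c e)
      fin_cases a <;> fin_cases b <;> simp [toM] <;>
        first
          | exact hz' _
          | exact (hz' _).neg
          | exact contDiff_const
    have hT : ∀ a b, ContDiff ℝ ∞ fun y => (A.L c * A.dmat e y) a b := fun a b => by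
      simp only [Matrix.mul_apply]
      exact ContDiff.sum fun l _ => contDiff_const.mul (A.dmat_smooth e l b)
    refine ContDiffAt.congr_of_eventuallyEq (f := fun y =>
      ((A.L c * A.dmat e y)ᵀ * toM (z (A.trans c e y)) * (A.L c * A.dmat e y)) i k) ?_ ?_
    · simp only [Matrix.mul_apply (M := _ * _), Matrix.mul_apply (M := (_ : Matrix _ _ ℝ)ᵀ),
        transpose_apply]
      exact (ContDiff.sum fun l _ => (ContDiff.sum fun l' _ => (hT l' i).mul (hM l' l)).mul
        (hT l k)).contDiffAt
    · filter_upwards [A.psi_trans_eventually c e hp h] with y hy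
      rw [A.pull_trans c e hy.1 hy.2, show A.pull c (A.pushF c z) (A.trans c e y)
        = toM (z (A.trans c e y)) from pull_pushF_self A c z (A.phi_mem c hy.2)]
  · refine contDiffAt_const (c := (0 : ℝ)).congr_of_eventuallyEq ?_
    filter_upwards [eventually_notMem A hp fun h' => h (image_closedBall_subset A hr.1 h')] with y hy
    simp [pull_pushF_zero A hr hy.2]

/-- Integration in a chart of a function supported well inside it. -/
theorem integral_eq_chart' {J : Amb N → MN N} (hJ : IsACS A J) (e : Fin K) {r : ℝ} (hr : r < 1)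
    {h : Amb N → ℝ} (hc : ContinuousOn h A.X)
    (h0 : ∀ x ∈ A.X, x ∉ A.psi e '' Metric.closedBall 0 r → h x = 0) :
    ∫ x, h x ∂A.vol = ∫ q in box, A.dens e q * h (A.psi e q) := by
  have hint := integrable_of_continuousOn A hc
  have hsub := image_closedBall_subset A (c := e) hr
  have hmap : ∀ c, Integrable h ((chartVol A c).map (A.psi c)) := fun c =>
    hint.mono_measure (by
      rw [vol_eq]
      exact Finset.single_le_sum (f := fun c => (chartVol A c).map (A.psi c))
        (fun _ _ => Measure.zero_le _) (Finset.mem_univ c))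
  rw [vol_eq, integral_finsetSum_measure fun c _ => hmap c]
  have hterm : ∀ c, ∫ x, h x ∂(chartVol A c).map (A.psi c) =
      ∫ q in box, A.chi c (A.psi e q) * (A.L c * A.dmat e q).det * h (A.psi e q) := fun c => by
    have hm : Measurable fun p => ENNReal.ofReal (A.chi c (A.psi c p)) :=
      (ENNReal.continuous_ofReal.comp
        ((A.chi_smooth c).continuous.comp (A.psi_cont c))).measurable
    rw [integral_map (A.psi_cont c).measurable.aemeasurable (hmap c).aestronglyMeasurable, chartVol,
      integral_withDensity_eq_integral_toReal_smul hm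
        (Eventually.of_forall fun _ => ENNReal.ofReal_lt_top)]
    simp only [ENNReal.toReal_ofReal (A.chi_nonneg c _), smul_eq_mul]
    rw [setIntegral_eq_of_subset_of_forall_sdiff_eq_zero isOpen_box.measurableSet
      (s := overlap A c e) Set.inter_subset_left fun p hp => by
        rw [h0 _ (A.psi_mem c p hp.1) fun hmem => hp.2 ⟨hp.1, hsub hmem⟩, mul_zero]]
    conv_lhs => rw [← trans_image A c e]
    rw [integral_image_eq_integral_abs_det_fderiv_smul volume
      (isOpen_overlap A e c).measurableSet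
      (fun q _ => (trans_hasFDeriv A c e q).hasFDerivWithinAt) (trans_injOn A c e)]
    rw [setIntegral_eq_of_subset_of_forall_sdiff_eq_zero isOpen_box.measurableSet
      (s := overlap A e c) Set.inter_subset_left fun q hq => by
        by_cases hχ : A.chi c (A.psi e q) = 0
        · simp [hχ]
        · exact absurd ⟨hq.1, A.chi_image (A.psi_mem e q hq.1) hχ⟩ hq.2]
    refine setIntegral_congr_fun (isOpen_overlap A e c).measurableSet fun q hq => ?_
    simp only [det_mulVecLin, smul_eq_mul, Atlas.trans, A.psi_phi c hq.2]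
    rw [abs_of_pos (det_trans_pos A hJ c e hq.1 hq.2)]
    ring
  simp only [hterm]
  rw [← integral_finsetSum _ fun c _ => ?_]
  · exact setIntegral_congr_fun isOpen_box.measurableSet fun q _ => by
      simp only [Atlas.dens, Finset.sum_mul]
  · have hg : ContinuousOn
        (fun q => A.chi c (A.psi e q) * (A.L c * A.dmat e q).det * h (A.psi e q)) box := by
      refine ((((A.chi_smooth c).continuous.comp (A.psi_cont e)).mul
        (Continuous.matrix_det ?_)).continuousOn).mul
        (hc.comp (A.psi_cont e).continuousOn fun q hq => A.psi_mem e q hq)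
      have := fun a i => (A.dmat_smooth e a i).continuous
      refine continuous_matrix fun i k => ?_
      simp only [Matrix.mul_apply]
      fun_prop
    have h1 := (hg.mono (Metric.closedBall_subset_ball hr)).integrableOn_compact (μ := volume)
      (isCompact_closedBall (0 : Pt) r)
    exact IntegrableOn.of_forall_sdiff_eq_zero h1 isOpen_box.measurableSet fun q hq => by
      rw [h0 _ (A.psi_mem e q hq.1) fun ⟨p, hp, he⟩ => hq.2 (by
        rw [← A.phi_psi e hq.1, ← he, A.phi_psi e (Metric.closedBall_subset_ball hr hp)]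
        exact hp), mul_zero]

/-- Stokes in a chart, for a form which is not closed. -/
theorem integral_wedge_dOne {γ : Pt → Pt} (hγ : ∀ k, ContDiff ℝ ∞ fun q => γ q k)
    (hγs : ∀ k, HasCompactSupport fun q => γ q k) {u : Pt → Fm} (hu : Sm u) :
    ∫ q, wedge (dOne γ q) (toM (u q)) = ∫ q, ∑ m, γ q m * dop u q m := by
  set F : Fin 4 → Pt → ℝ := ![fun q => γ q 1 * u q 5 - γ q 2 * u q 4 + γ q 3 * u q 3,
    fun q => -(γ q 0 * u q 5 - γ q 2 * u q 2 + γ q 3 * u q 1),
    fun q => γ q 0 * u q 4 - γ q 1 * u q 2 + γ q 3 * u q 0,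
    fun q => -(γ q 0 * u q 3 - γ q 1 * u q 1 + γ q 2 * u q 0)]
  have hu' : ∀ j : Fin 6, ContDiff ℝ ∞ fun q => u q j := fun j =>
    (EuclideanSpace.proj j : Fm →L[ℝ] ℝ).contDiff.comp hu.smooth
  have hp : ∀ m j, ContDiff ℝ ∞ fun q => γ q m * u q j := fun m j => (hγ m).mul (hu' j)
  have hFs : ∀ i, ContDiff ℝ ∞ (F i) := fun i => by
    fin_cases i
    · exact ((hp 1 5).sub (hp 2 4)).add (hp 3 3)
    · exact (((hp 0 5).sub (hp 2 2)).add (hp 3 1)).neg
    · exact ((hp 0 4).sub (hp 1 2)).add (hp 3 0)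
    · exact (((hp 0 3).sub (hp 1 1)).add (hp 2 0)).neg
  have hFc : ∀ i, HasCompactSupport (F i) := fun i => hu.supp.mono fun q hq => by
    intro h
    refine hq ?_
    fin_cases i <;> simp [F, h]
  have key : ∀ q, wedge (dOne γ q) (toM (u q))
      = ∑ i, pd i (F i) q + ∑ m, γ q m * dop u q m := fun q => by
    have dg : ∀ k, DifferentiableAt ℝ (fun p => γ p k) q :=
      fun k => ((hγ k).differentiable (by norm_num)).differentiableAt
    have du : ∀ j : Fin 6, DifferentiableAt ℝ (fun p => u p j) q := fun j =>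
      ((hu' j).differentiable (by norm_num)).differentiableAt
    have dp : ∀ m j, DifferentiableAt ℝ (fun p => γ p m * u p j) q :=
      fun m j => (dg m).mul (du j)
    have hdd : ∀ i (j : Fin 6), pd i (fun p => u p j) q = dd i u q j := fun i j =>
      congr_fun (dd_comp (EuclideanSpace.proj j : Fm →L[ℝ] ℝ) i hu) q
    have hneg : ∀ i (f : Pt → ℝ), pd i (fun p => -f p) q = -pd i f q := fun i f => by
      rw [pd, fderiv_fun_neg]; rfl
    have hadd : ∀ i (f g k : Pt → ℝ), DifferentiableAt ℝ f q → DifferentiableAt ℝ g q →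
        DifferentiableAt ℝ k q →
        pd i (fun p => f p - g p + k p) q = pd i f q - pd i g q + pd i k q :=
      fun i f g k hf hg hk => by
        rw [pd, fderiv_fun_add (hf.fun_sub hg) hk, fderiv_fun_sub hf hg]
        rfl
    simp only [Fin.sum_univ_four, F, Matrix.cons_val_zero, Matrix.cons_val_one, Matrix.cons_val,
      hneg, hadd _ _ _ _ (dp _ _) (dp _ _) (dp _ _), pd_mul_at _ (dg _) (du _), hdd]
    simp [wedge, dOne, toM, dop]
    ring
  have hpd : ∀ i, Integrable fun q => pd i (F i) q := fun i =>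
    (((hFs i).continuous_fderiv (by norm_num)).clm_apply
      continuous_const).integrable_of_hasCompactSupport
      (((hFc i).fderiv (𝕜 := ℝ)).comp_left (g := fun T : Pt →L[ℝ] ℝ => T (Pi.single i 1)) rfl)
  have hrest : Integrable fun q => ∑ m, γ q m * dop u q m := integrable_finsetSum _ fun m _ =>
    ((hγ m).continuous.mul ((EuclideanSpace.proj m : D4 →L[ℝ] ℝ).continuous.comp
      (sm_dop hu).smooth.continuous)).integrable_of_hasCompactSupport (hγs m).mul_right
  simp only [key]
  rw [integral_add (integrable_finsetSum _ fun i _ => hpd i) hrest,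
    integral_finsetSum _ fun i _ => hpd i,
    Finset.sum_eq_zero fun i _ => integral_pd_eq_zero (hFs i) (hFc i) i, zero_add]

theorem contDiffOn_dop {u : Pt → Fm} (hu : ContDiffOn ℝ ∞ u box) (m : Fin 4) :
    ContDiffOn ℝ ∞ (fun p => dop u p m) box := by
  have h : ∀ d, ContDiffOn ℝ ∞ (fun p => dd d u p) box := fun d =>
    (hu.fderiv_of_isOpen isOpen_box (by simp)).clm_apply contDiffOn_const
  simp only [dop_eq, Finset.sum_apply, WithLp.ofLp_sum]
  exact ContDiffOn.sum fun d _ => ((EuclideanSpace.proj m : D4 →L[ℝ] ℝ).comp (lam d)).contDiff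
    |>.comp_contDiffOn (h d)

variable {A} {J : Amb N → MN N}

theorem contDiffOn_fc (hJ : IsACS A J) {ψ : Amb N → MN N} (hψ : IsTestX A ψ) (c : Fin K)
    (a : Fin N) : ContDiffOn ℝ ∞ (A.fc c a ψ) box :=
  (ContDiffOn.sum fun m _ => (A.dmat_smooth c a m).contDiffOn.mul
    (contDiffOn_dop (contDiffOn_fld hψ c) m)).div (contDiffOn_dens c)
    fun p hp => (dens_pos A hJ c hp).ne'

theorem isOneX_const (A : Atlas N K) (v : Amb N) : IsOneX A fun _ => v := fun c k => by
  simp only [Atlas.pullOne, mulVec, dotProduct, transpose_apply]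
  exact ContDiffOn.sum fun a _ => (A.dmat_smooth c a k).contDiffOn.mul contDiffOn_const

theorem isDOne_const (A : Atlas N K) (v : Amb N) : IsDOne A 0 fun _ => v := fun c p _ => by
  have h0 : A.pull c (0 : Amb N → MN N) p = 0 := by simp [Atlas.pull, Atlas.pullAt]
  have hsym : ∀ a i k, pd i (fun y => A.dmat c y a k) p = pd k (fun y => A.dmat c y a i) p :=
    fun a i k => by
      have hpc : ContDiffAt ℝ ∞ (fun q => A.psi c q a) p :=
        (contDiff_pi.1 (A.psi_smooth c) a).contDiffAt
      have hdf : DifferentiableAt ℝ (fderiv ℝ fun q => A.psi c q a) p :=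
        (hpc.fderiv_right (m := ∞) (by simp)).differentiableAt (by norm_num)
      simp only [Atlas.dmat, of_apply, pd]
      rw [fderiv_clm_apply hdf (differentiableAt_const _),
        fderiv_clm_apply hdf (differentiableAt_const _)]
      simp only [fderiv_fun_const, Pi.zero_apply, ContinuousLinearMap.comp_zero, zero_add,
        ContinuousLinearMap.flip_apply]
      exact hpc.isSymmSndFDerivAt (by simp; exact WithTop.coe_le_coe.2 le_top) _ _
  rw [h0]
  ext i k
  have e : ∀ i k, pd i (fun y => A.pullOne c (fun _ => v) y k) p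
      = ∑ a, v a * pd i (fun y => A.dmat c y a k) p := fun i k => by
    have hf : (fun y => A.pullOne c (fun _ => v) y k) = fun y => ∑ a, v a * A.dmat c y a k := by
      funext y
      simp [Atlas.pullOne, mulVec, dotProduct, mul_comm]
    rw [hf, pd, fderiv_fun_sum fun a _ => ((A.dmat_smooth c a k).differentiable
      (by norm_num)).differentiableAt.const_mul _, _root_.sum_apply]
    refine Finset.sum_congr rfl fun a _ => ?_
    rw [fderiv_const_mul ((A.dmat_smooth c a k).differentiable (by norm_num)).differentiableAt]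
    rfl
  simp only [dOne, of_apply, e, hsym _ i k, sub_self]
  rfl

/-- The exact form of a function and a coordinate. -/
theorem pull_gForm {f : Amb N → ℝ} (hf : IsFunX A f) (a : Fin N) (c : Fin K) {p : Pt} (hp : p ∈ box)
    (i k : Fin 4) : A.pull c (A.prodForm f 0 fun _ => Pi.single a 1) p i k
      = pd i (fun q => f (A.psi c q)) p * A.dmat c p a k
        - pd k (fun q => f (A.psi c q)) p * A.dmat c p a i := by
  have h : A.pull c (A.prodForm f 0 fun _ => Pi.single a 1) p
      = wedgeOne (A.pullOne c (A.gradX f) p) ((A.dmat c p)ᵀ *ᵥ Pi.single a 1) := by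
    simp only [Atlas.pull, Atlas.prodForm, Pi.zero_apply, smul_zero, zero_add]
    exact A.pullAt_wedgeOne c _ _ p
  rw [h, A.pullOne_gradX hf c hp, wedgeOne_apply]
  simp [mul_comm (A.dmat c p a i)]

theorem isDOne_gForm {f : Amb N → ℝ} (hf : IsFunX A f) (a : Fin N) :
    IsClosedX A (A.prodForm f 0 fun _ => Pi.single a 1) ∧
      IsTestX A (A.prodForm f 0 fun _ => Pi.single a 1) := by
  have h := isDOne_prod A hf (isOneX_const A _) (isDOne_const A (Pi.single a 1))
  have hs := prodForm_skew A f (a := (0 : Amb N → MN N)) (fun _ => Pi.single a (1 : ℝ))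
    (fun x => by simp)
  exact ⟨isClosedX_of_dOne A hs (isOneX_mul A hf (isOneX_const A _)) h,
    isTestX_of_dOne A hs (isOneX_mul A hf (isOneX_const A _)) h⟩

variable (hJ : IsACS A J)
include hJ

/-- The pairing of such a form supported in a chart. -/
theorem wedgeInt_gForm {f : Amb N → ℝ} (hf : IsFunX A f) (a : Fin N) {c : Fin K} {r : ℝ}
    (hr : r < 1) (h0 : ∀ x ∈ A.X, x ∉ A.psi c '' Metric.closedBall 0 r → f x = 0)
    {ψ : Amb N → MN N} (hψ : IsTestX A ψ) :
    A.wedgeInt (A.prodForm f 0 fun _ => Pi.single a 1) ψ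
      = ∫ p in box, A.dens c p * (f (A.psi c p) * A.fc c a ψ p) := by
  obtain ⟨q, r', r₁, hrr', hq, hqr, -, -, hq1⟩ := exists_cut hr
  have hw := (isDOne_gForm hf a).2
  have hfz : ∀ d p, p ∈ box → A.psi d p ∉ A.psi c '' Metric.closedBall 0 r →
      (fun y => f (A.psi d y)) =ᶠ[𝓝 p] fun _ => 0 := fun d p hp h =>
    (eventually_notMem A hp h).mono fun y hy => h0 _ (A.psi_mem d y hy.1) hy.2
  have hz : ∀ x ∈ A.X, x ∉ A.psi c '' Metric.closedBall 0 r →
      A.wedgePt x (A.prodForm f 0 (fun _ => Pi.single a 1) x) (ψ x) = 0 := fun x hx hne => by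
    obtain ⟨d, hd, -⟩ := A.exists_chart hx
    obtain ⟨p, hp, rfl⟩ := A.chi_image hx hd
    rw [wedgePt_chart A (hw.skew _) (hψ.skew _) d hp]
    have e : A.pullAt d (A.prodForm f 0 (fun _ => Pi.single a 1) (A.psi d p)) p = 0 := by
      ext i k
      show A.pull d (A.prodForm f 0 fun _ => Pi.single a 1) p i k = 0
      rw [pull_gForm hf a d hp, pd_eq_zero_nhds i (hfz d p hp hne),
        pd_eq_zero_nhds k (hfz d p hp hne)]
      simp
    simp [e, wedge]
  rw [Atlas.wedgeInt, integral_eq_chart' A hJ c hr (cont_pair hJ hw hψ) hz]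
  set g : Pt → ℝ := fun y => q y • f (A.psi c y)
  have hg : Sm g := sm_cut hq hqr (hf c)
  set γ : Pt → Pt := fun y k => g y * A.dmat c y a k
  have hγ : ∀ k, ContDiff ℝ ∞ fun y => γ y k := fun k => hg.smooth.mul (A.dmat_smooth c a k)
  have hu : Sm (A.cut c q ψ) := sm_cutA hψ hq hqr
  have hloc : ∀ p ∈ box, g =ᶠ[𝓝 p] fun y => f (A.psi c y) := fun p hp => by
    by_cases h : p ∈ Metric.closedBall (0 : Pt) r
    · filter_upwards [eventually_mem_closedBall hrr' h] with y hy
      simp [g, hq1 y hy]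
    · have h' : A.psi c p ∉ A.psi c '' Metric.closedBall 0 r := fun ⟨y, hy, he⟩ => h (by
        rw [← A.phi_psi c hp, ← he, A.phi_psi c (Metric.closedBall_subset_ball hr hy)]; exact hy)
      filter_upwards [hfz c p hp h'] with y hy
      simp [g, hy]
  have hl : ∀ p ∈ box, A.dens c p * A.wedgePt (A.psi c p)
      (A.prodForm f 0 (fun _ => Pi.single a 1) (A.psi c p)) (ψ (A.psi c p))
      = wedge (dOne γ p) (toM (A.cut c q ψ p)) := fun p hp => by
    rw [wedgePt_chart A (hw.skew _) (hψ.skew _) c hp, mul_div_cancel₀ _ (dens_pos A hJ c hp).ne']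
    have e : A.pullAt c (A.prodForm f 0 (fun _ => Pi.single a 1) (A.psi c p)) p = dOne γ p := by
      ext i k
      show A.pull c (A.prodForm f 0 fun _ => Pi.single a 1) p i k = _
      rw [pull_gForm hf a c hp]
      have hgd : DifferentiableAt ℝ g p := (hg.smooth.differentiable (by norm_num)) p
      have hdd : ∀ k, DifferentiableAt ℝ (fun y => A.dmat c y a k) p := fun k =>
        ((A.dmat_smooth c a k).differentiable (by norm_num)) p
      have hs : pd i (fun y => A.dmat c y a k) p = pd k (fun y => A.dmat c y a i) p := by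
        have h := congr_fun (congr_fun ((isDOne_const A (Pi.single a 1) c p hp)) i) k
        have h1 : ∀ k, (fun y => A.pullOne c (fun _ => Pi.single a (1 : ℝ)) y k)
            = fun y => A.dmat c y a k := fun k => by funext y; simp [Atlas.pullOne]
        simp only [dOne, of_apply, h1, Atlas.pull, Atlas.pullAt, Pi.zero_apply, Matrix.mul_zero,
          Matrix.zero_mul, Matrix.zero_apply] at h
        linarith
      simp only [dOne, of_apply, γ, pd_mul_at _ hgd (hdd _),
        pd_congr_nhds _ (hloc p hp), (hloc p hp).eq_of_nhds, hs]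
      ring
    rw [e]
    by_cases h : p ∈ Metric.closedBall (0 : Pt) r'
    · have e2 : toM (A.cut c q ψ p) = A.pull c ψ p := by
        simp [Atlas.cut, hq1 p h, toM_fld hJ hψ]
      rw [e2]
      rfl
    · have hd0 : dOne γ p = 0 := by
        have h' : p ∉ Metric.closedBall (0 : Pt) r := fun h'' =>
          h (Metric.closedBall_subset_closedBall hrr'.le h'')
        have hz' : ∀ k, (fun y => γ y k) =ᶠ[𝓝 p] fun _ => 0 := fun k => by
          filter_upwards [hloc p hp, hfz c p hp fun ⟨y, hy, he⟩ => h' (by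
            rw [← A.phi_psi c hp, ← he, A.phi_psi c (Metric.closedBall_subset_ball hr hy)]
            exact hy)] with y hy hy'
          simp [γ, hy, hy']
        ext i k
        simp [dOne, pd_eq_zero_nhds _ (hz' _)]
      simp [hd0, wedge]
  rw [setIntegral_congr_fun isOpen_box.measurableSet hl,
    setIntegral_eq_integral_of_forall_compl_eq_zero fun p hp => by
      simp [Atlas.cut, hqr.eq_zero hp, toM, wedge],
    integral_wedge_dOne hγ (fun k => hg.supp.mul_right) hu,
    ← setIntegral_eq_integral_of_forall_compl_eq_zero (s := box) fun p hp => by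
      simp [γ, g, hqr.eq_zero hp]]
  refine setIntegral_congr_fun isOpen_box.measurableSet fun p hp => ?_
  by_cases h : p ∈ Metric.closedBall (0 : Pt) r
  · have e : dop (A.cut c q ψ) p = dop (A.fld c ψ) p := dop_congr
      ((eventually_mem_closedBall hrr' h).mono fun y hy => by simp [Atlas.cut, hq1 y hy])
    have hd := (dens_pos A hJ c hp).ne'
    simp only [γ, g, hq1 p (Metric.closedBall_subset_closedBall hrr'.le h), Atlas.fc, e, one_smul]
    rw [mul_div_assoc', mul_div_cancel₀ _ hd, Finset.mul_sum]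
    exact Finset.sum_congr rfl fun m _ => by ring
  · have hfp : f (A.psi c p) = 0 := h0 _ (A.psi_mem c p hp) fun ⟨y, hy, he⟩ => h (by
      rw [← A.phi_psi c hp, ← he, A.phi_psi c (Metric.closedBall_subset_ball hr hy)]; exact hy)
    simp [γ, g, hfp]

/-- The quotient does not depend on the chart. -/
theorem fc_trans {ψ : Amb N → MN N} (hψ : IsTestX A ψ) (a : Fin N) (c d : Fin K) {p : Pt}
    (hp : p ∈ box) (hc : A.psi d p ∈ A.psi c '' box) :
    A.fc c a ψ (A.trans c d p) = A.fc d a ψ p := by
  by_contra hne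
  set H : Pt → ℝ := fun y => A.fc c a ψ (A.trans c d y) - A.fc d a ψ y
  have hO : IsOpen (overlap A d c) := isOpen_overlap A d c
  obtain ⟨ρ, hρ, hball⟩ := Metric.nhds_basis_closedBall.mem_iff.1 (hO.mem_nhds ⟨hp, hc⟩)
  let β : ContDiffBump p := ⟨ρ / 2, ρ, by linarith, by linarith⟩
  set G : Pt → ℝ := fun y => β y * H y
  have hH : ContDiffOn ℝ ∞ H (overlap A d c) := fun y hy => by
    have e1 : ContDiffAt ℝ ∞ (fun y => A.fc c a ψ (A.trans c d y)) y :=
      ((contDiffOn_fc hJ hψ c a).contDiffAt (x := A.trans c d y)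
        (isOpen_box.mem_nhds (A.phi_mem c hy.2))).comp y (contDiff_trans A c d).contDiffAt
    have e2 : ContDiffAt ℝ ∞ (fun y => A.fc d a ψ y) y :=
      (contDiffOn_fc hJ hψ d a).contDiffAt (isOpen_box.mem_nhds hy.1)
    exact (e1.sub e2).contDiffWithinAt
  have hGs : ∀ y, G y ≠ 0 → y ∈ Metric.closedBall p ρ := fun y hy => by
    by_contra h
    exact hy (by simp [G, β.zero_of_le_dist (le_of_lt (not_le.1 h))])
  have hG : ContDiff ℝ ∞ G := contDiff_iff_contDiffAt.2 fun y => by
    by_cases hy : y ∈ Metric.closedBall p ρ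
    · exact β.contDiff.contDiffAt.mul (hH.contDiffAt (hO.mem_nhds (hball hy)))
    · refine contDiffAt_const (c := (0 : ℝ)).congr_of_eventuallyEq ?_
      filter_upwards [Metric.isClosed_closedBall.isOpen_compl.mem_nhds hy] with z hz
      exact by_contra fun h => hz (hGs z h)
  have hrad : ∀ T : Set Pt, IsCompact T → T ⊆ box → ∃ r < 1, T ⊆ Metric.closedBall 0 r := by
    intro T hT hTb
    rcases T.eq_empty_or_nonempty with rfl | hne'
    · exact ⟨0, one_pos, Set.empty_subset _⟩
    · obtain ⟨y, hy, hmax⟩ := hT.exists_isMaxOn hne' continuous_norm.continuousOn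
      exact ⟨‖y‖, mem_ball_zero_iff.1 (hTb hy), fun z hz => mem_closedBall_zero_iff.2 (hmax hz)⟩
  obtain ⟨rd, hrd, hTd⟩ := hrad _ (isCompact_closedBall p ρ) fun y hy => (hball hy).1
  obtain ⟨rc, hrc, hTc⟩ := hrad _ ((isCompact_closedBall p ρ).image
    (contDiff_trans A c d).continuous) (by rintro - ⟨y, hy, rfl⟩; exact A.phi_mem c (hball hy).2)
  have hGr : InBox rd G := ⟨hrd, fun y hy => hTd (hGs y hy)⟩
  set g := A.pushS d G
  have hg : IsFunX A g := isFunX_pushS A hG.contDiffOn hGr
  have hg0d : ∀ x ∈ A.X, x ∉ A.psi d '' Metric.closedBall 0 rd → g x = 0 :=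
    fun x _ h => pushS_zero A hGr h
  have hg0c : ∀ x ∈ A.X, x ∉ A.psi c '' Metric.closedBall 0 rc → g x = 0 := fun x _ h => by
    by_contra hgx
    have hx : x ∈ A.psi d '' box := by_contra fun h' => hgx (by simp [g, Atlas.pushS, h'])
    obtain ⟨y, hy, rfl⟩ := hx
    have hy' : y ∈ Metric.closedBall p ρ := hGs y (by rwa [← pushS_psi A d G hy])
    exact h ⟨A.trans c d y, hTc ⟨y, hy', rfl⟩, A.psi_phi c (hball hy').2⟩
  have h1 := wedgeInt_gForm hJ hg a hrd hg0d hψ
  have h2 := wedgeInt_gForm hJ hg a hrc hg0c hψ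
  obtain ⟨q, r', r₁, hrr', hq, hqr, -, -, hq1⟩ := exists_cut hrc
  set hh : Amb N → ℝ := fun x => g x * A.pushS c (fun y => q y • A.fc c a ψ y) x
  have hhc : ContinuousOn hh A.X := (continuousOn_funX A hg).mul (continuousOn_funX A
    (isFunX_pushS A (sm_cut hq hqr (contDiffOn_fc hJ hψ c a)).smooth.contDiffOn
      (inBox_smul hqr _)))
  have hqone : ∀ y, y ∈ box → g (A.psi c y) ≠ 0 → q y = 1 := fun y hy h => by
    have h' : A.psi c y ∈ A.psi c '' Metric.closedBall 0 rc :=
      by_contra fun h'' => h (hg0c _ (A.psi_mem c y hy) h'')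
    obtain ⟨z, hz, he⟩ := h'
    have : y = z := by rw [← A.phi_psi c hy, ← he, A.phi_psi c (Metric.closedBall_subset_ball hrc hz)]
    exact hq1 y (Metric.closedBall_subset_closedBall hrr'.le (this ▸ hz))
  have ec : ∫ x, hh x ∂A.vol = ∫ y in box, A.dens c y * (g (A.psi c y) * A.fc c a ψ y) := by
    rw [integral_eq_chart' A hJ c hrc hhc fun x hx h => by simp [hh, hg0c x hx h]]
    refine setIntegral_congr_fun isOpen_box.measurableSet fun y hy => ?_
    simp only [hh, pushS_psi A c _ hy]
    by_cases h : g (A.psi c y) = 0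
    · simp [h]
    · simp [hqone y hy h]
  have ed : ∫ x, hh x ∂A.vol
      = ∫ y in box, A.dens d y * (G y * A.fc c a ψ (A.trans c d y)) := by
    rw [integral_eq_chart' A hJ d hrd hhc fun x hx h => by simp [hh, hg0d x hx h]]
    refine setIntegral_congr_fun isOpen_box.measurableSet fun y hy => ?_
    simp only [hh, g, pushS_psi A d _ hy]
    by_cases h : G y = 0
    · simp [h]
    · have hy' := hball (hGs y h)
      have hgy : g (A.psi c (A.trans c d y)) ≠ 0 := by
        rw [show A.psi c (A.trans c d y) = A.psi d y from A.psi_phi c hy'.2]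
        simpa [g, pushS_psi A d _ hy] using h
      have hcq := hqone _ (A.phi_mem c hy'.2) hgy
      simp only [Atlas.pushS, if_pos hy'.2]
      rw [if_pos (show A.psi d y ∈ A.psi c '' box from hy'.2), hcq, one_smul]
      rfl
  rw [h1, ← ec, ed] at h2
  simp only [g] at h2
  have hint : ∀ F : Pt → ℝ, ContinuousOn F (overlap A d c) →
      IntegrableOn (fun y => A.dens d y * (G y * F y)) box := fun F hF => by
    have hc' : ContinuousOn (fun y => A.dens d y * (G y * F y)) (Metric.closedBall p ρ) :=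
      ((continuousOn_dens A d).mono fun y hy => (hball hy).1).mul
        (hG.continuous.continuousOn.mul (hF.mono hball))
    exact IntegrableOn.of_forall_sdiff_eq_zero
      (hc'.integrableOn_compact (isCompact_closedBall p ρ)) isOpen_box.measurableSet fun y hy => by
        simp [show G y = 0 from by_contra fun h => hy.2 (hGs y h)]
  have hcc : ContinuousOn (fun y => A.fc c a ψ (A.trans c d y)) (overlap A d c) :=
    (contDiffOn_fc hJ hψ c a).continuousOn.comp (contDiff_trans A c d).continuous.continuousOn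
      fun y hy => A.phi_mem c hy.2
  have hdc : ContinuousOn (A.fc d a ψ) (overlap A d c) :=
    (contDiffOn_fc hJ hψ d a).continuousOn.mono Set.inter_subset_left
  have e3 : ∫ y in box, A.dens d y * (G y * H y) = 0 := by
    have e4 : ∀ y, A.dens d y * (G y * H y) = A.dens d y * (G y * A.fc c a ψ (A.trans c d y))
        - A.dens d y * (G y * A.fc d a ψ y) := fun y => by simp only [H]; ring
    simp only [e4]
    rw [integral_sub (hint _ hcc) (hint _ hdc), ← h2, sub_eq_zero]
    refine setIntegral_congr_fun isOpen_box.measurableSet fun y hy => ?_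
    simp only [pushS_psi A d G hy]
  have hnn : ∀ y ∈ box, 0 ≤ A.dens d y * (G y * H y) := fun y hy => by
    simp only [G, mul_assoc]
    exact mul_nonneg (dens_pos A hJ d hy).le (mul_nonneg β.nonneg (mul_self_nonneg _))
  have hHc : ContinuousOn H (overlap A d c) := hH.continuousOn
  have h5 := (setIntegral_eq_zero_iff_of_nonneg_ae
    ((ae_restrict_mem isOpen_box.measurableSet).mono hnn) (hint _ hHc)).1 e3
  have hopen : IsOpen (Metric.ball p (ρ / 2)) := Metric.isOpen_ball
  have h6 : Set.EqOn (fun y => A.dens d y * (G y * H y)) 0 (Metric.ball p (ρ / 2)) := by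
    refine Measure.eqOn_open_of_ae_eq (μ := (volume : Measure Pt)) ?_ hopen ?_ continuousOn_const
    · exact ae_restrict_of_ae_restrict_of_subset
        (fun y hy => (hball (Metric.closedBall_subset_closedBall (by linarith)
          (Metric.ball_subset_closedBall hy))).1) h5
    · refine ((continuousOn_dens A d).mono ?_).mul (hG.continuous.continuousOn.mul (hHc.mono ?_))
      · exact fun y hy => (hball (Metric.closedBall_subset_closedBall (by linarith)
          (Metric.ball_subset_closedBall hy))).1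
      · exact fun y hy => hball (Metric.closedBall_subset_closedBall (by linarith)
          (Metric.ball_subset_closedBall hy))
  have h7 := h6 (Metric.mem_ball_self (by linarith : (0 : ℝ) < ρ / 2))
  simp only [Pi.zero_apply, G, β.one_of_mem_closedBall (Metric.mem_closedBall_self (by positivity)),
    one_mul, mul_eq_zero, (dens_pos A hJ d hp).ne', false_or, or_self] at h7
  exact hne (sub_eq_zero.1 h7)

theorem fa_psi {ψ : Amb N → MN N} (hψ : IsTestX A ψ) (a : Fin N) (c : Fin K) {p : Pt}
    (hp : p ∈ box) : A.fa a ψ (A.psi c p) = A.fc c a ψ p := by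
  have hx := A.psi_mem c p hp
  rw [Atlas.fa]
  refine (Finset.sum_congr rfl fun d _ => ?_).trans
    (by rw [← Finset.sum_mul, A.chi_sum _ hx, one_mul])
  rcases eq_or_ne (A.chi d (A.psi c p)) 0 with h | h
  · simp [h]
  · exact congrArg (A.chi d (A.psi c p) * ·) (fc_trans hJ hψ a d c hp (A.chi_image hx h))

theorem isFunX_fa {ψ : Amb N → MN N} (hψ : IsTestX A ψ) (a : Fin N) : IsFunX A (A.fa a ψ) :=
  fun c => (contDiffOn_fc hJ hψ c a).congr fun p hp => fa_psi hJ hψ a c hp

theorem pull_wOp {ψ : Amb N → MN N} (hψ : IsTestX A ψ) (c : Fin K) {p : Pt} (hp : p ∈ box)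
    (i j : Fin 4) : A.pull c (A.wOp ψ) p i j
      = ∑ a, (pd i (A.fc c a ψ) p * A.dmat c p a j - pd j (A.fc c a ψ) p * A.dmat c p a i) := by
  have e : ∀ a i, pd i (fun q => A.fa a ψ (A.psi c q)) p = pd i (A.fc c a ψ) p := fun a i =>
    pd_congr_nhds i (eventually_of_mem (isOpen_box.mem_nhds hp) fun q hq => fa_psi hJ hψ a c hq)
  simp only [Atlas.wOp, Atlas.pull, Atlas.pullAt, Finset.sum_apply, Matrix.mul_sum, Matrix.sum_mul,
    Matrix.sum_apply]
  refine Finset.sum_congr rfl fun a _ => ?_
  rw [← e a i, ← e a j]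
  exact pull_gForm (isFunX_fa hJ hψ a) a c hp i j

theorem isClosedX_wOp {ψ : Amb N → MN N} (hψ : IsTestX A ψ) : IsClosedX A (A.wOp ψ) := by
  have h : ∀ s : Finset (Fin N),
      IsClosedX A (∑ a ∈ s, A.prodForm (A.fa a ψ) 0 fun _ => Pi.single a 1) := fun s => by
    induction s using Finset.induction_on with
    | empty => exact isClosedX_zero
    | insert a t ha ih =>
      rw [Finset.sum_insert ha]
      exact isClosedX_add (isDOne_gForm (isFunX_fa hJ hψ a) a).1 ih
  exact h Finset.univ

theorem wedgeInt_wOp {ψ ζ : Amb N → MN N} (hψ : IsTestX A ψ) (hζ : IsTestX A ζ) :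
    A.wedgeInt (A.wOp ψ) ζ = ∫ x, ∑ a, A.fa a ψ x * A.fa a ζ x ∂A.vol := by
  have hFψ := isFunX_fa hJ hψ
  have hFζ := isFunX_fa hJ hζ
  have hint : ∀ f : Amb N → ℝ, IsFunX A f → Integrable f A.vol := fun f hf =>
    integrable_of_continuousOn A (continuousOn_funX A hf)
  have hmul : ∀ {f g : Amb N → ℝ}, IsFunX A f → IsFunX A g → IsFunX A fun x => f x * g x :=
    fun hf hg c => (hf c).mul (hg c)
  have hchi : ∀ c, IsFunX A (A.chi c) := fun c e =>
    ((A.chi_smooth c).comp (A.psi_smooth e)).contDiffOn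
  rw [wedgeInt_comm, Atlas.wOp, wedgeInt_sum_right hJ hζ fun a _ => (isDOne_gForm (hFψ a) a).2,
    integral_finsetSum _ fun a _ => hint _ (hmul (hFψ a) (hFζ a))]
  refine Finset.sum_congr rfl fun a _ => ?_
  have hG : ∀ c, IsFunX A fun x => A.chi c x * A.fa a ψ x := fun c => hmul (hchi c) (hFψ a)
  have ht : ∀ c, IsTestX A (A.prodForm (fun x => A.chi c x * A.fa a ψ x) 0
      fun _ => Pi.single a 1) := fun c => (isDOne_gForm (hG c) a).2
  have hts : ∀ s : Finset (Fin K), IsTestX A (∑ c ∈ s,
      A.prodForm (fun x => A.chi c x * A.fa a ψ x) 0 fun _ => Pi.single a 1) := fun s => by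
    induction s using Finset.induction_on with
    | empty => exact isTestX_zero
    | insert c t hc ih => rw [Finset.sum_insert hc]; exact isTestX_add (ht c) ih
  rw [wedgeInt_congr hJ hζ (isDOne_gForm (hFψ a) a).2 (hts Finset.univ) fun d p hp => ?_,
    wedgeInt_sum_right hJ hζ fun c _ => ht c]
  · have hterm : ∀ c, A.wedgeInt ζ (A.prodForm (fun x => A.chi c x * A.fa a ψ x) 0
        fun _ => Pi.single a 1) = ∫ x, A.chi c x * A.fa a ψ x * A.fa a ζ x ∂A.vol := fun c => by
      have hz : ∀ x ∈ A.X, x ∉ A.psi c '' Metric.closedBall 0 (1 / 2) →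
          A.chi c x * A.fa a ψ x = 0 := fun x hx h => by
        rw [by_contra (p := A.chi c x = 0) fun h' => h (A.chi_supp c x hx h'), zero_mul]
      rw [wedgeInt_comm, wedgeInt_gForm hJ (hG c) a (by norm_num) hz hζ,
        integral_eq_chart A hJ c (continuousOn_funX A (hmul (hG c) (hFζ a)))
          fun x hx h => by rw [hz x hx h, zero_mul]]
      exact setIntegral_congr_fun isOpen_box.measurableSet fun p hp => by
        simp only [fa_psi hJ hζ a c hp]
    simp only [hterm]
    rw [← integral_finsetSum _ fun c _ => hint _ (hmul (hG c) (hFζ a))]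
    refine integral_congr_ae ((ae_mem_X A).mono fun x hx => ?_)
    simp only [← Finset.sum_mul, A.chi_sum x hx, one_mul]
  · have hsum : A.pull d (∑ c, A.prodForm (fun x => A.chi c x * A.fa a ψ x) 0
        fun _ => Pi.single a 1) p = ∑ c, A.pull d (A.prodForm (fun x => A.chi c x * A.fa a ψ x) 0
        fun _ => Pi.single a 1) p := by
      simp [Atlas.pull, Atlas.pullAt, Finset.sum_apply, Matrix.mul_sum, Matrix.sum_mul]
    rw [hsum]
    ext i k
    simp only [Matrix.sum_apply, pull_gForm (hG _) a d hp, pull_gForm (hFψ a) a d hp,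
      Finset.sum_sub_distrib, ← Finset.sum_mul]
    have hs : ∀ i, ∑ c, pd i (fun q => A.chi c (A.psi d q) * A.fa a ψ (A.psi d q)) p
        = pd i (fun q => A.fa a ψ (A.psi d q)) p := fun i => by
      have hd : ∀ c, DifferentiableAt ℝ (fun q => A.chi c (A.psi d q) * A.fa a ψ (A.psi d q)) p :=
        fun c => ((hG c d).differentiableOn (by norm_num)).differentiableAt (isOpen_box.mem_nhds hp)
      have e : (fun q => A.fa a ψ (A.psi d q)) =ᶠ[𝓝 p]
          fun q => ∑ c, A.chi c (A.psi d q) * A.fa a ψ (A.psi d q) :=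
        eventually_of_mem (isOpen_box.mem_nhds hp) fun q hq => by
          simp only [← Finset.sum_mul, A.chi_sum _ (A.psi_mem d q hq), one_mul]
      rw [pd_congr_nhds i e, pd, fderiv_fun_sum fun c _ => hd c, _root_.sum_apply]
      rfl
    rw [hs, hs]

theorem smat_fc (c : Fin K) {p : Pt} (hp : p ∈ box) (ψ ζ : Amb N → MN N) :
    A.dens c p * ∑ a, A.fc c a ψ p * A.fc c a ζ p
      = ∑ m, ∑ n, A.smat c p m n * dop (A.fld c ψ) p m * dop (A.fld c ζ) p n := by
  have hd := (dens_pos A hJ c hp).ne'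
  simp only [Atlas.fc, Atlas.smat, Finset.mul_sum, Finset.sum_mul, Finset.sum_div]
  conv_rhs => rw [Finset.sum_comm]
  rw [Finset.sum_comm]
  refine Finset.sum_congr rfl fun a _ => ?_
  rw [Finset.sum_comm]
  refine Finset.sum_congr rfl fun m _ => Finset.sum_congr rfl fun n _ => ?_
  field_simp

/-- A nonnegative function cut off in a chart. -/
theorem integral_cut_le {f : Amb N → ℝ} (hf : ContinuousOn f A.X) (hf0 : ∀ x ∈ A.X, 0 ≤ f x)
    {c : Fin K} {g : Pt → ℝ} (hg : Sm g) {r : ℝ} (hr : InBox r g)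
    (hgf : ∀ p ∈ box, g p ≤ f (A.psi c p)) :
    ∫ p in box, A.dens c p * g p ≤ ∫ x, f x ∂A.vol := by
  have hc := continuousOn_funX A (isFunX_pushS A (c := c) hg.smooth.contDiffOn hr)
  have e : ∫ x, A.pushS c g x ∂A.vol = ∫ p in box, A.dens c p * g p := by
    rw [integral_eq_chart' A hJ c hr.1 hc fun x _ h => pushS_zero A hr h]
    exact setIntegral_congr_fun isOpen_box.measurableSet fun p hp => by
      simp only [pushS_psi A c _ hp]
  rw [← e]
  refine integral_mono_ae (integrable_of_continuousOn A hc) (integrable_of_continuousOn A hf)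
    ((ae_mem_X A).mono fun x hx => ?_)
  show A.pushS c g x ≤ f x
  by_cases h : x ∈ A.psi c '' box
  · obtain ⟨p, hp, rfl⟩ := h
    rw [pushS_psi A c _ hp]
    exact hgf p hp
  · rw [Atlas.pushS, if_neg h]
    exact hf0 x hx

theorem exists_lower_dop (c : Fin K) {th : Pt → ℝ} {r : ℝ} (hth : ContDiff ℝ ∞ th)
    (hr : InBox r th) : ∃ C, 0 ≤ C ∧ ∀ ψ, IsTestX A ψ →
      ∫ p, th p ^ 2 * ‖dop (A.fld c ψ) p‖ ^ 2 ≤ C * A.wedgeInt (A.wOp ψ) ψ := by
  obtain ⟨c0, hc0, hpos⟩ := exists_smat_pos hJ c hr.1
  obtain ⟨q, r', r₁, hrr', hq, hqr, -, hq01, hq1⟩ := exists_cut hr.1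
  obtain ⟨T, hT⟩ := hr.supp.exists_bound_of_continuous hth.continuous
  refine ⟨T ^ 2 / c0, by positivity, fun ψ hψ => ?_⟩
  set f : Amb N → ℝ := fun x => ∑ a, A.fa a ψ x * A.fa a ψ x
  have hf : ContinuousOn f A.X := continuousOn_finsetSum _ fun a _ =>
    (continuousOn_funX A (isFunX_fa hJ hψ a)).mul (continuousOn_funX A (isFunX_fa hJ hψ a))
  have hf0 : ∀ x, 0 ≤ f x := fun x => Finset.sum_nonneg fun a _ => mul_self_nonneg _
  set g : Pt → ℝ := fun p => q p • ∑ a, A.fc c a ψ p * A.fc c a ψ p
  have hgs : Sm g := sm_cut hq hqr (ContDiffOn.sum fun a _ =>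
    (contDiffOn_fc hJ hψ c a).mul (contDiffOn_fc hJ hψ c a))
  have hle := integral_cut_le hJ hf (fun x _ => hf0 x) (c := c) hgs (inBox_smul hqr _) fun p hp => by
    simp only [f, fa_psi hJ hψ _ c hp, g, smul_eq_mul]
    exact mul_le_of_le_one_left (Finset.sum_nonneg fun a _ => mul_self_nonneg _) (hq01 p).2
  rw [← wedgeInt_wOp hJ hψ hψ] at hle
  have hint : IntegrableOn (fun p => A.dens c p * g p) box :=
    IntegrableOn.of_forall_sdiff_eq_zero ((((continuousOn_dens A c).mono
      (Metric.closedBall_subset_ball hqr.1)).mul hgs.smooth.continuous.continuousOn).integrableOn_compact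
      (isCompact_closedBall 0 r₁)) isOpen_box.measurableSet fun p hp => by
      simp [g, by_contra (p := q p = 0) fun h => hp.2 (hqr.2 p h)]
  refine le_trans ?_ (mul_le_mul_of_nonneg_left hle (by positivity))
  rw [← setIntegral_eq_integral_of_forall_compl_eq_zero (s := box) fun p hp => by
    simp [hr.eq_zero hp], ← integral_const_mul]
  refine integral_mono_of_nonneg (Eventually.of_forall fun p => by positivity) (hint.const_mul _) ?_
  refine (ae_restrict_mem isOpen_box.measurableSet).mono fun p hp => ?_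
  by_cases h : th p = 0
  · simp only [h]
    have : 0 ≤ A.dens c p * g p := mul_nonneg (dens_pos A hJ c hp).le
      (mul_nonneg (hq01 p).1 (Finset.sum_nonneg fun a _ => mul_self_nonneg _))
    have h2 : 0 ≤ T ^ 2 / c0 * (A.dens c p * g p) := by positivity
    simpa using h2
  · have hp' := hr.2 p h
    simp only [g, hq1 p (Metric.closedBall_subset_closedBall hrr'.le hp'), one_smul,
      smat_fc hJ c hp ψ ψ]
    rw [← inner_smat]
    have h1 := hpos p hp' (dop (A.fld c ψ) p)
    have h2 : th p ^ 2 ≤ T ^ 2 := sq_le_sq' (abs_le.1 ((Real.norm_eq_abs _).symm.trans_le (hT p))).1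
      (abs_le.1 ((Real.norm_eq_abs _).symm.trans_le (hT p))).2
    calc th p ^ 2 * ‖dop (A.fld c ψ) p‖ ^ 2 ≤ T ^ 2 * ‖dop (A.fld c ψ) p‖ ^ 2 :=
          mul_le_mul_of_nonneg_right h2 (sq_nonneg _)
      _ = T ^ 2 / c0 * (c0 * ‖dop (A.fld c ψ) p‖ ^ 2) := by field_simp
      _ ≤ _ := mul_le_mul_of_nonneg_left h1 (by positivity)

theorem exists_lower_zero (c : Fin K) {th : Pt → ℝ} {r : ℝ} (hth : ContDiff ℝ ∞ th)
    (hr : InBox r th) : ∃ C, 0 ≤ C ∧ ∀ ψ, IsAntiX A J ψ →
      ∫ p, ‖th p • A.fld c ψ p‖ ^ 2 ≤ C * A.wedgeInt ψ ψ := by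
  obtain ⟨q, r', r₁, hrr', hq, hqr, -, hq01, hq1⟩ := exists_cut hr.1
  obtain ⟨T, hT⟩ := hr.supp.exists_bound_of_continuous hth.continuous
  choose b hb using fun z : Fin 4 × Fin 4 => (isCompact_closedBall (0 : Pt) r).exists_bound_of_continuousOn
    ((hJ.smooth c z.1 z.2).continuousOn.mono (Metric.closedBall_subset_ball hr.1))
  obtain ⟨c1, hc1, hlow⟩ := exists_anti_lower (∑ z, |b z|)
  refine ⟨T ^ 2 / c1, by positivity, fun ψ hψ => ?_⟩
  set W : Pt → ℝ := fun p => wedge (A.pull c ψ p) (A.pull c ψ p) / A.dens c p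
  have hW : ∀ p ∈ box, A.wedgePt (A.psi c p) (ψ (A.psi c p)) (ψ (A.psi c p)) = W p :=
    fun p hp => wedgePt_chart A (hψ.1.skew _) (hψ.1.skew _) c hp
  have hWs : ContDiffOn ℝ ∞ W box := by
    refine ContDiffOn.div ?_ (contDiffOn_dens c) fun p hp => (dens_pos A hJ c hp).ne'
    have h := fun i k i' k' => (hψ.1.smooth c i k).mul (hψ.1.smooth c i' k')
    simp only [wedge]
    exact (((((h 0 1 2 3).sub (h 0 2 1 3)).add (h 0 3 1 2)).add (h 1 2 0 3)).sub (h 1 3 0 2)).add
      (h 2 3 0 1)
  have hnn : ∀ p ∈ box, 0 ≤ wedge (A.pull c ψ p) (A.pull c ψ p) := fun p hp => by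
    have hP := pullAt_skew A c p (hψ.1.skew (A.psi c p))
    have ha := hψ.2 c p hp
    refine hJ.pos c p hp _ hP ?_
    rw [← ha]
    simp only [antiP, Matrix.mul_smul, Matrix.smul_mul, Matrix.mul_sub, Matrix.sub_mul,
      conj_twice (hJ.sq c p hp), ← smul_neg, neg_sub]
  set g : Pt → ℝ := fun p => q p • W p
  have hle := integral_cut_le hJ (cont_pair hJ hψ.1 hψ.1) (fun x hx => ?_) (c := c)
    (sm_cut hq hqr hWs) (inBox_smul hqr _) fun p hp => ?_
  · have hint : IntegrableOn (fun p => A.dens c p * g p) box :=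
      IntegrableOn.of_forall_sdiff_eq_zero ((((continuousOn_dens A c).mono
        (Metric.closedBall_subset_ball hqr.1)).mul
        (sm_cut hq hqr hWs).smooth.continuous.continuousOn).integrableOn_compact
        (isCompact_closedBall 0 r₁)) isOpen_box.measurableSet fun p hp => by
        simp [g, by_contra (p := q p = 0) fun h => hp.2 (hqr.2 p h)]
    refine le_trans ?_ (mul_le_mul_of_nonneg_left hle (by positivity))
    rw [← setIntegral_eq_integral_of_forall_compl_eq_zero (s := box) fun p hp => by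
      simp [hr.eq_zero hp], ← integral_const_mul]
    refine integral_mono_of_nonneg (Eventually.of_forall fun p => by positivity)
      (hint.const_mul _) ?_
    refine (ae_restrict_mem isOpen_box.measurableSet).mono fun p hp => ?_
    have hd := dens_pos A hJ c hp
    have hg0 : 0 ≤ A.dens c p * g p :=
      mul_nonneg hd.le (mul_nonneg (hq01 p).1 (div_nonneg (hnn p hp) hd.le))
    by_cases h : th p = 0
    · simp only [h, zero_smul, norm_zero]
      have : 0 ≤ T ^ 2 / c1 * (A.dens c p * g p) := by positivity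
      simpa [g] using this
    · have hp' := hr.2 p h
      simp only [hq1 p (Metric.closedBall_subset_closedBall hrr'.le hp'), one_smul, W,
        mul_div_cancel₀ _ hd.ne']
      have hjb : ∀ i k, |A.jc J c p i k| ≤ ∑ z, |b z| := fun i k =>
        ((Real.norm_eq_abs _).symm.trans_le (hb (i, k) p hp')).trans ((le_abs_self _).trans
          (Finset.single_le_sum (f := fun z => |b z|) (fun _ _ => abs_nonneg _) (Finset.mem_univ _)))
      have hP := pullAt_skew A c p (hψ.1.skew (A.psi c p))
      have h1 := hlow _ (hJ.sq c p hp) hjb _ (antiP_skew hP) (isAnti_antiP (hJ.sq c p hp) hP)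
      have ha : antiP (A.jc J c p) (A.pullAt c (ψ (A.psi c p)) p)
          = A.pullAt c (ψ (A.psi c p)) p := hψ.2 c p hp
      rw [oSgn_jc A hJ c hp, one_mul, ha] at h1
      change c1 * sq2 (A.pull c ψ p) ≤ wedge (A.pull c ψ p) (A.pull c ψ p) at h1
      have h2 : ‖A.fld c ψ p‖ ^ 2 ≤ sq2 (A.pull c ψ p) := by
        rw [EuclideanSpace.norm_sq_eq]
        simp [Atlas.fld, ofM, sq2, Fin.sum_univ_six, Fin.sum_univ_four]
        nlinarith [sq_nonneg (A.pull c ψ p 1 0), sq_nonneg (A.pull c ψ p 2 0),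
          sq_nonneg (A.pull c ψ p 3 0), sq_nonneg (A.pull c ψ p 2 1), sq_nonneg (A.pull c ψ p 3 1),
          sq_nonneg (A.pull c ψ p 3 2), sq_nonneg (A.pull c ψ p 0 0), sq_nonneg (A.pull c ψ p 1 1),
          sq_nonneg (A.pull c ψ p 2 2), sq_nonneg (A.pull c ψ p 3 3)]
      have h3 : th p ^ 2 ≤ T ^ 2 :=
        sq_le_sq' (abs_le.1 ((Real.norm_eq_abs _).symm.trans_le (hT p))).1
          (abs_le.1 ((Real.norm_eq_abs _).symm.trans_le (hT p))).2
      rw [norm_smul, mul_pow, Real.norm_eq_abs, sq_abs]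
      calc th p ^ 2 * ‖A.fld c ψ p‖ ^ 2 ≤ T ^ 2 * sq2 (A.pull c ψ p) :=
            mul_le_mul h3 h2 (sq_nonneg _) (sq_nonneg _)
        _ = T ^ 2 / c1 * (c1 * sq2 (A.pull c ψ p)) := by field_simp
        _ ≤ _ := mul_le_mul_of_nonneg_left h1 (by positivity)
  · obtain ⟨d, hd, -⟩ := A.exists_chart hx
    obtain ⟨p, hp, rfl⟩ := A.chi_image hx hd
    rw [wedgePt_chart A (hψ.1.skew _) (hψ.1.skew _) d hp]
    refine div_nonneg ?_ (dens_pos A hJ d hp).le
    have ha := hψ.2 d p hp
    refine hJ.pos d p hp _ (pullAt_skew A d p (hψ.1.skew _)) ?_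
    show (A.jc J d p)ᵀ * A.pull d ψ p * A.jc J d p = -A.pull d ψ p
    rw [← ha]
    simp only [antiP, Matrix.mul_smul, Matrix.smul_mul, Matrix.mul_sub, Matrix.sub_mul,
      conj_twice (hJ.sq d p hp), ← smul_neg, neg_sub]
  · rw [hW p hp, smul_eq_mul]
    exact mul_le_of_le_one_left (div_nonneg (hnn p hp) (dens_pos A hJ c hp).le) (hq01 p).2

omit hJ

/-- The interface holds. -/
theorem opStmt : OpStmt := by
  intro N K A J hJ
  refine ⟨fun ψ hψ => isClosedX_wOp hJ hψ, fun ψ ζ hψ hζ => wedgeInt_wOp hJ hψ hζ,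
    fun c z r hz hr => ?_, fun c th r hth hr => exists_lower_dop hJ c hth hr,
    fun c th r hth hr => exists_lower_zero hJ c hth hr⟩
  have ht := isTestX_pushF A hz hr (c := c)
  refine ⟨ht, fun p hp => pull_pushF_self A c z hp, fun ψ hψ => ⟨?_, ?_⟩⟩
  · rw [Atlas.wedgeInt, integral_eq_chart' A hJ c hr.1 (cont_pair hJ hψ ht) fun x hx h => ?_]
    · refine setIntegral_congr_fun isOpen_box.measurableSet fun p hp => ?_
      rw [wedgePt_chart A (hψ.skew _) (ht.skew _) c hp, mul_div_cancel₀ _ (dens_pos A hJ c hp).ne']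
      have := pull_pushF_self A c z hp
      simp only [Atlas.pull] at this ⊢
      rw [this]
    · obtain ⟨d, hd, -⟩ := A.exists_chart hx
      obtain ⟨p, hp, rfl⟩ := A.chi_image hx hd
      rw [wedgePt_chart A (hψ.skew _) (ht.skew _) d hp]
      have := pull_pushF_zero A hr (e := d) h
      simp only [Atlas.pull] at this
      simp [this, wedge]
  · rw [wedgeInt_wOp hJ hψ ht]
    rw [integral_eq_chart' A hJ c hr.1 ?_ fun x hx h => ?_]
    · refine setIntegral_congr_fun isOpen_box.measurableSet fun p hp => ?_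
      simp only [fa_psi hJ hψ _ c hp, fa_psi hJ ht _ c hp, smat_fc hJ c hp]
      have e : dop (A.fld c (A.pushF c z)) p = dop z p := dop_congr
        (eventually_of_mem (isOpen_box.mem_nhds hp) fun y hy => by
          simp [Atlas.fld, pull_pushF_self A c z hy, ofM_toM])
      rw [e]
    · exact continuousOn_finsetSum _ fun a _ => (continuousOn_funX A (isFunX_fa hJ hψ a)).mul
        (continuousOn_funX A (isFunX_fa hJ ht a))
    · refine Finset.sum_eq_zero fun a _ => ?_
      obtain ⟨d, hd, -⟩ := A.exists_chart hx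
      obtain ⟨p, hp, rfl⟩ := A.chi_image hx hd
      rw [fa_psi hJ ht a d hp]
      have e : dop (A.fld d (A.pushF c z)) p = dop (0 : Pt → Fm) p := dop_congr
        ((eventually_notMem A hp h).mono fun y hy => by
          show A.fld d (A.pushF c z) y = 0
          rw [Atlas.fld, pull_pushF_zero A hr hy.2]
          ext j; fin_cases j <;> simp [ofM])
      simp [Atlas.fc, e, dop_eq, dd]

theorem pullWStmt : PullWStmt := fun _ _ _ hJ hψ c _ hp i j => pull_wOp hJ hψ c hp i j

end Ext

end Vale.Agent.P204.General
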