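import Mathlib
import Vale.Agent.P204.General.Ext.Setup
import Vale.Agent.P204.General.Ext.Sob
import Vale.Agent.P204.General.Basic.Stokes

/-!
# P204, module C: the Sobolev norms in one chart are controlled by the cut off ones
-/

open MeasureTheory Matrix Filter Set
open scoped ContDiff Topology Manifold

namespace Vale.Agent.P204.General

open Vale.Agent.P204.Torus

theorem sobR_zero_fun (n : ℕ) : sobR n (0 : Pt → ℝ) = 0 := by
  have h := sobI_smul_left n (0 : ℝ) sc_zero sc_zero
  rw [zero_smul, zero_mul, sobI_self] at h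
  exact h

theorem sobR_add_le {f g : Pt → ℝ} (n : ℕ) (hf : Sc f) (hg : Sc g) :
    sobR n (f + g) ≤ 2 * sobR n f + 2 * sobR n g := by
  have hn := sc_smul hg (-1)
  have h := sobR_nonneg n (f + (-1 : ℝ) • g)
  rw [← sobI_self, sobI_add_left n hf hn (sc_add hf hn), sobI_comm n f, sobI_comm n ((-1 : ℝ) • g),
    sobI_add_left n hf hn hf, sobI_add_left n hf hn hn, sobI_comm n f ((-1 : ℝ) • g),
    sobI_smul_left n _ hg hf, sobI_smul_left n _ hg hn, sobI_comm n g ((-1 : ℝ) • g),
    sobI_smul_left n _ hg hg] at h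
  rw [← sobI_self, sobI_add_left n hf hg (sc_add hf hg), sobI_comm n f, sobI_comm n g,
    sobI_add_left n hf hg hf, sobI_add_left n hf hg hg, sobI_comm n f g]
  simp only [sobI_self] at h ⊢
  linarith

theorem sc_sum {ι : Type*} {s : Finset ι} {F : ι → Pt → ℝ} (h : ∀ z ∈ s, Sc (F z)) :
    Sc (∑ z ∈ s, F z) := by
  classical
  induction s using Finset.induction_on with
  | empty => exact sc_zero
  | insert a t ha ih =>
    rw [Finset.sum_insert ha]
    exact sc_add (h a (Finset.mem_insert_self a t)) (ih fun i hi => h i (Finset.mem_insert_of_mem hi))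

theorem sobR_sum_le {ι : Type*} {s : Finset ι} {F : ι → Pt → ℝ} (n : ℕ) (h : ∀ z ∈ s, Sc (F z)) :
    sobR n (∑ z ∈ s, F z) ≤ 2 ^ s.card * ∑ z ∈ s, sobR n (F z) := by
  classical
  induction s using Finset.induction_on with
  | empty => simp [sobR_zero_fun]
  | insert a t ha ih =>
    have ht : ∀ z ∈ t, Sc (F z) := fun i hi => h i (Finset.mem_insert_of_mem hi)
    rw [Finset.sum_insert ha, Finset.sum_insert ha, Finset.card_insert_of_notMem ha, pow_succ]
    refine (sobR_add_le n (h a (Finset.mem_insert_self a t)) (sc_sum ht)).trans ?_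
    have h1 : 1 * sobR n (F a) ≤ 2 ^ t.card * sobR n (F a) :=
      mul_le_mul_of_nonneg_right (one_le_pow₀ (by norm_num)) (sobR_nonneg n _)
    nlinarith [ih ht]

/-- A cut off composition is bounded in every order. -/
theorem sobR_comp_le {τ : Pt → Pt} {A : Pt → M4} {S : Set Pt} (hS : IsCompact S)
    (hτ : ContDiff ℝ ∞ τ) (hA : ∀ p, HasFDerivAt τ (Matrix.mulVecLin (A p)).toContinuousLinearMap p)
    (hAs : ∀ i k, ContDiff ℝ ∞ fun p => A p i k) (hinj : InjOn τ S)
    (hdet : ∀ p ∈ S, (A p).det ≠ 0) :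
    ∀ (n : ℕ) (g : Pt → ℝ), ContDiff ℝ ∞ g → (∀ p, g p ≠ 0 → p ∈ S) →
      ∃ C, 0 ≤ C ∧ ∀ f, Sc f → sobR n (fun p => g p * f (τ p)) ≤ C * sobR n f := by
  have hsc : ∀ {g f : Pt → ℝ}, ContDiff ℝ ∞ g → (∀ p, g p ≠ 0 → p ∈ S) → Sc f →
      Sc fun p => g p * f (τ p) := fun {g f} hg hg' hf =>
    ⟨hg.mul (hf.1.comp hτ), HasCompactSupport.intro hS fun p hp => by
      have : g p = 0 := by_contra fun h => hp (hg' p h)
      simp [this]⟩
  intro n
  induction n with
  | zero =>
    intro g hg hg'
    have hdc : ContinuousOn (fun p => g p ^ 2 / |(A p).det|) S := by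
      refine ((hg.continuous.pow 2).continuousOn).div ?_ fun p hp => abs_ne_zero.2 (hdet p hp)
      refine (Continuous.abs ?_).continuousOn
      exact (continuous_matrix fun i k => (hAs i k).continuous).matrix_det
    obtain ⟨C, hC⟩ := hS.exists_bound_of_continuousOn hdc
    refine ⟨|C|, abs_nonneg _, fun f hf => ?_⟩
    have hf2 : Integrable fun x => f x ^ 2 := by simpa [sq] using sc_integrable_mul hf hf
    have hgf := hsc hg hg' hf
    have hcv := integral_image_eq_integral_abs_det_fderiv_smul volume hS.measurableSet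
      (fun q _ => (hA q).hasFDerivWithinAt) hinj fun x => f x ^ 2
    have hI : Integrable (fun p => (g p * f (τ p)) ^ 2) := by
      simpa [sq] using sc_integrable_mul hgf hgf
    simp only [sobR]
    calc ∫ p, (g p * f (τ p)) ^ 2
        = ∫ p in S, (g p * f (τ p)) ^ 2 := (setIntegral_eq_integral_of_forall_compl_eq_zero
          fun p hp => by rw [show g p = 0 from by_contra fun h => hp (hg' p h)]; ring).symm
      _ ≤ ∫ p in S, |C| * (|(A p).det| * f (τ p) ^ 2) := by
          refine setIntegral_mono_on hI.integrableOn ?_ hS.measurableSet fun p hp => ?_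
          · refine ContinuousOn.integrableOn_compact hS ?_
            exact (continuous_const.mul (((continuous_matrix fun i k =>
              (hAs i k).continuous).matrix_det.abs).mul ((hf.1.continuous.comp hτ.continuous).pow 2))).continuousOn
          · have hd : 0 < |(A p).det| := abs_pos.2 (hdet p hp)
            have h := (hC p hp).trans (le_abs_self C)
            rw [Real.norm_eq_abs, abs_of_nonneg (by positivity), div_le_iff₀ hd] at h
            rw [mul_pow, ← mul_assoc]
            exact mul_le_mul_of_nonneg_right h (sq_nonneg _)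
      _ = |C| * ∫ x in τ '' S, f x ^ 2 := by
          rw [integral_const_mul, hcv]
          simp only [det_mulVecLin, smul_eq_mul]
      _ ≤ |C| * ∫ x, f x ^ 2 := mul_le_mul_of_nonneg_left
          (setIntegral_le_integral hf2 (Eventually.of_forall fun x => sq_nonneg _)) (abs_nonneg _)
  | succ n ih =>
    intro g hg hg'
    have hpg : ∀ e, ∀ p, pd e g p ≠ 0 → p ∈ S := fun e p hp => by
      by_contra hpS
      refine hp (pd_eq_zero_nhds e (eventually_of_mem (hS.isClosed.isOpen_compl.mem_nhds hpS)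
        fun q hq => by_contra fun h => hq (hg' q h)))
    have hps : ∀ e, ContDiff ℝ ∞ (pd e g) := fun e =>
      (hg.fderiv_right (m := ∞) (by norm_num)).clm_apply contDiff_const
    obtain ⟨C₀, hC0, hC₀⟩ := ih g hg hg'
    choose C₁ hC1 hC₁ using fun e => ih (pd e g) (hps e) (hpg e)
    choose C₂ hC2 hC₂ using fun z : Fin 4 × Fin 4 => ih (fun p => g p * A p z.2 z.1)
      (hg.mul (hAs z.2 z.1)) fun p hp => hg' p (left_ne_zero_of_mul hp)
    refine ⟨C₀ + 2 * ∑ e, C₁ e + 2 * 2 ^ 4 * ∑ z, C₂ z, add_nonneg (add_nonneg hC0 (mul_nonneg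
      (by norm_num) (Finset.sum_nonneg fun e _ => hC1 e))) (mul_nonneg (by norm_num)
      (Finset.sum_nonneg fun z _ => hC2 z)), fun f hf => ?_⟩
    have hm : ∀ m, sobR n (pd m f) ≤ sobR (n + 1) f := fun m =>
      (Finset.single_le_sum (fun d _ => sobR_nonneg n (pd d f)) (Finset.mem_univ m)).trans
        (le_add_of_nonneg_left (sobR_nonneg n f))
    have h0 : sobR n f ≤ sobR (n + 1) f :=
      le_add_of_nonneg_right (Finset.sum_nonneg fun d _ => sobR_nonneg n (pd d f))
    have e : ∀ e, pd e (fun p => g p * f (τ p)) = (fun p => pd e g p * f (τ p))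
        + ∑ m : Fin 4, fun p => g p * A p m e * pd m f (τ p) := fun e => by
      funext p
      have hf' := ((hf.1.differentiable (by norm_num)) (τ p)).hasFDerivAt
      have hc := hf'.comp p (hA p)
      rw [pd_mul_at e ((hg.differentiable (by norm_num)) p)
        (show DifferentiableAt ℝ (fun q => f (τ q)) p from hc.differentiableAt)]
      have hd : pd e (fun q => f (τ q)) p = ∑ m, A p m e * pd m f (τ p) := by
        have hv : A p *ᵥ Pi.single e 1 = ∑ m, A p m e • Pi.single (M := fun _ => ℝ) m 1 := by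
          funext k; simp [Finset.sum_apply, Pi.single_apply]
        rw [pd, show (fun q => f (τ q)) = f ∘ τ from rfl, hc.fderiv]
        show fderiv ℝ f (τ p) (A p *ᵥ Pi.single e 1) = _
        rw [hv, map_sum]
        simp [pd]
      simp only [hd, Pi.add_apply, Finset.sum_apply, Finset.mul_sum]
      rw [add_comm]
      congr 1
      first | ring | exact Finset.sum_congr rfl fun m _ => by ring
    have hstep : ∀ d, sobR n (pd d (fun p => g p * f (τ p)))
        ≤ 2 * (C₁ d * sobR (n + 1) f) + 2 * (2 ^ 4 * ((∑ m, C₂ (d, m)) * sobR (n + 1) f)) := fun d => by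
      have hterm : ∀ m ∈ (Finset.univ : Finset (Fin 4)),
          Sc fun p => g p * A p m d * pd m f (τ p) := fun m _ =>
        hsc (hg.mul (hAs m d)) (fun p hp => hg' p (left_ne_zero_of_mul hp)) (sc_pd hf m)
      rw [e d]
      refine (sobR_add_le n (hsc (hps d) (hpg d) hf) (sc_sum hterm)).trans (add_le_add
        (mul_le_mul_of_nonneg_left ((hC₁ d f hf).trans (mul_le_mul_of_nonneg_left h0 (hC1 d)))
          (by norm_num)) (mul_le_mul_of_nonneg_left ((sobR_sum_le n hterm).trans ?_) (by norm_num)))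
      rw [Finset.card_univ, Fintype.card_fin, Finset.sum_mul]
      refine mul_le_mul_of_nonneg_left (Finset.sum_le_sum fun m _ => ?_) (by norm_num)
      exact (hC₂ (d, m) _ (sc_pd hf m)).trans (mul_le_mul_of_nonneg_left (hm m) (hC2 _))
    simp only [sobR] at hstep ⊢
    refine (add_le_add ((hC₀ f hf).trans (mul_le_mul_of_nonneg_left h0 hC0))
      (Finset.sum_le_sum fun d _ => hstep d)).trans_eq ?_
    simp only [sobR, Fintype.sum_prod_type, Finset.sum_add_distrib, ← Finset.mul_sum,
      ← Finset.sum_mul]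
    ring

variable {N K : ℕ} {A : Atlas N K}

theorem sc_cutCoef_test {a : Amb N → MN N} (ha : IsTestX A a) (d : Fin K) (i k : Fin 4) :
    Sc (A.cutCoef d a i k) := by
  have hz : ∀ p, p ∉ Metric.closedBall (0 : Pt) (1 / 2) → A.cutCoef d a i k p = 0 := fun p hp => by
    simp only [Atlas.cutCoef]
    split_ifs with h
    · by_contra hne
      obtain ⟨q, hq, he⟩ := A.chi_supp d _ (A.psi_mem d p h) (left_ne_zero_of_mul hne)
      rw [← A.phi_psi d h, ← he, A.phi_psi d (closedBall_subset_box hq)] at hp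
      exact hp hq
    · rfl
  refine ⟨contDiff_iff_contDiffAt.2 fun p => ?_, HasCompactSupport.intro (isCompact_closedBall _ _) hz⟩
  by_cases hp : p ∈ Metric.closedBall (0 : Pt) (1 / 2)
  · have hb := isOpen_box.mem_nhds (closedBall_subset_box hp)
    refine ((((A.chi_smooth d).comp (A.psi_smooth d)).contDiffAt.mul
      ((ha.smooth d i k).contDiffAt hb))).congr_of_eventuallyEq (eventually_of_mem hb fun q hq => ?_)
    simp [Atlas.cutCoef, hq]
  · exact contDiffAt_const.congr_of_eventuallyEq
      (eventually_of_mem (Metric.isClosed_closedBall.isOpen_compl.mem_nhds hp) hz)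

/-- A cut off function of the chart image, equal to one near the half cube. -/
theorem exists_cutoff (d : Fin K) : ∃ (h : Amb N → ℝ) (S : Set (Amb N)), IsCompact S ∧
    ContDiff ℝ ∞ h ∧ (∀ x, h x ≠ 0 → x ∈ S) ∧ A.X ∩ S ⊆ A.psi d '' box ∧
    ∀ x ∈ A.psi d '' Metric.closedBall 0 (1 / 2), h x = 1 := by
  obtain ⟨U, hU, hXU⟩ := A.open_image d
  have hK : IsCompact (A.psi d '' Metric.closedBall 0 (1 / 2)) :=
    (isCompact_closedBall _ _).image (A.psi_cont d)
  have hKU : A.psi d '' Metric.closedBall 0 (1 / 2) ⊆ U := fun x hx =>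
    (hXU.symm ▸ A.mem_box_image hx : x ∈ A.X ∩ U).2
  obtain ⟨S, hS, hKS, hSU⟩ := exists_compact_between hK hU hKU
  obtain ⟨h, h0, h1, -⟩ := exists_contMDiffMap_zero_one_of_isClosed (n := ⊤) 𝓘(ℝ, Amb N)
    (isOpen_interior (s := S)).isClosed_compl hK.isClosed
    (Set.disjoint_left.2 fun x hx hx' => hx (hKS hx'))
  refine ⟨h, S, hS, contMDiff_iff_contDiff.1 h.contMDiff, fun x hx => interior_subset ?_,
    fun x hx => hXU ▸ ⟨hx.1, hSU hx.2⟩, fun x hx => h1 hx⟩
  by_contra hi
  exact hx (h0 hi)

namespace Ext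

theorem transferStmt : TransferStmt := by
  intro N K A J hJ n c th r hth hin
  have hsub : Metric.closedBall (0 : Pt) r ⊆ box := Metric.closedBall_subset_ball hin.1
  choose h S hS hh hhS hSX hh1 using exists_cutoff (A := A)
  let T : Fin K → Set Pt := fun d => Metric.closedBall 0 r ∩ A.psi c ⁻¹' S d
  have hT : ∀ d, IsCompact (T d) := fun d =>
    (isCompact_closedBall _ _).inter_right ((hS d).isClosed.preimage (A.psi_cont c))
  have hTo : ∀ d, T d ⊆ overlap A c d := fun d p hp =>
    ⟨hsub hp.1, hSX d ⟨A.psi_mem c p (hsub hp.1), hp.2⟩⟩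
  have hAs : ∀ d i k, ContDiff ℝ ∞ fun p => (A.L d * A.dmat c p) i k := fun d i k => by
    simp only [Matrix.mul_apply]
    exact ContDiff.sum fun a _ => contDiff_const.mul (A.dmat_smooth c a k)
  let g : Fin 4 → Fin 4 → Fin K × Fin 4 × Fin 4 → Pt → ℝ := fun i k z p =>
    th p * h z.1 (A.psi c p) * ((A.L z.1 * A.dmat c p) z.2.1 i * (A.L z.1 * A.dmat c p) z.2.2 k)
  have hgs : ∀ i k z, ∀ p, g i k z p ≠ 0 → p ∈ T z.1 := fun i k z p hp =>
    ⟨hin.2 p (left_ne_zero_of_mul (left_ne_zero_of_mul hp)),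
      hhS z.1 _ (right_ne_zero_of_mul (left_ne_zero_of_mul hp))⟩
  have hgd : ∀ i k z, ContDiff ℝ ∞ (g i k z) := fun i k z =>
    (hth.mul ((hh z.1).comp (A.psi_smooth c))).mul ((hAs _ _ _).mul (hAs _ _ _))
  choose C hC0 hC using fun w : (Fin 4 × Fin 4) × (Fin K × Fin 4 × Fin 4) =>
    sobR_comp_le (τ := A.trans w.2.1 c) (A := fun p => A.L w.2.1 * A.dmat c p) (hT w.2.1)
      (((Matrix.mulVecLin (A.L w.2.1)).toContinuousLinearMap.contDiff.comp
        ((A.psi_smooth c).sub contDiff_const) : _))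
      (fun p => trans_hasFDeriv A w.2.1 c p) (hAs w.2.1) ((trans_injOn A w.2.1 c).mono (hTo _))
      (fun p hp => A.det_trans_ne w.2.1 c (hTo _ hp).1 (hTo _ hp).2) n (g w.1.1 w.1.2 w.2)
      (hgd _ _ _) (hgs _ _ _)
  refine ⟨2 ^ Fintype.card (Fin K × Fin 4 × Fin 4) * ∑ w, C w,
    mul_nonneg (by positivity) (Finset.sum_nonneg fun w _ => hC0 w), fun a ha i k => ?_⟩
  have e : (fun p => th p * A.pull c a p i k) = ∑ z : Fin K × Fin 4 × Fin 4,
      fun p => g i k z p * A.cutCoef z.1 a z.2.1 z.2.2 (A.trans z.1 c p) := by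
    funext p
    rw [Finset.sum_apply]
    rcases eq_or_ne (th p) 0 with h0 | h0
    · simp [g, h0]
    have hp := hsub (hin.2 p h0)
    have hx := A.psi_mem c p hp
    rw [Fintype.sum_prod_type]
    calc th p * A.pull c a p i k = ∑ d, th p * (A.chi d (A.psi c p) * A.pull c a p i k) := by
          rw [← Finset.mul_sum, ← Finset.sum_mul, A.chi_sum _ hx, one_mul]
      _ = _ := Finset.sum_congr rfl fun d _ => ?_
    rcases eq_or_ne (A.chi d (A.psi c p)) 0 with hχ | hχ
    · rw [hχ, zero_mul, mul_zero]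
      refine (Finset.sum_eq_zero fun z _ => ?_).symm
      by_cases hS' : A.psi c p ∈ S d
      · have hm := hSX d ⟨hx, hS'⟩
        have : A.trans d c p ∈ box := A.phi_mem d hm
        simp [Atlas.cutCoef, this, show A.psi d (A.trans d c p) = A.psi c p from A.psi_phi d hm, hχ]
      · simp [g, show h d (A.psi c p) = 0 from by_contra fun hne => hS' (hhS d _ hne)]
    · have hm := A.supp_box hx hχ
      have : A.trans d c p ∈ box := A.phi_mem d hm
      rw [A.pull_trans d c hp hm a]
      simp only [g, Atlas.cutCoef, this, if_true, hh1 d _ (A.chi_supp d _ hx hχ),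
        show A.psi d (A.trans d c p) = A.psi c p from A.psi_phi d hm, Fintype.sum_prod_type]
      generalize A.L d * A.dmat c p = B
      simp only [Matrix.mul_apply, transpose_apply, Finset.sum_mul, Finset.mul_sum]
      rw [Finset.sum_comm]
      exact Finset.sum_congr rfl fun u _ => Finset.sum_congr rfl fun v _ => by ring
  have hsc : ∀ z ∈ (Finset.univ : Finset (Fin K × Fin 4 × Fin 4)),
      Sc fun p => g i k z p * A.cutCoef z.1 a z.2.1 z.2.2 (A.trans z.1 c p) := fun z _ =>
    ⟨(hgd i k z).mul ((sc_cutCoef_test ha z.1 z.2.1 z.2.2).1.comp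
      ((Matrix.mulVecLin (A.L z.1)).toContinuousLinearMap.contDiff.comp
        ((A.psi_smooth c).sub contDiff_const))), HasCompactSupport.intro (hT z.1) fun p hp => by
      simp [show g i k z p = 0 from by_contra fun hne => hp (hgs i k z p hne)]⟩
  rw [e]
  refine (sobR_sum_le n hsc).trans ?_
  rw [Finset.card_univ, mul_assoc]
  refine mul_le_mul_of_nonneg_left ?_ (by positivity)
  simp only [Atlas.sob, Finset.mul_sum]
  rw [Fintype.sum_prod_type]
  refine Finset.sum_le_sum fun d _ => ?_
  rw [Fintype.sum_prod_type]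
  refine Finset.sum_le_sum fun u _ => Finset.sum_le_sum fun v _ => ?_
  exact (hC ((i, k), (d, u, v)) _ (sc_cutCoef_test ha d u v)).trans (mul_le_mul_of_nonneg_right
    (Finset.single_le_sum (fun w _ => hC0 w) (Finset.mem_univ _)) (sobR_nonneg n _))

end Ext

end Vale.Agent.P204.General
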