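import Vale.Agent.P204.General.Ext.Bound
import Vale.Agent.P204.General.Ext.Coer
import Vale.Agent.P204.General.Ext.Garding
import Vale.Agent.P204.General.Ext.Hahn
import Vale.Agent.P204.General.Ext.Limit
import Vale.Agent.P204.General.Ext.Modes
import Vale.Agent.P204.General.Ext.Op
import Vale.Agent.P204.General.Ext.Transfer

/-!
# P204, module C: conclusion
-/

namespace Vale.Agent.P204.General

/-- The a priori bound. -/
theorem boundStmt : BoundStmt :=
  boundStmt_of Ext.opStmt Ext.gardingStmt Ext.transferStmt Ext.limitStmt
    (Ext.coerStmt Ext.gardingStmt Ext.opStmt Ext.modesStmt) Ext.pullWStmt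

/-- The extension statement. -/
theorem extStmt : ExtStmt :=
  extStmt_of_bound boundStmt

end Vale.Agent.P204.General
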